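import Vale.Agent.P092.H766.Z4
import Vale.Agent.P092.H589.P2e
import Vale.Agent.P092.H541.CL.Fix0Lt

/-!
P092 (helper437), Team P, stage 2, row (I), end: **orthogonal source points commute** for the
letters `CL.lt`, Witt index `s + 2 ≥ 3`, every form, from the calculi of helper766's rank count.
-/

set_option linter.all false

open scoped InnerProductSpace ENNReal
open Filter Topology ContinuousLinearMap MeasureTheory TopologicalSpace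

namespace Vale.Agent.P092.H437.P2

open Set Module
open Vale.Agent.P092.H303 (FormGroup Idx hyp)
open Vale.Agent.P092.H714.Cl
open Vale.Agent.P092.H370.Po
open Vale.Agent.P092.H766.Z (Bs Cals)
open Vale.Agent.P092.CL (Lt Geo PB HFam lt V2)

section gen

variable {n : Type} [Fintype n] [DecidableEq n] {k : Type} [NontriviallyNormedField k]
  [ProperSpace k] [IsUltrametricDist k] {σ : k →+* k} [Fact (Continuous σ)] {ε : k}
  {J : Matrix n n k} {E Γ K : Type} [Group E] [TopologicalSpace E] [Group Γ]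
  [NormedAddCommGroup K] [InnerProductSpace ℂ K] [CompleteSpace K] {𝒰 : Ultrafilter ℕ}
  {ι : FormGroup σ J →* E} {π : E →* (K →L[ℂ] K)} {lam : Γ →* (K →L[ℂ] K)}
  {W : Set (K →L[ℂ] K)} {Ω : K} {m : Set Γ → (K →L[ℂ] K)} {q : Γ → FormGroup σ J}
  {V₁ V₂ : Type} [MeasurableSpace V₁] [MeasurableSpace V₂] [NormedAddCommGroup V₁]
  [NormedAddCommGroup V₂] [ProperSpace V₁] [BorelSpace V₁] {i₀ : ℕ}
  {G : ∀ j, SGr σ J j → (C(SGr σ J j, ℂ) →⋆ₐ[ℂ] (K →L[ℂ] K))}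

theorem gdat_of_cals {r : ℕ} (hG : Cals i₀ r (π.comp ι) lam W q G) : GDat ι π lam W q r G where
  cm j h1 h2 X f := hG.cm j h1 h2 X f
  cov j h1 h2 γ X f := hG.cov j h1 h2 X γ f _ fun Y => by
    change f ((q γ)⁻¹ • q γ • Y) = f Y
    rw [inv_smul_smul]
  pcov j h1 h2 g X f := by
    have h3 := hG.pcov j h1 h2 X g f
    change π (ι g) * G j X f * π (ι g⁻¹) = G j (g • X) f at h3
    rwa [map_inv ι g] at h3

/-- **(I)**: orthogonal points commute -/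
theorem pts_comm_cl (hF : Frm σ ε J) {N : ℕ} (hN : 2 ≤ N) (hW : WI σ J (N + 1))
    {L : Lt (FormGroup σ J) (SGr σ J 1) (SGr σ J (N + 1)) V₁ V₂}
    [IsFiniteMeasureOnCompacts L.μ₁] [L.μ₁.IsOpenPosMeasure] (geo : Geo L)
    (base : PB L 𝒰 ι π lam W Ω m q) (hb : Bs ι π lam W Ω q)
    (hG : Cals i₀ (N + 1) (π.comp ι) lam W q G)
    (hdom : ∀ (g : FormGroup σ J) (u : C(SGr σ J 1, ℂ)) (A : Set (SGr σ J 1)), IsOpen A →
      tsupport u ⊆ A → ∀ ζ : K, ∀ ε > 0, ∃ R : ℝ, ∀ T > 0, ∀ᶠ t : ℕ in (𝒰 : Filter ℕ),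
      ‖G 1 (g • L.p0) u ζ‖ ≤ ‖u‖ * ‖m (L.na1 q R T A) (π (ι (g * L.b1 ^ t * g⁻¹))⁻¹ ζ)‖ + ε)
    (fix : Fix0 L) (cnt : Cnt0 L q K) (a b : SGr σ J 1) (hab : H370.Po.Col a b) (f g) :
    Commute (G 1 a f) (G 1 b g) := by
  have hP := hG.calP hb hF hW (by omega)
  exact pts_commS hF hW hF hN L.m0 hP
    (key0_of_cnt hF (by omega) geo base (gdat_of_cals hG) hP hdom fix cnt) a b hab f g

end gen

section letters

variable {k : Type} [NontriviallyNormedField k] [ProperSpace k] [IsUltrametricDist k]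
  [MeasurableSpace k] [BorelSpace k] {ι₀ : Type} [Fintype ι₀] [DecidableEq ι₀] {s : ℕ}
  {σ : k →+* k} [Fact (Continuous σ)] {ε : k} {J₀ : Matrix ι₀ ι₀ k}
  {E Γ K : Type} [Group E] [TopologicalSpace E] [Group Γ]
  [NormedAddCommGroup K] [InnerProductSpace ℂ K] [CompleteSpace K] {𝒰 : Ultrafilter ℕ}
  {ι : FormGroup σ (hyp (s + 2) ε J₀) →* E} {π : E →* (K →L[ℂ] K)} {lam : Γ →* (K →L[ℂ] K)}
  {W : Set (K →L[ℂ] K)} {Ω : K} {m : Set Γ → (K →L[ℂ] K)}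
  {q : Γ → FormGroup σ (hyp (s + 2) ε J₀)} {i₀ : ℕ}
  {G : ∀ j, SGr σ (hyp (s + 2) ε J₀) j →
    (C(SGr σ (hyp (s + 2) ε J₀) j, ℂ) →⋆ₐ[ℂ] (K →L[ℂ] K))}

/-- **(I) for the letters `CL.lt`**, Witt index at least `3` -/
theorem pts_comm_lt (hF : Frm σ ε (hyp (s + 2) ε J₀)) (hs : 1 ≤ s)
    (hW : WI σ (hyp (s + 2) ε J₀) (s + 2)) (hσ : ∀ x, ‖σ x‖ = ‖x‖) {w : k} (hw : w ≠ 0)
    (hwσ : σ w = w) (μ₁ : Measure k) (μ₂ : Measure (V2 σ ε)) [IsFiniteMeasureOnCompacts μ₁]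
    [μ₁.IsOpenPosMeasure] (geo : Geo (lt hF hw hwσ μ₁ μ₂))
    (base : PB (lt hF hw hwσ μ₁ μ₂) 𝒰 ι π lam W Ω m q) (hb : Bs ι π lam W Ω q)
    (hG : Cals i₀ (s + 2) (π.comp ι) lam W q G)
    (hdom : ∀ (g : FormGroup σ (hyp (s + 2) ε J₀)) (u : C(SGr σ (hyp (s + 2) ε J₀) 1, ℂ))
      (A : Set (SGr σ (hyp (s + 2) ε J₀) 1)), IsOpen A →
      tsupport u ⊆ A → ∀ ζ : K, ∀ ε' > 0, ∃ R : ℝ, ∀ T > 0, ∀ᶠ t : ℕ in (𝒰 : Filter ℕ),
      ‖G 1 (g • (lt hF hw hwσ μ₁ μ₂).p0) u ζ‖ ≤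
        ‖u‖ * ‖m ((lt hF hw hwσ μ₁ μ₂).na1 q R T A)
          (π (ι (g * (lt hF hw hwσ μ₁ μ₂).b1 ^ t * g⁻¹))⁻¹ ζ)‖ + ε')
    (a b : SGr σ (hyp (s + 2) ε J₀) 1) (hab : H370.Po.Col a b) (f g) :
    Commute (G 1 a f) (G 1 b g) := by
  haveI : IsFiniteMeasureOnCompacts (lt hF hw hwσ μ₁ μ₂).μ₁ :=
    inferInstanceAs (IsFiniteMeasureOnCompacts μ₁)
  haveI : (lt hF hw hwσ μ₁ μ₂).μ₁.IsOpenPosMeasure := inferInstanceAs (μ₁.IsOpenPosMeasure)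
  haveI : ProperSpace k := inferInstance
  exact pts_comm_cl (N := s + 1) hF (by omega) hW geo base hb hG hdom
    (fun P c l b _ hl hb hcb hcl _ => H541.CLF.fix0 hF hw hwσ μ₁ μ₂ P c l b hl hb hcb hcl)
    (H589.P2.cnt0_lt hF hσ hw hwσ μ₁ μ₂ base.ud K) a b hab f g

end letters

end Vale.Agent.P092.H437.P2
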