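import Vale.Agent.P092.H437.P2Td
import Vale.Agent.P092.H370.Po3

/-!
P092 (helper437), Team P, stage 2, row (I), part 3: **`KEY_0` implies that orthogonal source points
commute**, rank `N + 1 ≥ 3`.

Source: singular subspaces (`SGr`, letters of `H370.Po3`) of any form, any field.  Target: compact
totally disconnected spaces `Y j` with closed incidence `In` and perpendicularity `O j` of points
and elements of `Y j`.
-/

set_option linter.all false

open Matrix Set Topology Module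

namespace Vale.Agent.P092.H437.P2

open Vale.Agent.P092.H714.Cl
open Vale.Agent.P092.H370.Po
open Vale.Agent.P092.H100.Gr (Gr)
open Vale.Agent.P092.H232 (Nin join)
open Vale.Agent.P092.H218.NC (tsupport_star nin_swap exists_line eq_of_le₀)

/-- perpendicularity of points and subspaces of the target -/
structure TgO (r : ℕ) (Y : ℕ → Type*) [∀ j, TopologicalSpace (Y j)]
    (In : ∀ i j, Y i → Y j → Prop) (O : ∀ j, Y 1 → Y j → Prop) : Prop where
  closed : ∀ j, IsClosed {q : Y 1 × Y j | O j q.1 q.2}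
  hyp : ∀ j b (z : Y (j + 1)) (x x' : Y j), ¬ O (j + 1) b z → In j (j + 1) x z →
    In j (j + 1) x' z → O j b x → O j b x' → x = x'
  max : ∀ b (y : Y r), O r b y → In 1 r b y

variable {n : Type} [Fintype n] [DecidableEq n] {k : Type} [Field k]
  {σ : k →+* k} {ε : k} {J : Matrix n n k}
  {Y : ℕ → Type*} [∀ j, TopologicalSpace (Y j)] [∀ j, CompactSpace (Y j)] [∀ j, T2Space (Y j)]
  {K : Type*} [NormedAddCommGroup K] [InnerProductSpace ℂ K] [CompleteSpace K]

/-- calculi of the singular subspaces of the source: flags commute and are incident, different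
subspaces in a common one of the next dimension nowhere agree, nor two maximal ones with a common
hyperplane -/
structure CalP (r : ℕ) (In : ∀ i j, Y i → Y j → Prop)
    (G : ∀ j, SGr σ J j → (C(Y j, ℂ) →⋆ₐ[ℂ] (K →L[ℂ] K))) : Prop where
  com : ∀ i j, 1 ≤ i → i ≤ j → j ≤ r → ∀ (X : SGr σ J i) (X' : SGr σ J j), Inc X X' →
    ∀ f f', Commute (G i X f) (G j X' f')
  inc : ∀ i j, 1 ≤ i → i ≤ j → j ≤ r → ∀ (X : SGr σ J i) (X' : SGr σ J j), Inc X X' →
    ∀ u h, Nin (In i j) u h → G i X u * G j X' h = 0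
  agr : ∀ j, 1 ≤ j → j < r → ∀ A B : SGr σ J j, A ≠ B →
    (∃ X : SGr σ J (j + 1), Inc A X ∧ Inc B X) → ∀ ξ : K,
    (∀ f, G j A f ξ = G j B f ξ) → ξ = 0
  agrM : ∀ A B : SGr σ J r, A ≠ B → (∃ M : SGr σ J (r - 1), Inc M A ∧ Inc M B) → ∀ ξ : K,
    (∀ f, G r A f ξ = G r B f ξ) → ξ = 0

/-- **KEY_0** -/
def Key0 (r : ℕ) (O : ∀ j, Y 1 → Y j → Prop)
    (G : ∀ j, SGr σ J j → (C(Y j, ℂ) →⋆ₐ[ℂ] (K →L[ℂ] K))) : Prop :=
  ∀ (P : SGr σ J r) (c : SGr σ J 1) (l : SGr σ J 2) (b : SGr σ J 1), ¬ Inc c P → Inc l P →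
    Inc b P → Col c b → ¬ Col c l → ¬ Inc b l → ∀ (u : C(Y 1, ℂ)) (f : C(Y 2, ℂ))
    (a : C(Y 1, ℂ)), Nin (O 1) a u → G 1 c u * G 2 l f * G 1 b a = 0

/-- the point of a vector of a singular space -/
def spt {j : ℕ} (X : SGr σ J j) (v : n → k) (hv : v ∈ X.S) (h0 : v ≠ 0) : SGr σ J 1 :=
  SGr.mk' (Submodule.span k {v})
    (X.sing.mono ((Submodule.span_singleton_le_iff_mem _ _).2 hv)) (finrank_span_singleton h0)

theorem spt_inc {i j : ℕ} {X : SGr σ J j} {v : n → k} {hv : v ∈ X.S} {h0 : v ≠ 0}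
    {Z : SGr σ J i} : Inc (spt X v hv h0) Z ↔ v ∈ Z.S :=
  Submodule.span_singleton_le_iff_mem _ _

/-- two hyperplanes of `Z` not contained in `P` -/
theorem exists_two_hyp {j r : ℕ} (hj : 1 ≤ j) (Z : SGr σ J (j + 1)) (P : SGr σ J r)
    (h : ¬ Inc Z P) : ∃ H₁ H₂ : SGr σ J j, H₁ ≠ H₂ ∧ Inc H₁ Z ∧ Inc H₂ Z ∧ ¬ Inc H₁ P ∧
      ¬ Inc H₂ P := by
  obtain ⟨y₀, hy₀, hy₀P⟩ := SetLike.not_le_iff_exists.1 h
  have h00 : y₀ ≠ 0 := fun h => hy₀P (h ▸ P.S.zero_mem)
  obtain ⟨H₁, h1, h2⟩ := exists_inc_between (l := j) hj (Nat.le_succ j)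
    (spt_inc (X := Z) (hv := hy₀) (h0 := h00).2 hy₀)
  have hy₀H : y₀ ∈ H₁.S := spt_inc.1 h1
  have h3 : ¬ Z.S ≤ H₁.S := fun hle => by
    have := Submodule.finrank_mono hle
    rw [Z.dim, H₁.dim] at this
    omega
  obtain ⟨y₁, hy₁, hy₁H⟩ := SetLike.not_le_iff_exists.1 h3
  obtain ⟨p, hpZ, hpH, hpP⟩ : ∃ p ∈ Z.S, p ∉ H₁.S ∧ p ∉ P.S := by
    by_cases hP : y₁ ∈ P.S
    · refine ⟨y₀ + y₁, Z.S.add_mem hy₀ hy₁, fun hh => hy₁H ?_, fun hh => hy₀P ?_⟩
      · have := H₁.S.sub_mem hh hy₀H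
        rwa [add_sub_cancel_left] at this
      · have := P.S.sub_mem hh hP
        rwa [add_sub_cancel_right] at this
    · exact ⟨y₁, hy₁, hy₁H, hP⟩
  have hp0 : p ≠ 0 := fun h => hpP (h ▸ P.S.zero_mem)
  obtain ⟨H₂, h4, h5⟩ := exists_inc_between (l := j) hj (Nat.le_succ j)
    (spt_inc (X := Z) (hv := hpZ) (h0 := hp0).2 hpZ)
  have hpH₂ : p ∈ H₂.S := spt_inc.1 h4
  exact ⟨H₁, H₂, fun he => hpH (he ▸ hpH₂), h2, h5, fun hh => hy₀P (hh hy₀H),
    fun hh => hpP (hh hpH₂)⟩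

section key

variable [∀ j, TotallyDisconnectedSpace (Y j)] {In : ∀ i j, Y i → Y j → Prop}
  {O : ∀ j, Y 1 → Y j → Prop} {G : ∀ j, SGr σ J j → (C(Y j, ℂ) →⋆ₐ[ℂ] (K →L[ℂ] K))} {r : ℕ}

/-- step (a): all subspaces of `Q = ⟨c, M⟩` not in `P` have values perpendicular to `b'` -/
theorem key_a (hT : Tg Y In) (hO : TgO r Y In O) (hG : CalP r In G) (hK : Key0 r O G)
    {P Q : SGr σ J r} {l : SGr σ J 2} {b : SGr σ J 1} (hlP : Inc l P) (hbP : Inc b P)
    (hbQ : Inc b Q) (hbl : ¬ Inc b l)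
    (hQ : ∀ c : SGr σ J 1, Inc c Q → ¬ Inc c P → ¬ Col c l) :
    ∀ j, 1 ≤ j → j ≤ r → ∀ Z : SGr σ J j, Inc Z Q → ¬ Inc Z P →
      ∀ (u : C(Y j, ℂ)) (f : C(Y 2, ℂ)) (a : C(Y 1, ℂ)), Nin (O j) a u →
        G j Z u * G 2 l f * G 1 b a = 0 := by
  intro j hj
  induction j, hj using Nat.le_induction with
  | base =>
    intro _ c hcQ hcP u f a h
    refine hK P c l b hcP hlP hbP ?_ (hQ c hcQ hcP) hbl u f a h
    exact fun x hx y hy => Q.sing x (hcQ hx) y (hbQ hy)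
  | succ j hj ih =>
    intro hjr Z hZQ hZP u f a h
    obtain ⟨H₁, H₂, hne, h1, h2, h3, h4⟩ := exists_two_hyp hj Z P hZP
    have hag := fun g => agree (I := In j (j + 1)) (O := O j) (O' := O (j + 1))
      (hT.closed j (j + 1)) (hO.closed j) (fun b z x x' => hO.hyp j b z x x')
      (φ₁ := G j H₁) (φ₂ := G j H₂) (ψ := G (j + 1) Z) (β := G 1 b) (S := G 2 l f)
      (fun g u => hG.com j (j + 1) hj (by omega) hjr H₁ Z h1 g u)
      (fun g u => hG.com j (j + 1) hj (by omega) hjr H₂ Z h2 g u)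
      (fun g u => hG.inc j (j + 1) hj (by omega) hjr H₁ Z h1 g u)
      (fun g u => hG.inc j (j + 1) hj (by omega) hjr H₂ Z h2 g u)
      (fun g a hn => ih (by omega) H₁ (h1.trans hZQ) h3 g f a hn)
      (fun g a hn => ih (by omega) H₂ (h2.trans hZQ) h4 g f a hn) u a h g
    ext ξ
    refine hG.agr j hj (by omega) H₁ H₂ hne ⟨Z, h1, h2⟩ _ fun g => ?_
    have := congrArg (fun T : K →L[ℂ] K => T ξ) (hag g)
    simp only [ContinuousLinearMap.mul_apply, ContinuousLinearMap.sub_apply,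
      ContinuousLinearMap.zero_apply, sub_eq_zero] at this
    simpa only [ContinuousLinearMap.mul_apply] using this

end key

section exc

/-- the second maximal subspace through the hyperplane `M` of `P` -/
theorem exists_Q (hF : Frm σ ε J) {N : ℕ} {P : SGr σ J (N + 1)} {M : SGr σ J N}
    {l : SGr σ J 2} (hMP : Inc M P) (hlP : Inc l P) (hlM : ¬ Inc l M) :
    ∃ Q : SGr σ J (N + 1), Inc M Q ∧ Q ≠ P ∧
      ∀ c : SGr σ J 1, Inc c Q → ¬ Inc c P → ¬ Col c l := by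
  obtain ⟨u, hul, huM⟩ := SetLike.not_le_iff_exists.1 hlM
  have huP : u ∈ P.S := hlP hul
  obtain ⟨φ, hφ1, hφ0⟩ := exists_functional hMP huP huM
  have hφ : φ ≠ 0 := fun h => by
    rw [h] at hφ1
    exact zero_ne_one hφ1
  obtain ⟨v, hv, hvφ⟩ := exists_iso_prod hF P.sing φ hφ
  have huv : hf σ J u v = 1 := by
    rw [hvφ ⟨u, huP⟩, hφ1]
  have hMv : ∀ x ∈ M.S, hf σ J x v = 0 := fun x hx => by
    rw [hvφ ⟨x, hMP hx⟩, hφ0 ⟨x, hMP hx⟩ hx]
  have hvP : v ∉ P.S := fun h => by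
    have := P.sing u huP v h
    rw [huv] at this
    exact one_ne_zero this
  have hvM : v ∉ M.S := fun h => hvP (hMP h)
  refine ⟨SGr.mk' (M.S ⊔ Submodule.span k {v}) (sing_sup_span hF M.sing hv hMv)
    (by rw [finrank_sup_span hvM, M.dim]), le_sup_left, fun he => hvP ?_, ?_⟩
  · rw [← he]
    exact (le_sup_right : Submodule.span k {v} ≤ _) (Submodule.mem_span_singleton_self v)
  · intro c hcQ hcP hcl
    obtain ⟨w, hwc, hwP⟩ := SetLike.not_le_iff_exists.1 hcP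
    have hwQ : w ∈ M.S ⊔ Submodule.span k {v} := hcQ hwc
    obtain ⟨m, hm, t, ht, rfl⟩ := Submodule.mem_sup.1 hwQ
    obtain ⟨d, rfl⟩ := Submodule.mem_span_singleton.1 ht
    have h1 : hf σ J (m + d • v) u = 0 := hcl _ hwc u hul
    rw [hf_add_left, hf_smul_left, P.sing m (hMP hm) u huP, zero_add] at h1
    rcases mul_eq_zero.1 h1 with h2 | h2
    · apply hwP
      rw [h2, zero_smul, add_zero]
      exact hMP hm
    · have := hF.symm_zero h2
      rw [huv] at this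
      exact one_ne_zero this

end exc

section inP

variable [∀ j, TotallyDisconnectedSpace (Y j)] {In : ∀ i j, Y i → Y j → Prop}
  {O : ∀ j, Y 1 → Y j → Prop} {G : ∀ j, SGr σ J j → (C(Y j, ℂ) →⋆ₐ[ℂ] (K →L[ℂ] K))} {N : ℕ}

/-- step (b): `Key₁` inside the maximal subspace `P` -/
theorem key_b (hF : Frm σ ε J) (hN : 2 ≤ N) (hT : Tg Y In) (hO : TgO (N + 1) Y In O)
    (hG : CalP (N + 1) In G) (hK : Key0 (N + 1) O G) {P : SGr σ J (N + 1)} {M : SGr σ J N}
    {l : SGr σ J 2} {b : SGr σ J 1} (hMP : Inc M P) (hlP : Inc l P) (hlM : ¬ Inc l M)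
    (hbM : Inc b M) (hbl : ¬ Inc b l) (u) (g) (a) (h : Nin (In 1 N) a u) :
    G N M u * G 2 l g * G 1 b a = 0 := by
  obtain ⟨Q, hMQ, hQP, hQ⟩ := exists_Q hF hMP hlP hlM
  have hbP := hbM.trans hMP
  have hbQ := hbM.trans hMQ
  have hQP' : ¬ Inc Q P := fun h => hQP (SGr.eq_of_le h)
  have key : ∀ (f : C(Y 2, ℂ)) (s : C(Y (N + 1), ℂ)) (a : C(Y 1, ℂ)),
      Nin (In 1 (N + 1)) a s → G (N + 1) Q s * G 2 l f * G 1 b a = 0 := by
    intro f s a hn
    refine key_a hT hO hG hK hlP hbP hbQ hbl hQ (N + 1) (by omega) le_rfl Q (Inc.refl Q) hQP'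
      s f a fun x hx y hy hxy => hn x hx y hy (hO.max x y hxy)
  have main := join (I₁ := fun x z => In 1 (N + 1) x z) (I₂ := fun x z => In N (N + 1) x z)
    (J := fun x y => In 1 N x y) (hT.closed 1 (N + 1)) (hT.closed N (N + 1))
    (fun x y hxy z z' h1 h2 h3 h4 => hT.join 1 N x y hxy z z' h1 h2 h3 h4)
    (G 1 b) (G N M) (G 2 l (star g)) (G (N + 1) P) (G (N + 1) Q)
    (fun u v => hG.com 1 (N + 1) (by omega) (by omega) le_rfl b P hbP u v)
    (fun a v => hG.com N (N + 1) (by omega) (by omega) le_rfl M P hMP a v)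
    (fun v => hG.com 2 (N + 1) (by omega) (by omega) le_rfl l P hlP _ v)
    (fun a s => hG.com N (N + 1) (by omega) (by omega) le_rfl M Q hMQ a s)
    (fun u v huv => hG.inc 1 (N + 1) (by omega) (by omega) le_rfl b P hbP u v huv)
    (fun a v hav => hG.inc N (N + 1) (by omega) (by omega) le_rfl M P hMP a v hav)
    (fun a s has => hG.inc N (N + 1) (by omega) (by omega) le_rfl M Q hMQ a s has)
    (hG.agrM P Q hQP.symm ⟨M, hMP, hMQ⟩) (D := univ) isOpen_univ
    (fun u' s _ hus => ?_) (star a) (star u) (subset_univ _) ?_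
  · have h2 := congrArg star main
    simpa only [star_mul, map_star, star_star, star_zero, mul_assoc] using h2
  · have h1 := key g (star s) (star u') (fun x hx y hy => by
      rw [tsupport_star] at hx hy
      exact hus x hx y hy)
    have h2 := congrArg star h1
    simpa only [star_mul, map_star, star_star, star_zero, mul_assoc] using h2
  · intro x hx y hy
    rw [tsupport_star] at hx hy
    exact h x hx y hy

end inP

section emb

variable {N : ℕ}

/-- coordinates of a singular space -/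
noncomputable def psi (P : SGr σ J (N + 1)) : (Fin (N + 1) → k) →ₗ[k] (n → k) :=
  P.S.subtype ∘ₗ (Module.finBasisOfFinrankEq k P.S P.dim).equivFun.symm.toLinearMap

theorem psi_inj (P : SGr σ J (N + 1)) : Function.Injective (psi P) :=
  (Submodule.injective_subtype _).comp
    (Module.finBasisOfFinrankEq k P.S P.dim).equivFun.symm.injective

theorem psi_range (P : SGr σ J (N + 1)) : LinearMap.range (psi P) = P.S := by
  unfold psi
  rw [LinearMap.range_comp, LinearEquiv.range, Submodule.map_top, Submodule.range_subtype]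

theorem map_psi_le (P : SGr σ J (N + 1)) (X : Submodule k (Fin (N + 1) → k)) :
    X.map (psi P) ≤ P.S := by
  rw [← psi_range P]
  exact LinearMap.map_le_range

/-- subspaces of `P` -/
noncomputable def emb (P : SGr σ J (N + 1)) {j : ℕ} (X : Gr k (Fin (N + 1)) j) : SGr σ J j :=
  SGr.mk' (X.1.map (psi P)) (P.sing.mono (map_psi_le P X.1)) (by
    rw [← (Submodule.equivMapOfInjective (psi P) (psi_inj P) X.1).finrank_eq]
    exact X.2)

theorem emb_inc (P : SGr σ J (N + 1)) {i j : ℕ} {X : Gr k (Fin (N + 1)) i}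
    {X' : Gr k (Fin (N + 1)) j} : Inc (emb P X) (emb P X') ↔ X.1 ≤ X'.1 :=
  Submodule.map_le_map_iff_of_injective (psi_inj P) _ _

theorem emb_P (P : SGr σ J (N + 1)) {j : ℕ} (X : Gr k (Fin (N + 1)) j) : Inc (emb P X) P :=
  map_psi_le P X.1

theorem emb_inj (P : SGr σ J (N + 1)) {j : ℕ} {X X' : Gr k (Fin (N + 1)) j}
    (h : emb P X = emb P X') : X = X' := by
  have h1 : Inc (emb P X) (emb P X') := h ▸ Inc.refl _
  exact eq_of_le₀ ((emb_inc P).1 h1)

theorem emb_surj (P : SGr σ J (N + 1)) {j : ℕ} (Z : SGr σ J j) (h : Inc Z P) :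
    ∃ X : Gr k (Fin (N + 1)) j, emb P X = Z := by
  have h1 : (Z.S.comap (psi P)).map (psi P) = Z.S := by
    rw [Submodule.map_comap_eq, psi_range]
    exact inf_eq_right.2 h
  have h2 : finrank k ↥(Z.S.comap (psi P)) = j := by
    rw [(Submodule.equivMapOfInjective (psi P) (psi_inj P) _).finrank_eq, h1]
    exact Z.dim
  exact ⟨⟨Z.S.comap (psi P), h2⟩, SGr.ext h1⟩

end emb

section out

variable [∀ j, TotallyDisconnectedSpace (Y j)] {In : ∀ i j, Y i → Y j → Prop}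
  {O : ∀ j, Y 1 → Y j → Prop} {G : ∀ j, SGr σ J j → (C(Y j, ℂ) →⋆ₐ[ℂ] (K →L[ℂ] K))} {N : ℕ}

theorem cal_emb (hG : CalP (N + 1) In G) (P : SGr σ J (N + 1)) (hN : 2 ≤ N) :
    Cal In (fun j X => G j (emb P X)) where
  com i j h1 h2 h3 X X' h f f' := hG.com i j h1 h2 (by omega) _ _ ((emb_inc P).2 h) f f'
  inc i j h1 h2 h3 X X' h u f := hG.inc i j h1 h2 (by omega) _ _ ((emb_inc P).2 h) u f
  agr₁ a b hab := by
    obtain ⟨l, hal, hbl⟩ := exists_line a b hab
    exact hG.agr 1 le_rfl (by omega) _ _ (fun h => hab (emb_inj P h))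
      ⟨emb P l, (emb_inc P).2 hal, (emb_inc P).2 hbl⟩
  agr j h1 h2 A B hAB hX := by
    obtain ⟨X, hXA, hXB⟩ := hX
    have h3 : ¬ A.1 ≤ B.1 := fun h => hAB (eq_of_le₀ h)
    have h4 := Submodule.finrank_sup_add_finrank_inf_eq A.1 B.1
    have h5 : finrank k X.1 ≤ finrank k ↥(A.1 ⊓ B.1) := Submodule.finrank_mono (le_inf hXA hXB)
    have h6 := Vale.Agent.P092.H218.NC.finrank_sup_ge h3
    rw [A.2, B.2] at h4
    rw [B.2] at h6
    rw [X.2] at h5
    have h7 : finrank k ↥(A.1 ⊔ B.1) = j + 1 + 1 := by omega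
    let C : Gr k (Fin (N + 1)) (j + 1 + 1) := ⟨A.1 ⊔ B.1, h7⟩
    exact hG.agr (j + 1) (by omega) (by omega) _ _ (fun h => hAB (emb_inj P h))
      ⟨emb P C, (emb_inc P).2 (le_sup_left : A.1 ≤ C.1),
        (emb_inc P).2 (le_sup_right : B.1 ≤ C.1)⟩

/-- **orthogonal points commute** -/
theorem pts_comm (hF : Frm σ ε J) (hN : 2 ≤ N) (Y₀ : SGr σ J (N + 1)) (hT : Tg Y In)
    (hO : TgO (N + 1) Y In O) (hG : CalP (N + 1) In G) (hK : Key0 (N + 1) O G)
    (a b : SGr σ J 1) (hab : Col a b) (f g) : Commute (G 1 a f) (G 1 b g) := by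
  -- a maximal subspace containing both points
  obtain ⟨P, haP, hbP⟩ : ∃ P : SGr σ J (N + 1), Inc a P ∧ Inc b P := by
    have hs : Sing σ J (a.S ⊔ b.S) := by
      unfold Sing
      rw [ort_sup_left, ort_sup_right, ort_sup_right]
      exact ⟨⟨a.sing, hab⟩, hab.symm hF, b.sing⟩
    have hd : finrank k ↥(a.S ⊔ b.S) ≤ 2 := by
      have := Submodule.finrank_add_le_finrank_add_finrank a.S b.S
      rw [a.dim, b.dim] at this
      exact this
    obtain ⟨P, hP⟩ := exists_inc_ge hF (l := N + 1) (by omega) le_rfl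
      (SGr.mk' (a.S ⊔ b.S) hs rfl) Y₀
    exact ⟨P, le_sup_left.trans hP, le_sup_right.trans hP⟩
  obtain ⟨a', rfl⟩ := emb_surj P a haP
  obtain ⟨b', rfl⟩ := emb_surj P b hbP
  refine points_comm (Y := Y) (In := In) (G := fun j X => G j (emb P X)) hN hT
    (cal_emb hG P hN) ?_ a' b' f g
  intro C l b hbC hlC hbl u g a hn
  exact key_b hF hN hT hO hG hK (emb_P P C) (emb_P P l) (fun h => hlC ((emb_inc P).1 h))
    ((emb_inc P).2 hbC) (fun h => hbl ((emb_inc P).1 h)) u g a hn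

end out

end Vale.Agent.P092.H437.P2
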