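import Vale.Agent.P092.H437.GoodR
import Vale.Agent.P092.H820.Pn

/-!
P092 (helper437), Team N, block [N-W0], part (B) on the projective space: functions `f` for which
`(T, x) ↦ f (T x)` is admissible (`Bas f`); they generate `C(P)` over every local field.
-/

set_option linter.unusedSectionVars false
set_option linter.unusedVariables false

namespace Vale.Agent.P092.H437

open Vale.Agent.P092.H218 Vale.Agent.P092.H820 Topology Matrix
open scoped LinearAlgebra.Projectivization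

section act

variable {k : Type*} [NormedField k] {n : Type*} [Fintype n]

/-- pairs (matrix, point) such that the matrix does not kill the point -/
def nzs (k : Type*) [NormedField k] (n : Type*) [Fintype n] :
    Set (Matrix n n k × ℙ k (n → k)) := {p | p.1 *ᵥ p.2.rep ≠ 0}

open Classical in
/-- `f (T x)` -/
noncomputable def evf (f : C(ℙ k (n → k), ℂ)) (T : Matrix n n k) (x : ℙ k (n → k)) : ℂ :=
  if h : T *ᵥ x.rep ≠ 0 then f (Projectivization.mk k (T *ᵥ x.rep) h) else 0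

lemma rep_eq (v : n → k) (hv : v ≠ 0) : ∃ c : kˣ, (Projectivization.mk k v hv).rep = c • v := by
  obtain ⟨c, hc⟩ := Projectivization.exists_smul_eq_mk_rep k v hv
  exact ⟨c, hc.symm⟩

lemma mulVec_unit (T : Matrix n n k) (c : kˣ) (v : n → k) : T *ᵥ (c • v) = c • (T *ᵥ v) := by
  rw [Units.smul_def, Units.smul_def, Matrix.mulVec_smul]

lemma nzs_mk (T : Matrix n n k) (v : n → k) (hv : v ≠ 0) :
    (T, Projectivization.mk k v hv) ∈ nzs k n ↔ T *ᵥ v ≠ 0 := by
  obtain ⟨c, hc⟩ := rep_eq v hv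
  change T *ᵥ (Projectivization.mk k v hv).rep ≠ 0 ↔ _
  rw [hc, mulVec_unit]
  exact smul_ne_zero_iff_ne c

lemma evf_mk (f : C(ℙ k (n → k), ℂ)) (T : Matrix n n k) (v : n → k) (hv : v ≠ 0)
    (h : T *ᵥ v ≠ 0) :
    evf f T (Projectivization.mk k v hv) = f (Projectivization.mk k (T *ᵥ v) h) := by
  obtain ⟨c, hc⟩ := rep_eq v hv
  have h' : T *ᵥ (Projectivization.mk k v hv).rep ≠ 0 := (nzs_mk T v hv).2 h
  unfold evf
  rw [dif_pos h']
  congr 1
  rw [Projectivization.mk_eq_mk_iff]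
  exact ⟨c, by rw [hc, mulVec_unit]⟩

lemma isOpen_act (O : Set (ℙ k (n → k))) (hO : IsOpen O) :
    IsOpen {p : Matrix n n k × ℙ k (n → k) |
      ∃ h : p.1 *ᵥ p.2.rep ≠ 0, Projectivization.mk k (p.1 *ᵥ p.2.rep) h ∈ O} := by
  have hq : IsOpenQuotientMap (Prod.map (id : Matrix n n k → Matrix n n k) (pj k n)) :=
    IsOpenQuotientMap.id.prodMap pj_oq
  rw [← hq.isQuotientMap.isOpen_preimage]
  have hcont : Continuous fun p : Matrix n n k × {v : n → k // v ≠ 0} => p.1 *ᵥ p.2.1 :=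
    continuous_fst.matrix_mulVec (continuous_subtype_val.comp continuous_snd)
  have hopen : IsOpen {p : Matrix n n k × {v : n → k // v ≠ 0} | p.1 *ᵥ p.2.1 ≠ 0} :=
    isOpen_ne_fun hcont continuous_const
  have hg : Continuous fun p : {p : Matrix n n k × {v : n → k // v ≠ 0} // p.1 *ᵥ p.2.1 ≠ 0} =>
      pj k n ⟨p.1.1 *ᵥ p.1.2.1, p.2⟩ :=
    pj_continuous.comp (Continuous.subtype_mk (hcont.comp continuous_subtype_val) _)
  have h1 := hopen.isOpenMap_subtype_val _ (hO.preimage hg)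
  convert h1 using 1
  ext ⟨T, v, hv⟩
  constructor
  · rintro ⟨h, hO'⟩
    have h' : T *ᵥ v ≠ 0 := (nzs_mk T v hv).1 h
    refine ⟨⟨(T, ⟨v, hv⟩), h'⟩, ?_, rfl⟩
    obtain ⟨c, hc⟩ := rep_eq v hv
    change Projectivization.mk k (T *ᵥ v) h' ∈ O
    have h2 : T *ᵥ (Projectivization.mk k v hv).rep ≠ 0 := h
    have e : Projectivization.mk k (T *ᵥ v) h' =
        Projectivization.mk k (T *ᵥ (Projectivization.mk k v hv).rep) h2 :=
      (Projectivization.mk_eq_mk_iff k _ _ h' h2).2 ⟨c⁻¹, by rw [hc, mulVec_unit, inv_smul_smul]⟩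
    rw [e]; exact hO'
  · rintro ⟨⟨⟨T', v', hv'⟩, h'⟩, hO', heq⟩
    obtain ⟨rfl, hvv⟩ := Prod.mk.inj heq
    have hvv' : v' = v := congrArg Subtype.val hvv
    subst hvv'
    have h : T' *ᵥ (Projectivization.mk k v' hv).rep ≠ 0 := (nzs_mk T' v' hv).2 h'
    refine ⟨h, ?_⟩
    obtain ⟨c, hc⟩ := rep_eq v' hv
    have e : Projectivization.mk k (T' *ᵥ v') h' =
        Projectivization.mk k (T' *ᵥ (Projectivization.mk k v' hv).rep) h :=
      (Projectivization.mk_eq_mk_iff k _ _ h' h).2 ⟨c⁻¹, by rw [hc, mulVec_unit, inv_smul_smul]⟩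
    change Projectivization.mk k (T' *ᵥ (Projectivization.mk k v' hv).rep) h ∈ O
    rw [← e]; exact hO'

/-- the basic functions -/
def Bas [ProperSpace k] (f : C(ℙ k (n → k), ℂ)) : Prop := Adm (evf f) (nzs k n)

/-- locally constant functions are basic -/
theorem bas_lc [ProperSpace k] (f : C(ℙ k (n → k), ℂ)) (hf : IsLocallyConstant f) : Bas f := by
  refine adm_of_ladm (ladm_const fun T₀ x₀ h0 => ?_)
  have h1 := isOpen_act (n := n) (f ⁻¹' {evf f T₀ x₀}) (hf.isOpen_fiber _)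
  have h2 : (T₀, x₀) ∈ {p : Matrix n n k × ℙ k (n → k) |
      ∃ h : p.1 *ᵥ p.2.rep ≠ 0, Projectivization.mk k (p.1 *ᵥ p.2.rep) h ∈
        f ⁻¹' {evf f T₀ x₀}} := by
    have h0' : T₀ *ᵥ x₀.rep ≠ 0 := h0
    refine ⟨h0', ?_⟩
    change f (Projectivization.mk k (T₀ *ᵥ x₀.rep) h0') = evf f T₀ x₀
    unfold evf
    rw [dif_pos h0']
  filter_upwards [h1.mem_nhds h2] with p hp
  obtain ⟨h, hh⟩ := hp
  refine ⟨h, ?_⟩
  have : evf f p.1 p.2 = f (Projectivization.mk k (p.1 *ᵥ p.2.rep) h) := by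
    unfold evf
    rw [dif_pos h]
  rw [this]
  exact hh

end act

/-! ### The archimedean fields -/

section arch

variable {k : Type*} [NormedField k] {n : Type*} [Fintype n] (σ : k →+* ℂ)

/-- `σ v_p conj (σ v_q) / |v|²` -/
noncomputable def Ef (p q : n) (v : n → k) : ℂ :=
  σ (v p) * star (σ (v q)) / ((∑ i, ‖v i‖ ^ 2 : ℝ) : ℂ)

variable {σ} (hσ : ∀ x, ‖σ x‖ = ‖x‖)
include hσ

lemma sig_cont : Continuous σ := AddMonoidHomClass.continuous_of_bound σ 1 fun x => by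
  rw [one_mul]; exact (hσ x).le

lemma sig_sq (x : k) : σ x * star (σ x) = ((‖x‖ ^ 2 : ℝ) : ℂ) := by
  rw [Complex.star_def, Complex.mul_conj', hσ]; norm_cast

lemma Ef_smul (p q : n) (c : kˣ) (v : n → k) : Ef σ p q (c • v) = Ef σ p q v := by
  have hc : ((‖(c : k)‖ ^ 2 : ℝ) : ℂ) ≠ 0 := by
    have : ‖(c : k)‖ ≠ 0 := norm_ne_zero_iff.2 c.ne_zero
    exact_mod_cast pow_ne_zero 2 this
  unfold Ef
  have e1 : σ ((c • v) p) * star (σ ((c • v) q)) =
      ((‖(c : k)‖ ^ 2 : ℝ) : ℂ) * (σ (v p) * star (σ (v q))) := by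
    rw [← sig_sq hσ]
    simp only [Pi.smul_apply, Units.smul_def, smul_eq_mul, map_mul, star_mul']
    ring
  have e2 : ((∑ i, ‖(c • v) i‖ ^ 2 : ℝ) : ℂ) =
      ((‖(c : k)‖ ^ 2 : ℝ) : ℂ) * ((∑ i, ‖v i‖ ^ 2 : ℝ) : ℂ) := by
    rw [← Complex.ofReal_mul]
    congr 1
    rw [Finset.mul_sum]
    refine Finset.sum_congr rfl fun i _ => ?_
    rw [Pi.smul_apply, Units.smul_def, smul_eq_mul, norm_mul, mul_pow]
  rw [e1, e2, mul_div_mul_left _ _ hc]

omit hσ in
lemma sumsq_pos {v : n → k} (hv : v ≠ 0) : 0 < ∑ i, ‖v i‖ ^ 2 := by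
  obtain ⟨i, hi⟩ : ∃ i, v i ≠ 0 := by
    by_contra hc
    push Not at hc
    exact hv (funext hc)
  exact Finset.sum_pos' (fun j _ => sq_nonneg _) ⟨i, Finset.mem_univ _, by
    have := norm_pos_iff.2 hi
    positivity⟩

/-- `Ef` as a continuous function on the projective space -/
noncomputable def EE (p q : n) : C(ℙ k (n → k), ℂ) :=
  ⟨fun x => Ef σ p q x.rep, by
    have hq : IsOpenQuotientMap (pj k n) := pj_oq
    rw [← hq.continuous_comp_iff]
    have : ((fun x : ℙ k (n → k) => Ef σ p q x.rep) ∘ pj k n) =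
        fun v : {v : n → k // v ≠ 0} => Ef σ p q v.1 := by
      funext v
      obtain ⟨c, hc⟩ := rep_eq v.1 v.2
      change Ef σ p q (Projectivization.mk k v.1 v.2).rep = _
      rw [hc, Ef_smul hσ]
    rw [this]
    unfold Ef
    have hs := sig_cont hσ
    refine Continuous.div ?_ ?_ (fun v => ?_)
    · exact (hs.comp ((continuous_apply p).comp continuous_subtype_val)).mul
        (hs.comp ((continuous_apply q).comp continuous_subtype_val)).star
    · exact Complex.continuous_ofReal.comp (continuous_finsetSum _ fun i _ =>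
        (((continuous_apply i).comp continuous_subtype_val).norm).pow 2)
    · exact_mod_cast (sumsq_pos v.2).ne'⟩

lemma EE_mk (p q : n) (v : n → k) (hv : v ≠ 0) :
    EE hσ p q (Projectivization.mk k v hv) = Ef σ p q v := by
  obtain ⟨c, hc⟩ := rep_eq v hv
  change Ef σ p q (Projectivization.mk k v hv).rep = _
  rw [hc, Ef_smul hσ]

omit hσ in
lemma sig_mulVec (T : Matrix n n k) (v : n → k) (p q : n) :
    σ ((T *ᵥ v) p) * star (σ ((T *ᵥ v) q)) =
      ∑ j : n × n, (σ (T p j.1) * star (σ (T q j.2))) * (σ (v j.1) * star (σ (v j.2))) := by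
  rw [Fintype.sum_prod_type]
  simp only [Matrix.mulVec, dotProduct, map_sum, map_mul, star_sum, star_mul']
  rw [Finset.sum_mul_sum]
  refine Finset.sum_congr rfl fun i _ => Finset.sum_congr rfl fun j _ => ?_
  ring

/-- the functions `EE` are basic -/
theorem bas_EE [ProperSpace k] (p q : n) : Bas (EE hσ p q) := by
  have hs := sig_cont hσ
  have hcT : ∀ a b : n, Continuous fun T : Matrix n n k => σ (T a b) := fun a b =>
    hs.comp (continuous_id.matrix_elem a b)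
  have hform : ∀ (T : Matrix n n k) (a b : n) (v : n → k) (hv : v ≠ 0),
      ∑ j : n × n, (σ (T a j.1) * star (σ (T b j.2))) * EE hσ j.1 j.2
        (Projectivization.mk k v hv) =
      σ ((T *ᵥ v) a) * star (σ ((T *ᵥ v) b)) / ((∑ i, ‖v i‖ ^ 2 : ℝ) : ℂ) := by
    intro T a b v hv
    rw [sig_mulVec, Finset.sum_div]
    refine Finset.sum_congr rfl fun j _ => ?_
    rw [EE_mk]
    unfold Ef
    ring
  have hden : ∀ (T : Matrix n n k) (v : n → k) (hv : v ≠ 0),
      ∑ j : n × n, (∑ a, σ (T a j.1) * star (σ (T a j.2))) * EE hσ j.1 j.2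
        (Projectivization.mk k v hv) =
      ((∑ i, ‖(T *ᵥ v) i‖ ^ 2 : ℝ) : ℂ) / ((∑ i, ‖v i‖ ^ 2 : ℝ) : ℂ) := by
    intro T v hv
    have : ∀ j : n × n, (∑ a, σ (T a j.1) * star (σ (T a j.2))) * EE hσ j.1 j.2
        (Projectivization.mk k v hv) = ∑ a, (σ (T a j.1) * star (σ (T a j.2))) *
          EE hσ j.1 j.2 (Projectivization.mk k v hv) := fun j => Finset.sum_mul _ _ _
    simp only [this]
    rw [Finset.sum_comm]
    simp only [hform]
    rw [← Finset.sum_div]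
    congr 1
    rw [Complex.ofReal_sum]
    exact Finset.sum_congr rfl fun a _ => sig_sq hσ _
  refine adm_of_ladm (ladm_rat (J := n × n) (fun j => EE hσ j.1 j.2)
    (fun j T => ∑ a, σ (T a j.1) * star (σ (T a j.2)))
    (fun j T => σ (T p j.1) * star (σ (T q j.2))) (fun j => ?_) (fun j => ?_) ?_ ?_)
  · exact continuous_finsetSum _ fun a _ => (hcT a j.1).mul (hcT a j.2).star
  · exact (hcT p j.1).mul (hcT q j.2).star
  · intro T x
    obtain ⟨v, rfl⟩ := pj_surj x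
    change (T, Projectivization.mk k v.1 v.2) ∈ nzs k n ↔ ∑ j : n × n, _ * EE hσ j.1 j.2
      (Projectivization.mk k v.1 v.2) ≠ 0
    rw [nzs_mk, hden]
    have h1 : ((∑ i, ‖v.1 i‖ ^ 2 : ℝ) : ℂ) ≠ 0 := by exact_mod_cast (sumsq_pos v.2).ne'
    constructor
    · intro h
      have h2 : ((∑ i, ‖(T *ᵥ v.1) i‖ ^ 2 : ℝ) : ℂ) ≠ 0 := by exact_mod_cast (sumsq_pos h).ne'
      exact div_ne_zero h2 h1
    · intro h h3
      apply h
      rw [h3]
      simp
  · intro T x hx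
    obtain ⟨v, rfl⟩ := pj_surj x
    have hv : T *ᵥ v.1 ≠ 0 := (nzs_mk T v.1 v.2).1 hx
    change evf (EE hσ p q) T (Projectivization.mk k v.1 v.2) = (∑ j : n × n, _ * EE hσ j.1 j.2
      (Projectivization.mk k v.1 v.2)) / ∑ j : n × n, _ * EE hσ j.1 j.2
      (Projectivization.mk k v.1 v.2)
    rw [hden, hform, evf_mk _ _ _ _ hv, EE_mk]
    unfold Ef
    have h1 : ((∑ i, ‖v.1 i‖ ^ 2 : ℝ) : ℂ) ≠ 0 := by exact_mod_cast (sumsq_pos v.2).ne'
    have h2 : ((∑ i, ‖(T *ᵥ v.1) i‖ ^ 2 : ℝ) : ℂ) ≠ 0 := by exact_mod_cast (sumsq_pos hv).ne'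
    field_simp

end arch

end Vale.Agent.P092.H437
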