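import Vale.Agent.P092.H437.CLKey0
import Vale.Agent.P092.H416.CLpt
import Vale.Agent.P092.H495.GrTd
import Vale.Agent.P092.SN.Defs

/-!
P092 (helper437), Team P, stage 2, row (I), part 7: bridges between the letters of `CL` (subspaces
of a formed space, any index type) and the letters of `SN` (columns, `Fin (N + 1)`): extension of
locally constant functions, the embeddings `im e`.
-/

set_option linter.all false

open scoped InnerProductSpace LinearAlgebra.Projectivization Matrix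
open Set Topology Module Matrix

namespace Vale.Agent.P092.H437.P2

section ext

variable {X Y : Type*} [TopologicalSpace X] [CompactSpace X] [T2Space X]
  [TotallyDisconnectedSpace X] [TopologicalSpace Y] [CompactSpace Y]

/-- locally constant functions extend along embeddings, with control of the supports -/
theorem ext_lc {p : Y → X} (hp : Continuous p) (hi : Function.Injective p) {a : C(Y, ℂ)}
    (ha : IsLocallyConstant ⇑a) {U : Set X} (hU : IsOpen U) (hs : p '' tsupport ⇑a ⊆ U) :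
    ∃ a' : C(X, ℂ), IsLocallyConstant ⇑a' ∧ tsupport ⇑a' ⊆ U ∧ a'.comp ⟨p, hp⟩ = a := by
  classical
  have h1 : ∀ c : ℂ, ∃ C : Set X, IsClopen C ∧ (c ≠ 0 → p '' (a ⁻¹' {c}) ⊆ C ∧
      C ⊆ U ∩ (p '' (a ⁻¹' {c}ᶜ))ᶜ) := by
    intro c
    by_cases hc : c = 0
    · exact ⟨∅, isClopen_empty, fun h => (h hc).elim⟩
    have hK : IsCompact (p '' (a ⁻¹' {c})) :=
      ((ha.isClopen_fiber c).isClosed.isCompact).image hp
    have hK' : IsCompact (p '' (a ⁻¹' {c}ᶜ)) :=
      ((ha.isClopen_fiber c).isOpen.isClosed_compl.isCompact).image hp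
    obtain ⟨C, h2, h3, h4⟩ := clopen_btw hK (hU.inter hK'.isClosed.isOpen_compl) (by
      rintro x ⟨y, hy, rfl⟩
      have hy' : a y = c := hy
      refine ⟨hs ⟨y, subset_tsupport _ ?_, rfl⟩, ?_⟩
      · change a y ≠ 0
        rw [hy']; exact hc
      · rintro ⟨z, hz, e⟩
        rw [hi e] at hz
        exact hz hy')
    exact ⟨C, h2, fun _ => ⟨h3, h4⟩⟩
  choose C hC hC' using h1
  obtain ⟨s, hs'⟩ : ∃ s : Finset ℂ, s = ha.range_finite.toFinset.erase 0 := ⟨_, rfl⟩
  obtain ⟨ch, hch⟩ : ∃ ch : ℂ → C(X, ℂ), ch = fun c =>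
    ⟨LocallyConstant.charFn ℂ (hC c), (LocallyConstant.charFn ℂ (hC c)).continuous⟩ := ⟨_, rfl⟩
  have hch1 : ∀ c x, x ∈ C c → ch c x = 1 := fun c x hx => by
    rw [hch]; exact (LocallyConstant.charFn_eq_one ℂ x (hC c)).2 hx
  have hch0 : ∀ c x, x ∉ C c → ch c x = 0 := fun c x hx => by
    rw [hch]; exact (LocallyConstant.charFn_eq_zero ℂ x (hC c)).2 hx
  refine ⟨∑ c ∈ s, c • ch c, ?_, ?_, ?_⟩
  · refine Finset.sum_induction _ (fun f : C(X, ℂ) => IsLocallyConstant ⇑f)
      (fun f g hf hg => ?_) ?_ fun c _ => ?_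
    · exact hf.add hg
    · exact IsLocallyConstant.const (0 : ℂ)
    · rw [hch]
      exact (LocallyConstant.charFn ℂ (hC c)).isLocallyConstant.comp fun z => c • z
  · have h2 : tsupport ⇑(∑ c ∈ s, c • ch c) ⊆ ⋃ c ∈ s, C c := by
      refine closure_minimal (fun x hx => ?_) (s.finite_toSet.isClosed_biUnion fun c _ =>
        (hC c).isClosed)
      by_contra h0
      apply hx
      rw [ContinuousMap.coe_sum, Finset.sum_apply]
      refine Finset.sum_eq_zero fun c hc => ?_
      change c • ch c x = 0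
      rw [hch0 c x fun h => h0 (mem_biUnion hc h), smul_zero]
    refine h2.trans (iUnion₂_subset fun c hc => ?_)
    have hc0 : c ≠ 0 := by
      rw [hs'] at hc
      exact (Finset.mem_erase.1 hc).1
    exact ((hC' c hc0).2).trans inter_subset_left
  · ext y
    change (∑ c ∈ s, c • ch c) (p y) = a y
    rw [ContinuousMap.coe_sum, Finset.sum_apply]
    change ∑ c ∈ s, c • ch c (p y) = a y
    have key : ∀ c ∈ s, c ≠ a y → c • ch c (p y) = 0 := by
      intro c hc hne
      have hc0 : c ≠ 0 := by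
        rw [hs'] at hc
        exact (Finset.mem_erase.1 hc).1
      rw [hch0 c (p y) fun h => ?_, smul_zero]
      exact ((hC' c hc0).2 h).2 ⟨y, fun h' => hne h'.symm, rfl⟩
    by_cases h0 : a y = 0
    · rw [h0]
      refine Finset.sum_eq_zero fun c hc => key c hc ?_
      rw [h0]
      intro h
      rw [hs', h] at hc
      exact (Finset.mem_erase.1 hc).1 rfl
    · have hm : a y ∈ s := by
        rw [hs', Finset.mem_erase]
        exact ⟨h0, ha.range_finite.mem_toFinset.2 ⟨y, rfl⟩⟩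
      rw [Finset.sum_eq_single_of_mem (a y) hm fun c hc hne => key c hc hne,
        hch1 (a y) (p y) ((hC' (a y) h0).1 ⟨y, rfl, rfl⟩), smul_eq_mul, mul_one]

end ext

open Vale.Agent.P092.H303 (FormGroup)
open Vale.Agent.P092.H714.Cl (hf Frm)
open Vale.Agent.P092.H370.Po
open Vale.Agent.P092.H100.Gr (Gr Fr)
open Vale.Agent.P092.H416.CL (cor roc cor_roc roc_cor Je rho rho_cor hf_cor pt pt_eq pt_smul
  exists_vec mem_of_span cor_ne roc_ne cor_smul)
open Vale.Agent.P092.H820 (pj)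
open Vale.Agent.P092.H644.Gr3 (p1)

section im

variable {n : Type} [Fintype n] [DecidableEq n] {k : Type} [NontriviallyNormedField k]
  {σ : k →+* k} {J : Matrix n n k} {N : ℕ}

/-- the coordinates -/
def corL (k : Type) [NontriviallyNormedField k] (e : n ≃ Fin (N + 1)) :
    (n → k) ≃ₗ[k] (Fin (N + 1) → k) := LinearEquiv.funCongrLeft k k e.symm

theorem corL_apply (e : n ≃ Fin (N + 1)) (v : n → k) : corL k e v = cor e v := rfl

/-- the same subspace in column letters -/
noncomputable def imG (e : n ≃ Fin (N + 1)) {j : ℕ} (X : Gr k n j) : Gr k (Fin (N + 1)) j :=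
  ⟨X.1.map (corL k e : (n → k) →ₗ[k] (Fin (N + 1) → k)),
    (LinearEquiv.finrank_map_eq (corL k e) X.1).trans X.2⟩

/-- **the embedding of the singular spaces** -/
noncomputable def im (e : n ≃ Fin (N + 1)) {j : ℕ} (X : SGr σ J j) : Gr k (Fin (N + 1)) j :=
  imG e X.1

theorem mem_im {e : n ≃ Fin (N + 1)} {j : ℕ} {X : SGr σ J j} {v : n → k} :
    cor e v ∈ (im e X).1 ↔ v ∈ X.S := by
  constructor
  · rintro ⟨w, hw, h⟩
    have : corL k e w = corL k e v := h
    rwa [← (corL k e).injective this]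
  · intro h
    exact ⟨v, h, rfl⟩

theorem mem_im' {e : n ≃ Fin (N + 1)} {j : ℕ} {X : SGr σ J j} {v : Fin (N + 1) → k} :
    v ∈ (im e X).1 ↔ roc e v ∈ X.S := by
  rw [← mem_im (e := e), cor_roc]

theorem im_le {e : n ≃ Fin (N + 1)} {i j : ℕ} {X : SGr σ J i} {Y : SGr σ J j} :
    (im e X).1 ≤ (im e Y).1 ↔ Inc X Y := by
  constructor
  · intro h v hv
    exact mem_im.1 (h (mem_im.2 hv))
  · intro h v hv
    exact mem_im'.2 (h (mem_im'.1 hv))

theorem im_inj (e : n ≃ Fin (N + 1)) {j : ℕ} :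
    Function.Injective (im e : SGr σ J j → Gr k (Fin (N + 1)) j) := by
  intro X Y h
  refine SGr.eq_of_le fun v hv => ?_
  have h1 : cor e v ∈ (im e X).1 := mem_im.2 hv
  rw [h] at h1
  exact mem_im.1 h1

theorem imG_cont (e : n ≃ Fin (N + 1)) {j : ℕ} :
    Continuous (imG e : Gr k n j → Gr k (Fin (N + 1)) j) := by
  rw [H100.Gr.sp_quot.continuous_iff]
  obtain ⟨φ, hφ⟩ : ∃ φ : Fr k n j → Fr k (Fin (N + 1)) j, ∀ v i, (φ v).1 i = cor e (v.1 i) := by
    refine ⟨fun v => ⟨fun i => cor e (v.1 i), ?_⟩, fun v i => rfl⟩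
    exact v.2.map' (corL k e : (n → k) →ₗ[k] (Fin (N + 1) → k)) (LinearEquiv.ker _)
  have e1 : (imG e ∘ H100.Gr.sp : Fr k n j → Gr k (Fin (N + 1)) j) =
      H100.Gr.sp ∘ φ := by
    funext v
    apply Subtype.ext
    change (Submodule.span k (range v.1)).map (corL k e : (n → k) →ₗ[k] (Fin (N + 1) → k)) =
      Submodule.span k (range (φ v).1)
    rw [Submodule.map_span]
    congr 1
    ext x
    constructor
    · rintro ⟨y, ⟨i, rfl⟩, rfl⟩
      exact ⟨i, hφ v i⟩
    · rintro ⟨i, rfl⟩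
      exact ⟨v.1 i, ⟨i, rfl⟩, (hφ v i).symm⟩
  rw [e1]
  refine H100.Gr.sp_cont.comp ?_
  refine continuous_induced_rng.2 ?_
  refine continuous_pi fun i => continuous_pi fun l => ?_
  have e2 : (fun v : Fr k n j => (φ v).1 i l) = fun v => v.1 i (e.symm l) :=
    funext fun v => congrFun (hφ v i) l
  change Continuous fun v : Fr k n j => (φ v).1 i l
  rw [e2]
  exact (continuous_apply (e.symm l)).comp ((continuous_apply i).comp H100.Gr.fr_val_cont)

theorem im_cont (e : n ≃ Fin (N + 1)) {j : ℕ} :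
    Continuous (im e : SGr σ J j → Gr k (Fin (N + 1)) j) := (imG_cont e).comp SGr.val_cont

theorem im_smul (e : n ≃ Fin (N + 1)) {j : ℕ} (g : FormGroup σ J) (X : SGr σ J j) :
    im e (g • X) = rho e σ J g • im e X := by
  refine H100.Gr.eq_of_le fun v hv => ?_
  obtain ⟨w, hw, rfl⟩ := hv
  have hw' : w ∈ act g.1⁻¹ X.S := hw
  obtain ⟨x, hx, rfl⟩ := mem_act.1 hw'
  refine ⟨cor e x, mem_im.2 hx, ?_⟩
  exact rho_cor e g x

theorem p1_pt (e : n ≃ Fin (N + 1)) (x : SGr σ J 1) : p1 (pt e x) = im e x := by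
  obtain ⟨v, hv, h⟩ := exists_vec x
  rw [pt_eq e hv (mem_of_span h)]
  refine H100.Gr.eq_of_le ?_
  have h1 : (p1 (pj k (Fin (N + 1)) ⟨cor e v, cor_ne hv⟩)).1 = Submodule.span k {cor e v} :=
    H644.Gr3.p1_mk _ _
  rw [h1, Submodule.span_singleton_le_iff_mem]
  exact mem_im.2 (mem_of_span h)

theorem inc_pt (e : n ≃ Fin (N + 1)) {j : ℕ} (x : SGr σ J 1) (Y : SGr σ J j) :
    Inc x Y ↔ (p1 (pt e x)).1 ≤ (im e Y).1 := by
  rw [p1_pt, im_le]

theorem rep_mem (e : n ≃ Fin (N + 1)) (x : SGr σ J 1) : roc e (pt e x).rep ∈ x.S := by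
  rw [← mem_im' (X := x), ← p1_pt]
  exact H644.Gr3.mem_p1.1 le_rfl

end im

end Vale.Agent.P092.H437.P2
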