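import Vale.Agent.P092.H437.P2Alg
import Vale.Agent.P092.H702.PG
import Vale.Agent.P092.H495.GrTd

/-!
P092 (helper437), Team P, stage 2, row (I), part 4: the target `SGr σ J j` over an ultrametric
local field.
-/

set_option linter.all false

open Matrix Set Topology Module

namespace Vale.Agent.P092.H437.P2

open Vale.Agent.P092.H714.Cl
open Vale.Agent.P092.H370.Po
open Vale.Agent.P092.H100.Gr (Gr)
open Vale.Agent.P092.H232 (Nin)
open Vale.Agent.P092.H702.PG (ort_join uniq sup_eq)

section inst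

variable {n : Type} [Fintype n] [DecidableEq n] {k : Type} [NontriviallyNormedField k]
  [ProperSpace k] {σ : k →+* k} {ε : k} {J : Matrix n n k}

instance tdS [IsUltrametricDist k] {j : ℕ} : TotallyDisconnectedSpace (SGr σ J j) :=
  inferInstanceAs (TotallyDisconnectedSpace {X : Gr k n j // Sing σ J X.1})

theorem tgS : Tg (SGr σ J) (fun i j => Inc (i := i) (j := j)) where
  closed i j := inc_closed
  eq_of j x y h := SGr.eq_of_le h
  join i j x y hxy z z' h1 h2 h3 h4 := by
    have hx : j + 1 ≤ finrank k ↥(x.S ⊔ y.S) := by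
      have h5 : y.S < x.S ⊔ y.S := lt_of_le_of_ne le_sup_right fun he => hxy (by
        change x.S ≤ y.S
        rw [he]; exact le_sup_left)
      have := Submodule.finrank_lt_finrank_of_lt h5
      rw [y.dim] at this
      exact this
    have e1 : x.S ⊔ y.S = z.S := Submodule.eq_of_le_of_finrank_le (sup_le h1 h2)
      (by rw [z.dim]; exact hx)
    have e2 : x.S ⊔ y.S = z'.S := Submodule.eq_of_le_of_finrank_le (sup_le h3 h4)
      (by rw [z'.dim]; exact hx)
    exact SGr.ext (e1.symm.trans e2)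
  meet i x l hl z z' h1 h2 h3 h4 := by
    by_contra hne
    apply hl
    change l.S ≤ x.S
    rw [← sup_eq hne h2 h4]
    exact sup_le h1 h3

theorem tgOS (hσ : Continuous σ) (hF : Frm σ ε J) {r : ℕ} (hW : WI σ J r) :
    TgO r (SGr σ J) (fun i j => Inc (i := i) (j := j)) (fun j => Col (i := 1) (j := j)) where
  closed j := col_closed hσ
  hyp j b z x x' hz h1 h2 h3 h4 := by
    by_contra hne
    exact hz (Ort.symm hF (ort_join hne h1 h2 (Ort.symm hF h3) (Ort.symm hF h4)))
  max b y h := by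
    have hs : Sing σ J (b.S ⊔ y.S) :=
      ort_sup_left.2 ⟨ort_sup_right.2 ⟨b.sing, h⟩, ort_sup_right.2 ⟨Ort.symm hF h, y.sing⟩⟩
    have h1 := hW.2 _ hs
    have h2 : y.S = b.S ⊔ y.S :=
      Submodule.eq_of_le_of_finrank_le le_sup_right (by rw [y.dim]; exact h1)
    change b.S ≤ y.S
    rw [h2]
    exact le_sup_left

/-- **stage 2 (I), target = singular Grassmannians over an ultrametric local field** -/
theorem pts_commS [IsUltrametricDist k] [Fact (Continuous σ)] (hF : Frm σ ε J) {N : ℕ}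
    (hW : WI σ J (N + 1)) {n' : Type} [Fintype n'] [DecidableEq n'] {F : Type} [Field F]
    {σ' : F →+* F} {ε' : F} {J' : Matrix n' n' F} (hF' : Frm σ' ε' J') (hN : 2 ≤ N)
    (Y₀ : SGr σ' J' (N + 1)) {K : Type*} [NormedAddCommGroup K] [InnerProductSpace ℂ K]
    [CompleteSpace K] {G : ∀ j, SGr σ' J' j → (C(SGr σ J j, ℂ) →⋆ₐ[ℂ] (K →L[ℂ] K))}
    (hG : CalP (N + 1) (fun i j => Inc (i := i) (j := j)) G)
    (hK : Key0 (N + 1) (fun j => Col (i := 1) (j := j)) G) (a b : SGr σ' J' 1) (hab : Col a b)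
    (f g) : Commute (G 1 a f) (G 1 b g) :=
  pts_comm hF' hN Y₀ tgS (tgOS Fact.out hF hW) hG hK a b hab f g

end inst

end Vale.Agent.P092.H437.P2
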