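import Vale.Agent.P092.H145.WL2

/-!
P092 (helper437), Team P, stage 2, row (I), part 5: **the (R) step with a constant operator**: `P`
dominated by cut-offs with polynomial counts, `B` commutes with the contracting elements and with
the root group ⟹ `P * B = 0`.
-/

set_option linter.all false

open scoped InnerProductSpace ENNReal
open Filter Topology ContinuousLinearMap MeasureTheory TopologicalSpace

namespace Vale.Agent.P092.H437.P2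

open Vale.Agent.P092.SD (Ms UC)
open Vale.Agent.P092.RC (Cm TRN Pic)
open Vale.Agent.P092.H790.CT (PicL)
open Vale.Agent.P092.H790.CTA (ORBG SIZEG csm)
open Vale.Agent.P092.H145.WL2 (hh Bn of_poly mul_zero_of_dom)

variable {G Γ K V : Type} [Group G] [Group Γ] [NormedAddCommGroup K] [InnerProductSpace ℂ K]
  [CompleteSpace K] {π : G →* (K →L[ℂ] K)} {lam : Γ →* (K →L[ℂ] K)} {W : Set (K →L[ℂ] K)} {Ω : K}
  {m : Set Γ → (K →L[ℂ] K)}
  [TopologicalSpace G] [IsTopologicalGroup G] [NormedAddCommGroup V] [ProperSpace V]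
  [MeasurableSpace V] [BorelSpace V] {μ : Measure V} [IsFiniteMeasureOnCompacts μ]
  [μ.IsOpenPosMeasure] {b : G} {n : V → G} {ρ : ℝ} {sz : Γ → ℝ}

theorem bn_const {g : G} {B : K →L[ℂ] K} (hb : ∀ N : ℕ, Commute B (π (hh g b N))) (N : ℕ) :
    Bn π g b B N = B := by
  unfold Bn
  rw [← (hb N).eq, mul_assoc, ← map_mul, mul_inv_cancel, map_one, mul_one]

/-- **(R) for a constant operator with polynomial counts** -/
theorem zero_of_cnt (hP : PicL π lam W Ω) (hM : Ms lam W Ω m) (hUC : UC π W Ω m)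
    (hρ : 0 < ρ) (hρ1 : ρ < 1) (hnc : Tendsto n (𝓝 0) (𝓝 1)) (hORB : ORBG μ b n ρ π lam W Ω)
    (hsz0 : ∀ γ, 0 < sz γ) (hsz : ∀ γ, ∃ d : ℝ, 1 ≤ d ∧ ∀ y, sz (γ * y) ≤ d * sz y)
    (hS : SIZEG b π Ω m sz) {g : G} {B P : K →L[ℂ] K} (hB : Cm W B)
    (hb : ∀ N : ℕ, Commute B (π (hh g b N))) (hn : ∀ s, Commute B (π (g * n s * g⁻¹)))
    {Ce : ℝ → ℝ → Set Γ} {c : ℝ}
    (hdom : ∀ ζ : K, ∀ ε > 0, ∃ R : ℝ, ∀ T > 0, ∃ᶠ t : ℕ in atTop,
      ‖P ζ‖ ≤ c * ‖m (Ce R T) (π (hh g b t) ζ)‖ + ε)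
    (cnt : ∀ R : ℝ, ∃ T > 0, ∃ (C : ℝ) (d : ℕ), ∀ J : ℝ, 0 ≤ J → ∀ S : Finset Γ,
      (∀ γ ∈ S, γ ∈ Ce R T ∧ Real.log (sz γ) ≤ J) →
      ∑ γ ∈ S, ‖adjoint B (lam γ Ω)‖ ^ 2 ≤ C * (1 + J) ^ d) : P * B = 0 := by
  refine mul_zero_of_dom (μ := μ) (n := n) hP hM hUC hρ.le hnc hORB hsz hS (g := g)
    (fun N => ?_) (fun N s => ?_) (c := c) fun ζ ε hε => ?_
  · rw [bn_const hb]; exact hB
  · rw [bn_const hb]; exact hn s
  · obtain ⟨R, hR⟩ := hdom ζ ε hε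
    obtain ⟨T, hT, C, d, hC⟩ := cnt R
    obtain ⟨η, hη, h1⟩ := of_poly (lam := lam) (Ω := Ω) (sz := sz) (K := K) hρ hρ1 hsz0 d
    refine ⟨Ce R T, ⟨η, hη, ?_⟩, hR T hT⟩
    have h2 := h1 (fun _ => B) (Ce R T) C fun _ => hC
    refine h2.congr fun N => ?_
    rw [bn_const hb]

end Vale.Agent.P092.H437.P2
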