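import Vale.Agent.P092.CL.Defs
import Vale.Agent.P092.H437.P2R
import Vale.Agent.P092.H437.P2Inst

/-!
P092 (helper437), Team P, stage 2, row (I), part 6: **`KEY_0` from the leg and the count**, in the
letters of `CL/Defs`.
-/

set_option linter.all false

open scoped InnerProductSpace ENNReal
open Filter Topology ContinuousLinearMap MeasureTheory TopologicalSpace

namespace Vale.Agent.P092.H437.P2

open Vale.Agent.P092.SD (Ms UC)
open Vale.Agent.P092.RC (Cm TRN)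
open Vale.Agent.P092.H790.CT (PicL lam_norm)
open Vale.Agent.P092.H790.CTA (ORBG SIZEG csm comm_inv)
open Vale.Agent.P092.H145.WL2 (hh)
open Vale.Agent.P092.CL (Lt Geo PB HFam)

section step

variable {S P M V₁ V₂ : Type} [Group S] [MeasurableSpace V₁] [MeasurableSpace V₂]
  [TopologicalSpace S] [MulAction S P] [TopologicalSpace P] [CompactSpace P]
  [ContinuousConstSMul S P] [MulAction S M] [TopologicalSpace M] [CompactSpace M]
  [ContinuousConstSMul S M] [NormedAddCommGroup V₁] [NormedAddCommGroup V₂]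
  [ProperSpace V₁] [BorelSpace V₁]
  {L : Lt S P M V₁ V₂} [IsFiniteMeasureOnCompacts L.μ₁] [L.μ₁.IsOpenPosMeasure]
  {E Γ K : Type} [Group E] [TopologicalSpace E] [Group Γ] [NormedAddCommGroup K]
  [InnerProductSpace ℂ K] [CompleteSpace K] {𝒰 : Ultrafilter ℕ} {ι : S →* E}
  {π : E →* (K →L[ℂ] K)} {lam : Γ →* (K →L[ℂ] K)} {W : Set (K →L[ℂ] K)} {Ω : K}
  {m : Set Γ → (K →L[ℂ] K)} {q : Γ → S}

theorem picL_of (h : RC.PicX π lam W Ω) : PicL π lam W Ω :=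
  ⟨h.adjP, h.adjL, h.comm, h.Wadj, h.WP, h.WL, h.tr_adj⟩

theorem hh_eq (g b : S) (N : ℕ) : hh (ι g) (ι b) N = (ι (g * b ^ N * g⁻¹))⁻¹ := by
  unfold hh
  rw [map_mul, map_mul, map_pow, map_inv]

/-- **(R) at the point wall for a constant operator** -/
theorem key0_step (geo : Geo L) (base : PB L 𝒰 ι π lam W Ω m q) (g : S) {B T : K →L[ℂ] K} {c : ℝ}
    {A : Set P} (hdom : ∀ ζ : K, ∀ ε > 0, ∃ R : ℝ, ∀ T' > 0, ∀ᶠ t : ℕ in (𝒰 : Filter ℕ),
      ‖T ζ‖ ≤ c * ‖m (L.na1 q R T' A) (π (ι (g * L.b1 ^ t * g⁻¹))⁻¹ ζ)‖ + ε)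
    (hB : Cm W B) (hb : ∀ N : ℕ, Commute B (π (ι (g * L.b1 ^ N * g⁻¹))))
    (hn : ∀ s, Commute B (π (ι (g * L.u1 s * g⁻¹))))
    (cnt : ∀ R : ℝ, ∃ T > 0, ∃ (C : ℝ) (d : ℕ), ∀ J : ℝ, 0 ≤ J → ∀ F : Finset Γ,
      (∀ γ ∈ F, γ ∈ L.na1 q R T A ∧ Real.log (L.nm (q γ)) ≤ J) →
      ∑ γ ∈ F, ‖adjoint B (lam γ Ω)‖ ^ 2 ≤ C * (1 + J) ^ d) : T * B = 0 := by
  haveI := base.adm.tg
  obtain ⟨ρ, hρ, hρ1, hORB⟩ := base.orb1
  obtain ⟨Cm0, hC0, hC⟩ := geo.nm_mul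
  have hnc : Tendsto (fun s => ι (L.u1 s)) (𝓝 0) (𝓝 1) := by
    have h1 : Continuous fun s => ι (L.u1 s) := base.adm.cι.comp geo.u1c
    have h2 := h1.tendsto 0
    rwa [geo.u10, map_one] at h2
  refine zero_of_cnt (μ := L.μ₁) (b := ι L.b1) (n := fun s => ι (L.u1 s)) (ρ := ρ)
    (sz := fun γ => L.nm (q γ)) (picL_of base.pic) base.ms base.uc hρ hρ1 hnc hORB
    (fun γ => geo.nm_pos _) (fun γ => ?_) base.size1 (g := ι g) hB (fun N => ?_) (fun s => ?_)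
    (Ce := fun R T => L.na1 q R T A) (c := c) (fun ζ ε hε => ?_) cnt
  · refine ⟨max 1 (Cm0 * L.nm (q γ)), le_max_left _ _, fun y => ?_⟩
    obtain ⟨z, hz, e⟩ := base.ph γ y
    change L.nm (q (γ * y)) ≤ _
    rw [e, geo.z_nm z hz]
    refine (hC _ _).trans ?_
    rw [← mul_assoc]
    exact mul_le_mul_of_nonneg_right (le_max_right _ _) (geo.nm_pos _).le
  · rw [hh_eq]
    exact comm_inv (hb N)
  · have := hn s
    rwa [map_mul ι, map_mul ι, map_inv ι] at this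
  · obtain ⟨R, hR⟩ := hdom ζ ε hε
    refine ⟨R, fun T' hT' => ?_⟩
    have h1 := hR T' hT'
    refine ((h1.frequently).filter_mono base.h𝒰).mono fun t ht => ?_
    rw [hh_eq]
    exact ht

end step

open Set Module
open Vale.Agent.P092.H303 (FormGroup)
open Vale.Agent.P092.H714.Cl
open Vale.Agent.P092.H370.Po
open Vale.Agent.P092.H232 (Nin two_ind split_inc)
open Vale.Agent.P092.H218.NC (tsupport_star)
open Vale.Agent.P092.H796 (PL)
open Vale.Agent.P092.CL (act)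

section perp

variable {X Y Z K : Type*} [TopologicalSpace X] [CompactSpace X] [T2Space X]
  [TopologicalSpace Y] [CompactSpace Y] [T2Space Y]
  [TopologicalSpace Z] [CompactSpace Z] [T2Space Z]
  [NormedAddCommGroup K] [InnerProductSpace ℂ K] [CompleteSpace K]

/-- two calculi in a common one are related -/
theorem perp0 {I : X → Z → Prop} {I' : Y → Z → Prop} {R : X → Y → Prop}
    (hI : IsClosed {q : X × Z | I q.1 q.2}) (hI' : IsClosed {q : Y × Z | I' q.1 q.2})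
    (hR : ∀ x y z, I x z → I' y z → R x y) {b : C(X, ℂ) →⋆ₐ[ℂ] (K →L[ℂ] K)}
    {l : C(Y, ℂ) →⋆ₐ[ℂ] (K →L[ℂ] K)} {p : C(Z, ℂ) →⋆ₐ[ℂ] (K →L[ℂ] K)} (hb : PL I b p)
    (hl : PL I' l p) (a : C(X, ℂ)) (f : C(Y, ℂ)) (h : Nin R a f) : b a * l f = 0 := by
  refine two_ind (A := K →L[ℂ] K) (S₁ := tsupport ⇑a) (S₂ := tsupport ⇑f)
    (fun a f => b a * l f) (fun u' u'' a' => by simp only [map_add, add_mul])
    (fun u' a' a'' => by simp only [map_add, mul_add])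
    (isClosed_tsupport _).isCompact (isClosed_tsupport _).isCompact
    (fun x hx y hy => ?_) a f subset_rfl subset_rfl
  obtain ⟨v₁, v₂, hv, O, V, hO, hxO, hV, hyV, e1, e2⟩ := split_inc hI hI' (x := x) (y := y)
    (1 : C(Z, ℂ)) fun z _ h1 h2 => h x hx y hy (hR x y z h1 h2)
  refine ⟨O, V, hO, hxO, hV, hyV, fun a' f' ha' hf' => ?_⟩
  have d1 : b a' * p v₁ = 0 := hb.inc _ _ (e1 _ ha')
  have d2 : l f' * p v₂ = 0 := hl.inc _ _ (e2 _ hf')
  have d3 : p v₁ + p v₂ = 1 := by rw [← map_add, ← hv, map_one]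
  calc b a' * l f' = b a' * l f' * (p v₁ + p v₂) := by rw [d3, mul_one]
    _ = b a' * (l f' * p v₁) + b a' * (l f' * p v₂) := by rw [mul_add, mul_assoc, mul_assoc]
    _ = (b a' * p v₁) * l f' + b a' * (l f' * p v₂) := by rw [(hl.com f' v₁).eq, mul_assoc]
    _ = 0 := by rw [d1, d2, zero_mul, mul_zero, add_zero]

end perp

section shell

variable {X : Type*} [TopologicalSpace X] [CompactSpace X] [T2Space X] [TotallyDisconnectedSpace X]

theorem clopen_btw {F U : Set X} (hF : IsCompact F) (hU : IsOpen U) (h : F ⊆ U) :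
    ∃ C : Set X, IsClopen C ∧ F ⊆ C ∧ C ⊆ U := by
  refine hF.induction_on (p := fun F => ∃ C : Set X, IsClopen C ∧ F ⊆ C ∧ C ⊆ U)
    ⟨∅, isClopen_empty, subset_rfl, empty_subset _⟩ ?_ ?_ ?_
  · rintro s t hst ⟨C, h1, h2, h3⟩
    exact ⟨C, h1, hst.trans h2, h3⟩
  · rintro s t ⟨C, h1, h2, h3⟩ ⟨D, h4, h5, h6⟩
    exact ⟨C ∪ D, h1.union h4, union_subset_union h2 h5, union_subset h3 h6⟩
  · intro x hx
    obtain ⟨C, h1, h2, h3⟩ := compact_exists_isClopen_in_isOpen hU (h hx)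
    exact ⟨C, mem_nhdsWithin_of_mem_nhds (h1.isOpen.mem_nhds h2), C, h1, subset_rfl, h3⟩

/-- clopen shells of unrelated closed sets -/
theorem shell {R : X → X → Prop} (hR : IsClosed {p : X × X | R p.1 p.2}) {F G : Set X}
    (hF : IsClosed F) (hG : IsClosed G) (h : ∀ x ∈ F, ∀ y ∈ G, ¬ R x y) :
    ∃ A B : Set X, IsClopen A ∧ IsClopen B ∧ F ⊆ A ∧ G ⊆ B ∧ ∀ x ∈ A, ∀ y ∈ B, ¬ R x y := by
  obtain ⟨u, v, hu, hv, hFu, hGv, huv⟩ := generalized_tube_lemma hF.isCompact hG.isCompact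
    hR.isOpen_compl (by rintro ⟨x, y⟩ ⟨hx, hy⟩; exact h x hx y hy)
  obtain ⟨A, hA, hFA, hAu⟩ := clopen_btw hF.isCompact hu hFu
  obtain ⟨B, hB, hGB, hBv⟩ := clopen_btw hG.isCompact hv hGv
  exact ⟨A, B, hA, hB, hFA, hGB, fun x hx y hy => huv (mk_mem_prod (hAu hx) (hBv hy))⟩

end shell

section cnt

variable {n : Type} [Fintype n] [DecidableEq n] {k : Type} [NontriviallyNormedField k]
  [ProperSpace k] {σ : k →+* k} {ε : k} {J : Matrix n n k} {r : ℕ} {V₁ V₂ : Type}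
  [MeasurableSpace V₁] [MeasurableSpace V₂]

/-- **The count of `KEY_0`** for two non commuting letters `b` (points) and `l` (lines) in a common
maximal subspace. -/
def Cnt0 [Fact (Continuous σ)] (L : Lt (FormGroup σ J) (SGr σ J 1) (SGr σ J r) V₁ V₂) {Γ : Type}
    (q : Γ → FormGroup σ J) (K : Type) [NormedAddCommGroup K] [InnerProductSpace ℂ K]
    [CompleteSpace K] : Prop :=
  ∀ (b z : C(SGr σ J 1, ℂ) →⋆ₐ[ℂ] (K →L[ℂ] K)) (l ν : C(SGr σ J 2, ℂ) →⋆ₐ[ℂ] (K →L[ℂ] K)),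
    PL (fun x y => Inc x y) b ν → PL (fun x y => Inc x y) z ν → PL (fun x y => Inc x y) z l →
    (∀ a f, Nin (fun (x : SGr σ J 1) (y : SGr σ J 2) => Col x y) a f → b a * l f = 0) →
    ∀ (a : C(SGr σ J 1, ℂ)) (f : C(SGr σ J 2, ℂ)), IsLocallyConstant a → IsLocallyConstant f →
    ∀ A : Set (SGr σ J 1), IsClopen A → (∀ x ∈ tsupport a, ∀ y ∈ A, ¬ Col x y) →
    ∀ R : ℝ, ∃ T > 0, ∃ (C : ℝ) (d : ℕ), ∀ j : ℝ, 0 ≤ j → ∀ F : Finset Γ,
      (∀ γ ∈ F, γ ∈ L.na1 q R T A ∧ Real.log (L.nm (q γ)) ≤ j) → ∀ ξ : K,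
      ∑ γ ∈ F, ‖b (act (q γ)⁻¹ a) (l (act (q γ)⁻¹ f) ξ)‖ ^ 2 ≤ C * (1 + j) ^ d * ‖ξ‖ ^ 2

/-- covariant calculi -/
structure GDat [Fact (Continuous σ)] {E Γ K : Type} [Group E] [Group Γ] [NormedAddCommGroup K]
    [InnerProductSpace ℂ K] [CompleteSpace K] (ι : FormGroup σ J →* E) (π : E →* (K →L[ℂ] K))
    (lam : Γ →* (K →L[ℂ] K)) (W : Set (K →L[ℂ] K)) (q : Γ → FormGroup σ J) (r : ℕ)
    (G : ∀ j, SGr σ J j → (C(SGr σ J j, ℂ) →⋆ₐ[ℂ] (K →L[ℂ] K))) : Prop where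
  cm : ∀ j, 1 ≤ j → j ≤ r → ∀ X f, Cm W (G j X f)
  cov : ∀ j, 1 ≤ j → j ≤ r → ∀ γ X f, lam γ * G j X f * lam γ⁻¹ = G j X (act (q γ) f)
  pcov : ∀ j, 1 ≤ j → j ≤ r → ∀ g X f, π (ι g) * G j X f * π (ι g)⁻¹ = G j (g • X) f

theorem GDat.com_pi [Fact (Continuous σ)] {E Γ K : Type} [Group E] [Group Γ] [NormedAddCommGroup K]
    [InnerProductSpace ℂ K] [CompleteSpace K] {ι : FormGroup σ J →* E} {π : E →* (K →L[ℂ] K)}
    {lam : Γ →* (K →L[ℂ] K)} {W : Set (K →L[ℂ] K)} {q : Γ → FormGroup σ J} {r : ℕ}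
    {G : ∀ j, SGr σ J j → (C(SGr σ J j, ℂ) →⋆ₐ[ℂ] (K →L[ℂ] K))} (h : GDat ι π lam W q r G)
    {j : ℕ} (h1 : 1 ≤ j) (h2 : j ≤ r) {X : SGr σ J j} {g : FormGroup σ J} (hg : g • X = X) (f) :
    Commute (G j X f) (π (ι g)) := by
  have h3 := h.pcov j h1 h2 g X f
  rw [hg] at h3
  have h4 : π (ι g)⁻¹ * π (ι g) = 1 := by rw [← map_mul, inv_mul_cancel, map_one]
  change G j X f * π (ι g) = π (ι g) * G j X f
  calc G j X f * π (ι g) = π (ι g) * G j X f * π (ι g)⁻¹ * π (ι g) := by rw [h3]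
    _ = π (ι g) * G j X f := by rw [mul_assoc, h4, mul_one]

theorem act_inv_act {S Y : Type} [Group S] [TopologicalSpace Y] [MulAction S Y]
    [ContinuousConstSMul S Y] (g : S) (f : C(Y, ℂ)) : act g (act g⁻¹ f) = f := by
  ext y
  change f ((g⁻¹)⁻¹ • (g⁻¹ • y)) = f y
  rw [inv_inv, smul_inv_smul]

theorem GDat.lam_app [Fact (Continuous σ)] {E Γ K : Type} [Group E] [Group Γ]
    [NormedAddCommGroup K]
    [InnerProductSpace ℂ K] [CompleteSpace K] {ι : FormGroup σ J →* E} {π : E →* (K →L[ℂ] K)}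
    {lam : Γ →* (K →L[ℂ] K)} {W : Set (K →L[ℂ] K)} {q : Γ → FormGroup σ J} {r : ℕ}
    {G : ∀ j, SGr σ J j → (C(SGr σ J j, ℂ) →⋆ₐ[ℂ] (K →L[ℂ] K))} (h : GDat ι π lam W q r G)
    {j : ℕ} (h1 : 1 ≤ j) (h2 : j ≤ r) (X : SGr σ J j) (γ : Γ) (f) (v : K) :
    G j X f (lam γ v) = lam γ (G j X (act (q γ)⁻¹ f) v) := by
  have h3 := h.cov j h1 h2 γ X (act (q γ)⁻¹ f)
  rw [act_inv_act] at h3
  have h4 : lam γ⁻¹ * lam γ = 1 := by rw [← map_mul, inv_mul_cancel, map_one]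
  have h5 : G j X f * lam γ = lam γ * G j X (act (q γ)⁻¹ f) := by
    rw [← h3, mul_assoc, h4, mul_one]
  exact congrArg (fun T : K →L[ℂ] K => T v) h5

variable [IsUltrametricDist k] [Fact (Continuous σ)] [NormedAddCommGroup V₁]
  [NormedAddCommGroup V₂] [ProperSpace V₁] [BorelSpace V₁]
  {L : Lt (FormGroup σ J) (SGr σ J 1) (SGr σ J r) V₁ V₂} [IsFiniteMeasureOnCompacts L.μ₁]
  [L.μ₁.IsOpenPosMeasure]
  {E Γ K : Type} [Group E] [TopologicalSpace E] [Group Γ] [NormedAddCommGroup K]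
  [InnerProductSpace ℂ K] [CompleteSpace K] {𝒰 : Ultrafilter ℕ} {ι : FormGroup σ J →* E}
  {π : E →* (K →L[ℂ] K)} {lam : Γ →* (K →L[ℂ] K)} {W : Set (K →L[ℂ] K)} {Ω : K}
  {m : Set Γ → (K →L[ℂ] K)} {q : Γ → FormGroup σ J}
  {G : ∀ j, SGr σ J j → (C(SGr σ J j, ℂ) →⋆ₐ[ℂ] (K →L[ℂ] K))}

/-- the configuration of `KEY_0` is fixed by a conjugate of `b1` and `u1` -/
def Fix0 (L : Lt (FormGroup σ J) (SGr σ J 1) (SGr σ J r) V₁ V₂) : Prop :=
  ∀ (P : SGr σ J r) (c : SGr σ J 1) (l : SGr σ J 2) (b : SGr σ J 1), ¬ Inc c P → Inc l P →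
    Inc b P → Col c b → ¬ Col c l → ¬ Inc b l → ∃ g : FormGroup σ J, g • L.p0 = c ∧
      (g * L.b1 * g⁻¹) • b = b ∧ (g * L.b1 * g⁻¹) • l = l ∧
      ∀ s, (g * L.u1 s * g⁻¹) • b = b ∧ (g * L.u1 s * g⁻¹) • l = l

theorem pow_fix {S X : Type} [Group S] [MulAction S X] {g b : S} {x : X}
    (h : (g * b * g⁻¹) • x = x) (N : ℕ) : (g * b ^ N * g⁻¹) • x = x := by
  have e : g * b ^ N * g⁻¹ = (g * b * g⁻¹) ^ N := (conj_pow).symm
  rw [e]
  induction N with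
  | zero => rw [pow_zero, one_smul]
  | succ N ih => rw [pow_succ, mul_smul, h, ih (conj_pow).symm]

/-- the join of two points of a singular space -/
theorem exists_nu {P : SGr σ J r} {b z : SGr σ J 1} (hb : Inc b P) (hz : Inc z P)
    (hne : b ≠ z) : ∃ ν : SGr σ J 2, Inc b ν ∧ Inc z ν := by
  have h1 := Submodule.finrank_sup_add_finrank_inf_eq b.S z.S
  rw [b.dim, z.dim] at h1
  have h2 : finrank k ↥(b.S ⊓ z.S) = 0 := by
    by_contra h0
    have h3 : finrank k ↥(b.S ⊓ z.S) ≤ 1 := (Submodule.finrank_mono inf_le_left).trans_eq b.dim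
    have h4 : b.S ⊓ z.S = b.S := Submodule.eq_of_le_of_finrank_eq inf_le_left (by
      rw [b.dim]; omega)
    exact hne (SGr.eq_of_le (inf_eq_left.1 h4))
  exact ⟨SGr.mk' (b.S ⊔ z.S) (P.sing.mono (sup_le hb hz)) (by omega), le_sup_left, le_sup_right⟩

/-- **`KEY_0` from the leg and the count** -/
theorem key0_of_cnt (hF : Frm σ ε J) (hr : 2 ≤ r) (geo : Geo L)
    (base : PB L 𝒰 ι π lam W Ω m q) (gd : GDat ι π lam W q r G)
    (hG : CalP r (fun i j => Inc (σ := σ) (J := J) (i := i) (j := j)) G)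
    (hdom : ∀ (g : FormGroup σ J) (u : C(SGr σ J 1, ℂ)) (A : Set (SGr σ J 1)), IsOpen A →
      tsupport u ⊆ A → ∀ ζ : K, ∀ ε > 0, ∃ R : ℝ, ∀ T > 0, ∀ᶠ t : ℕ in (𝒰 : Filter ℕ),
      ‖G 1 (g • L.p0) u ζ‖ ≤ ‖u‖ * ‖m (L.na1 q R T A) (π (ι (g * L.b1 ^ t * g⁻¹))⁻¹ ζ)‖ + ε)
    (fix : Fix0 L) (cnt : Cnt0 L q K) :
    Key0 r (fun j => Col (σ := σ) (J := J) (i := 1) (j := j)) G := by
  intro P c l b hcP hlP hbP hcb hcl hbl u f a hn
  obtain ⟨z, hzl⟩ := exists_inc_le (i := 1) one_le_two l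
  obtain ⟨ν, hbν, hzν⟩ := exists_nu hbP (hzl.trans hlP) fun h => hbl (h ▸ hzl)
  have pbν : PL (fun x y => Inc x y) (G 1 b) (G 2 ν) :=
    ⟨fun f g => hG.com 1 2 le_rfl one_le_two hr b ν hbν f g,
      fun f g h => hG.inc 1 2 le_rfl one_le_two hr b ν hbν f g h⟩
  have pzν : PL (fun x y => Inc x y) (G 1 z) (G 2 ν) :=
    ⟨fun f g => hG.com 1 2 le_rfl one_le_two hr z ν hzν f g,
      fun f g h => hG.inc 1 2 le_rfl one_le_two hr z ν hzν f g h⟩
  have pzl : PL (fun x y => Inc x y) (G 1 z) (G 2 l) :=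
    ⟨fun f g => hG.com 1 2 le_rfl one_le_two hr z l hzl f g,
      fun f g h => hG.inc 1 2 le_rfl one_le_two hr z l hzl f g h⟩
  have hbl0 : ∀ a f, Nin (fun (x : SGr σ J 1) (y : SGr σ J 2) => Col x y) a f →
      G 1 b a * G 2 l f = 0 := by
    refine perp0 (I := fun x y => Inc x y) (I' := fun x y => Inc x y) inc_closed inc_closed
      (fun x y w h1 h2 x' hx y' hy => w.sing x' (h1 hx) y' (h2 hy)) (p := G r P)
      ⟨fun f g => hG.com 1 r le_rfl (by omega) le_rfl b P hbP f g,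
        fun f g h => hG.inc 1 r le_rfl (by omega) le_rfl b P hbP f g h⟩
      ⟨fun f g => hG.com 2 r (by omega) hr le_rfl l P hlP f g,
        fun f g h => hG.inc 2 r (by omega) hr le_rfl l P hlP f g h⟩
  obtain ⟨g, hg, hb1, hl1, hu1⟩ := fix P c l b hcP hlP hbP hcb hcl hbl
  obtain ⟨U, A, hU, hA, haU, huA, hUA⟩ := shell (R := fun x y => Col x y)
    (col_closed (σ := σ) (J := J) Fact.out) (isClosed_tsupport ⇑a) (isClosed_tsupport ⇑u) hn
  -- locally constant functions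
  have main : ∀ (f : C(SGr σ J 2, ℂ)) (a : C(SGr σ J 1, ℂ)), IsLocallyConstant f →
      IsLocallyConstant a → tsupport ⇑a ⊆ U → G 1 c u * (G 2 l f * G 1 b a) = 0 := by
    intro f a hf ha haU
    subst hg
    refine key0_step geo base g (A := A) (c := ‖u‖) (hdom g u A hA.isOpen huA) ?_ ?_ ?_ ?_
    · intro w hw
      rw [mul_assoc, gd.cm 1 le_rfl (by omega) b a w hw, ← mul_assoc,
        gd.cm 2 (by omega) hr l f w hw, mul_assoc]
    · intro N
      exact (gd.com_pi (by omega) hr (pow_fix hl1 N) f).mul_left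
        (gd.com_pi le_rfl (by omega) (pow_fix hb1 N) a)
    · intro s
      exact (gd.com_pi (by omega) hr (hu1 s).2 f).mul_left
        (gd.com_pi le_rfl (by omega) (hu1 s).1 a)
    · intro R
      have ha' : IsLocallyConstant ⇑(star a) := ha.comp star
      have hf' : IsLocallyConstant ⇑(star f) := hf.comp star
      obtain ⟨T, hT, C, d, h1⟩ := cnt (G 1 b) (G 1 z) (G 2 l) (G 2 ν) pbν pzν pzl hbl0 (star a)
        (star f) ha' hf' A hA (fun x hx y hy => hUA x (haU (by rwa [tsupport_star] at hx)) y hy) R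
      refine ⟨T, hT, C * ‖Ω‖ ^ 2, d, fun j hj F hF' => ?_⟩
      refine le_trans (le_of_eq ?_) ((h1 j hj F hF' Ω).trans (le_of_eq (by ring)))
      refine Finset.sum_congr rfl fun γ _ => ?_
      congr 1
      have e1 : adjoint (G 2 l f * G 1 b a) = G 1 b (star a) * G 2 l (star f) := by
        change star (G 2 l f * G 1 b a) = _
        rw [star_mul, map_star, map_star]
      rw [e1]
      change ‖G 1 b (star a) (G 2 l (star f) (lam γ Ω))‖ = _
      rw [gd.lam_app (by omega) hr, gd.lam_app le_rfl (by omega), lam_norm (picL_of base.pic)]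
  -- all functions
  have hχ : ∃ χ : C(SGr σ J 1, ℂ), IsLocallyConstant ⇑χ ∧ tsupport ⇑χ ⊆ U ∧ a * χ = a := by
    refine ⟨⟨LocallyConstant.charFn ℂ hU, (LocallyConstant.charFn ℂ hU).continuous⟩,
      (LocallyConstant.charFn ℂ hU).isLocallyConstant, ?_, ?_⟩
    · refine closure_minimal (fun x hx => ?_) hU.isClosed
      by_contra hc
      exact hx ((LocallyConstant.charFn_eq_zero ℂ x hU).2 hc)
    · ext x
      change a x * LocallyConstant.charFn ℂ hU x = a x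
      by_cases hx : x ∈ U
      · rw [(LocallyConstant.charFn_eq_one ℂ x hU).2 hx, mul_one]
      · have : a x = 0 := by
          by_contra h0
          exact hx (haU (subset_tsupport _ h0))
        rw [this, zero_mul]
  obtain ⟨χ, hχ1, hχ2, hχ3⟩ := hχ
  have hcont : ∀ (j : ℕ) (X : SGr σ J j), Continuous (G j X) := fun j X =>
    AddMonoidHomClass.continuous_of_bound (G j X) 1 fun f => by
      rw [one_mul]; exact NonUnitalStarAlgHom.norm_apply_le (G j X) f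
  have s1 : ∀ f : C(SGr σ J 2, ℂ), IsLocallyConstant ⇑f →
      G 1 c u * (G 2 l f * G 1 b (a * χ)) = 0 := by
    intro f hf
    refine lc_dense (P := fun g => G 1 c u * (G 2 l f * G 1 b (g * χ)) = 0) ?_ ?_ a
    · refine isClosed_eq ?_ continuous_const
      exact continuous_const.mul (continuous_const.mul
        ((hcont 1 b).comp (continuous_id.mul continuous_const)))
    · intro g hg
      refine main f (g * χ) hf (hg.comp₂ hχ1 (· * ·)) ?_
      exact (H232.tsupport_mul_r g χ).trans hχ2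
  rw [hχ3] at s1
  rw [mul_assoc]
  refine lc_dense (P := fun f => G 1 c u * (G 2 l f * G 1 b a) = 0) ?_ s1 f
  refine isClosed_eq ?_ continuous_const
  exact continuous_const.mul ((hcont 2 l).mul continuous_const)

end cnt

end Vale.Agent.P092.H437.P2
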