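import Vale.Agent.P092.H437.CLCnt0
import Vale.Agent.P092.CL.Defs

/-!
P092 (helper437), Team P: bridge of the near-wall sets of `CL` and of `SN` (matrix level).
-/

set_option linter.all false

open scoped InnerProductSpace LinearAlgebra.Projectivization Matrix
open Set Topology Module Matrix

namespace Vale.Agent.P092.H437.P2

open Vale.Agent.P092.H303 (FormGroup)
open Vale.Agent.P092.H714.Cl (hf Frm)
open Vale.Agent.P092.H370.Po
open Vale.Agent.P092.H416.CL (cor roc cor_roc roc_cor Je rho rho_cor hf_cor pt pt_eq pt_smul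
  exists_vec mem_of_span cor_ne roc_ne cor_smul pt_cont pt_inj col_pt)
open Vale.Agent.P092.CL (Lt)

section mat

variable {n : Type} [Fintype n] [DecidableEq n] {k : Type} [NontriviallyNormedField k]
  {σ : k →+* k} {J : Matrix n n k} {N r : ℕ}

theorem rho_apply (e : n ≃ Fin (N + 1)) (g : FormGroup σ J) (i j : Fin (N + 1)) :
    (rho e σ J g).1 i j = (g.1⁻¹).1ᵀ (e.symm i) (e.symm j) := rfl

/-- sizes -/
theorem nm_rho (e : n ≃ Fin (N + 1)) (g : FormGroup σ J) :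
    SN.nm (rho e σ J g) = ‖(fun i j => (g.1⁻¹).1ᵀ i j : n → n → k)‖ := by
  unfold SN.nm
  refine le_antisymm ?_ ?_
  · refine (pi_norm_le_iff_of_nonneg (norm_nonneg _)).2 fun i => ?_
    refine (pi_norm_le_iff_of_nonneg (norm_nonneg _)).2 fun j => ?_
    rw [rho_apply]
    exact (norm_le_pi_norm (fun j => (g.1⁻¹).1ᵀ (e.symm i) j) (e.symm j)).trans
      (norm_le_pi_norm (fun i j => (g.1⁻¹).1ᵀ i j : n → n → k) (e.symm i))
  · refine (pi_norm_le_iff_of_nonneg (norm_nonneg _)).2 fun i => ?_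
    refine (pi_norm_le_iff_of_nonneg (norm_nonneg _)).2 fun j => ?_
    have h : (rho e σ J g).1 (e i) (e j) = (g.1⁻¹).1ᵀ i j := by
      rw [rho_apply, e.symm_apply_apply, e.symm_apply_apply]
    rw [← h]
    exact (norm_le_pi_norm (fun j => (rho e σ J g).1 (e i) j) (e j)).trans
      (norm_le_pi_norm (fun i j => (rho e σ J g).1 i j : Fin (N + 1) → Fin (N + 1) → k) (e i))

/-- minors -/
theorem nw_rho (e : n ≃ Fin (N + 1)) {g : FormGroup σ J} {R : ℝ}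
    (h : ∀ i i' j j', ‖(g.1⁻¹).1ᵀ i j * (g.1⁻¹).1ᵀ i' j' - (g.1⁻¹).1ᵀ i' j * (g.1⁻¹).1ᵀ i j'‖ ≤
      R * ‖(fun i j => (g.1⁻¹).1ᵀ i j : n → n → k)‖) (i i' l l' : Fin (N + 1)) :
    ‖(rho e σ J g).1 i l * (rho e σ J g).1 i' l' - (rho e σ J g).1 i' l * (rho e σ J g).1 i l'‖ ≤
      R * SN.nm (rho e σ J g) := by
  rw [nm_rho]
  exact h _ _ _ _

/-- attracting points -/
theorem att_rho (e : n ≃ Fin (N + 1)) {g : FormGroup σ J} {T : ℝ} {B : Set (SGr σ J 1)}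
    (h : ∃ X ∈ B, ∃ D : Matrix n n k, (∀ v, D *ᵥ v ∈ X.S) ∧ ∀ i i',
      ‖(g.1⁻¹).1ᵀ i i' - D i i'‖ ≤ ‖(fun i j => (g.1⁻¹).1ᵀ i j : n → n → k)‖ / T) :
    SN.Att T (pt e '' B) (rho e σ J g) := by
  obtain ⟨X, hX, D, hD, hle⟩ := h
  obtain ⟨x, hx, hs⟩ := exists_vec X
  have h1 : ∀ j, ∃ c : k, c • x = D *ᵥ Pi.single j 1 := by
    intro j
    have h2 := hD (Pi.single j 1)
    rw [hs] at h2
    exact Submodule.mem_span_singleton.1 h2
  choose c hc using h1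
  have hDc : ∀ i j, D i j = x i * c j := by
    intro i j
    have h2 := congrFun (hc j) i
    rw [Matrix.mulVec_single_one] at h2
    change c j * x i = D i j at h2
    rw [← h2, mul_comm]
  refine ⟨cor e x, fun l => c (e.symm l), cor_ne hx, ⟨X, hX, pt_eq e hx (mem_of_span hs)⟩,
    fun i j => ?_⟩
  rw [nm_rho, rho_apply]
  change ‖_ - x (e.symm i) * c (e.symm j)‖ ≤ _
  rw [← hDc]
  exact hle _ _

end mat

section br

variable {n : Type} [Fintype n] [DecidableEq n] {k : Type} [NontriviallyNormedField k]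
  {σ : k →+* k} {J : Matrix n n k} {N r : ℕ} {V₁ V₂ : Type} [MeasurableSpace V₁]
  [MeasurableSpace V₂]

/-- **the bridge** -/
theorem nabr_of (e : n ≃ Fin (N + 1))
    {L : Lt (FormGroup σ J) (SGr σ J 1) (SGr σ J r) V₁ V₂}
    (nm : ∀ g, L.nm g = ‖(fun i j => (g.1⁻¹).1ᵀ i j : n → n → k)‖)
    (nw : ∀ R T B g, g ∈ L.NA1 R T B → ∀ i i' j j',
      ‖(g.1⁻¹).1ᵀ i j * (g.1⁻¹).1ᵀ i' j' - (g.1⁻¹).1ᵀ i' j * (g.1⁻¹).1ᵀ i j'‖ ≤
        R * ‖(fun i j => (g.1⁻¹).1ᵀ i j : n → n → k)‖)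
    (att : ∀ R T B g, g ∈ L.NA1 R T B → ∃ X ∈ B, ∃ D : Matrix n n k, (∀ v, D *ᵥ v ∈ X.S) ∧
      ∀ i i', ‖(g.1⁻¹).1ᵀ i i' - D i i'‖ ≤ ‖(fun i j => (g.1⁻¹).1ᵀ i j : n → n → k)‖ / T) :
    NABr e L where
  nm g := (nm g).trans (nm_rho e g).symm
  nw g R T A hg := nw_rho e (nw R T A g hg)
  att g R T A hg := att_rho e (att R T A g hg)

/-- uniform discreteness -/
theorem ud_of {Γ : Type} (e : n ≃ Fin (N + 1))
    {L : Lt (FormGroup σ J) (SGr σ J 1) (SGr σ J r) V₁ V₂} (hL : NABr e L)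
    {q : Γ → FormGroup σ J} (h : L.UD q) : SN.UD (fun γ => rho e σ J (q γ)) univ := by
  intro C
  obtain ⟨M, hM⟩ := h C
  refine ⟨M, fun S _ hS => hM S fun γ hγ γ' hγ' => ?_⟩
  have h1 := hS γ hγ γ' hγ'
  rw [← map_inv, ← map_mul, ← hL.nm] at h1
  exact h1

end br

end Vale.Agent.P092.H437.P2
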