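import Vale.Agent.P092.H437.Pts

/-!
P092 (helper437), Team N, block [N-W0], part (G): good families (Schur multipliers).

A finite family `F k` of functions is `C`-good for a *-homomorphism `lam` if multiplication on the
right by `lam (F k)` preserves column bounds up to the factor `C`.
-/

set_option linter.unusedSectionVars false
set_option linter.unusedVariables false

namespace Vale.Agent.P092.H437

open Vale.Agent.P092.H218 Topology

section good

variable {Y K : Type*} [TopologicalSpace Y] [CompactSpace Y]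
  [NormedAddCommGroup K] [InnerProductSpace ℂ K] [CompleteSpace K] {ι : Type*}

/-- column bound -/
def Col (s : Finset ι) (X : ι → (K →L[ℂ] K)) (N : ℝ) : Prop :=
  ∀ η, ∑ i ∈ s, ‖X i η‖ ^ 2 ≤ N ^ 2 * ‖η‖ ^ 2

/-- `F` is `C`-good. -/
def Good (lam : C(Y, ℂ) →⋆ₐ[ℂ] (K →L[ℂ] K)) (s : Finset ι) (F : ι → C(Y, ℂ)) (C : ℝ) : Prop :=
  0 ≤ C ∧ ∀ (X : ι → (K →L[ℂ] K)) (N : ℝ), 0 ≤ N → Col s X N →
    Col s (fun i => X i * lam (F i)) (N * C)

variable {lam : C(Y, ℂ) →⋆ₐ[ℂ] (K →L[ℂ] K)} {s : Finset ι}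

lemma Col.mono {X : ι → (K →L[ℂ] K)} {N N' : ℝ} (h : Col s X N) (h0 : 0 ≤ N) (hN : N ≤ N') :
    Col s X N' := fun η => (h η).trans
  (mul_le_mul_of_nonneg_right (pow_le_pow_left₀ h0 hN 2) (sq_nonneg _))

lemma Good.mono {F : ι → C(Y, ℂ)} {C C' : ℝ} (h : Good lam s F C) (hC : C ≤ C') :
    Good lam s F C' :=
  ⟨h.1.trans hC, fun X N hN hX => (h.2 X N hN hX).mono (mul_nonneg hN h.1)
    (mul_le_mul_of_nonneg_left hC hN)⟩

lemma Good.congr {F G : ι → C(Y, ℂ)} {C : ℝ} (h : Good lam s F C) (e : ∀ i ∈ s, F i = G i) :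
    Good lam s G C :=
  ⟨h.1, fun X N hN hX η => by
    refine le_trans (le_of_eq (Finset.sum_congr rfl fun i hi => ?_)) (h.2 X N hN hX η)
    simp only [e i hi]⟩

lemma Good.subset {t : Finset ι} {F : ι → C(Y, ℂ)} {C : ℝ} (h : Good lam s F C) (hts : t ⊆ s) :
    Good lam t F C := by
  classical
  refine ⟨h.1, fun X N hN hX η => ?_⟩
  have h1 := h.2 (fun i => if i ∈ t then X i else 0) N hN (fun η => by
    rw [← Finset.sum_subset hts (fun i _ hi => by simp [hi])]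
    refine le_trans (le_of_eq (Finset.sum_congr rfl fun i hi => by simp [hi])) (hX η)) η
  refine le_trans (le_of_eq ?_) h1
  rw [← Finset.sum_subset hts (fun i _ hi => by simp [hi])]
  exact Finset.sum_congr rfl fun i hi => by simp [hi]

/-- scalar multiples of one function -/
lemma good_smul (f : C(Y, ℂ)) (c : ι → ℂ) {M : ℝ} (hM : 0 ≤ M) (hc : ∀ i ∈ s, ‖c i‖ ≤ M) :
    Good lam s (fun i => c i • f) (M * ‖f‖) := by
  refine ⟨mul_nonneg hM (norm_nonneg _), fun X N hN hX η => ?_⟩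
  have h1 : ∀ i ∈ s, ‖(X i * lam (c i • f)) η‖ ^ 2 ≤ M ^ 2 * ‖X i (lam f η)‖ ^ 2 := by
    intro i hi
    have e : (X i * lam (c i • f)) η = c i • X i (lam f η) := by
      rw [map_smul, mul_ap, _root_.smul_apply, map_smul]
    rw [e, norm_smul, mul_pow]
    exact mul_le_mul_of_nonneg_right (pow_le_pow_left₀ (norm_nonneg _) (hc i hi) 2) (sq_nonneg _)
  calc _ ≤ ∑ i ∈ s, M ^ 2 * ‖X i (lam f η)‖ ^ 2 := Finset.sum_le_sum h1
    _ = M ^ 2 * ∑ i ∈ s, ‖X i (lam f η)‖ ^ 2 := by rw [Finset.mul_sum]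
    _ ≤ M ^ 2 * (N ^ 2 * ‖lam f η‖ ^ 2) := mul_le_mul_of_nonneg_left (hX _) (sq_nonneg _)
    _ ≤ M ^ 2 * (N ^ 2 * (‖f‖ * ‖η‖) ^ 2) := by
        refine mul_le_mul_of_nonneg_left (mul_le_mul_of_nonneg_left ?_ (sq_nonneg _)) (sq_nonneg _)
        refine pow_le_pow_left₀ (norm_nonneg _) ?_ 2
        exact (ContinuousLinearMap.le_opNorm _ _).trans
          (mul_le_mul_of_nonneg_right (NonUnitalStarAlgHom.norm_apply_le lam f) (norm_nonneg _))
    _ = (N * (M * ‖f‖)) ^ 2 * ‖η‖ ^ 2 := by ring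

lemma good_const (f : C(Y, ℂ)) : Good lam s (fun _ => f) ‖f‖ := by
  have := good_smul (lam := lam) (s := s) f (fun _ => 1) zero_le_one (fun i _ => by simp)
  simpa using this

lemma good_zero : Good lam s (fun _ => (0 : C(Y, ℂ))) 0 := by
  have := good_const (lam := lam) (s := s) (0 : C(Y, ℂ))
  simpa using this

/-- Minkowski's inequality for finite families of vectors. -/
lemma mink (a b : ι → K) {A B : ℝ} (hA : 0 ≤ A) (hB : 0 ≤ B) (ha : ∑ i ∈ s, ‖a i‖ ^ 2 ≤ A ^ 2)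
    (hb : ∑ i ∈ s, ‖b i‖ ^ 2 ≤ B ^ 2) : ∑ i ∈ s, ‖a i + b i‖ ^ 2 ≤ (A + B) ^ 2 := by
  have h1 : (∑ i ∈ s, ‖a i‖ * ‖b i‖) ^ 2 ≤ (A * B) ^ 2 := by
    calc _ ≤ (∑ i ∈ s, ‖a i‖ ^ 2) * ∑ i ∈ s, ‖b i‖ ^ 2 := Finset.sum_mul_sq_le_sq_mul_sq s _ _
      _ ≤ A ^ 2 * B ^ 2 := mul_le_mul ha hb (Finset.sum_nonneg fun i _ => sq_nonneg _)
          (sq_nonneg _)
      _ = _ := by ring
  have h2 : ∑ i ∈ s, ‖a i‖ * ‖b i‖ ≤ A * B :=
    (sq_le_sq₀ (Finset.sum_nonneg fun i _ => mul_nonneg (norm_nonneg _) (norm_nonneg _))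
      (mul_nonneg hA hB)).1 h1
  calc ∑ i ∈ s, ‖a i + b i‖ ^ 2
      ≤ ∑ i ∈ s, (‖a i‖ ^ 2 + 2 * (‖a i‖ * ‖b i‖) + ‖b i‖ ^ 2) := by
        refine Finset.sum_le_sum fun i _ => ?_
        have := norm_add_le (a i) (b i)
        nlinarith [norm_nonneg (a i + b i), norm_nonneg (a i), norm_nonneg (b i)]
    _ = ∑ i ∈ s, ‖a i‖ ^ 2 + 2 * ∑ i ∈ s, ‖a i‖ * ‖b i‖ + ∑ i ∈ s, ‖b i‖ ^ 2 := by
        rw [Finset.sum_add_distrib, Finset.sum_add_distrib, Finset.mul_sum]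
    _ ≤ (A + B) ^ 2 := by nlinarith

lemma Good.add {F G : ι → C(Y, ℂ)} {C D : ℝ} (hF : Good lam s F C) (hG : Good lam s G D) :
    Good lam s (fun i => F i + G i) (C + D) := by
  refine ⟨add_nonneg hF.1 hG.1, fun X N hN hX η => ?_⟩
  have h1 := hF.2 X N hN hX η
  have h2 := hG.2 X N hN hX η
  have e : ∀ i ∈ s, ‖(X i * lam (F i + G i)) η‖ ^ 2 =
      ‖(X i * lam (F i)) η + (X i * lam (G i)) η‖ ^ 2 := by
    intro i _
    rw [map_add, mul_add, _root_.add_apply]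
  rw [Finset.sum_congr rfl e]
  refine (mink _ _ (mul_nonneg (mul_nonneg hN hF.1) (norm_nonneg η))
    (mul_nonneg (mul_nonneg hN hG.1) (norm_nonneg η)) ?_ ?_).trans (le_of_eq ?_)
  · rw [mul_pow]; exact h1
  · rw [mul_pow]; exact h2
  · ring

lemma Good.mul {F G : ι → C(Y, ℂ)} {C D : ℝ} (hF : Good lam s F C) (hG : Good lam s G D) :
    Good lam s (fun i => F i * G i) (C * D) := by
  refine ⟨mul_nonneg hF.1 hG.1, fun X N hN hX => ?_⟩
  have h1 := hG.2 _ _ (mul_nonneg hN hF.1) (hF.2 X N hN hX)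
  intro η
  have := h1 η
  refine le_trans (le_of_eq (Finset.sum_congr rfl fun i _ => ?_)) (this.trans (le_of_eq ?_))
  · simp only [map_mul, mul_assoc]
  · ring

lemma Good.neg {F : ι → C(Y, ℂ)} {C : ℝ} (hF : Good lam s F C) :
    Good lam s (fun i => - F i) C := by
  refine ⟨hF.1, fun X N hN hX η => le_trans (le_of_eq ?_) (hF.2 X N hN hX η)⟩
  refine Finset.sum_congr rfl fun i _ => ?_
  have e : (X i * lam (-F i)) η = -((X i * lam (F i)) η) := by
    rw [map_neg, mul_neg]; rfl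
  change ‖(X i * lam (-F i)) η‖ ^ 2 = _
  rw [e, norm_neg]

lemma Good.sub {F G : ι → C(Y, ℂ)} {C D : ℝ} (hF : Good lam s F C) (hG : Good lam s G D) :
    Good lam s (fun i => F i - G i) (C + D) := by
  have := hF.add hG.neg
  simpa [sub_eq_add_neg] using this

lemma good_sum {κ : Type*} (t : Finset κ) {F : κ → ι → C(Y, ℂ)} {C : κ → ℝ}
    (h : ∀ j ∈ t, Good lam s (F j) (C j)) :
    Good lam s (fun i => ∑ j ∈ t, F j i) (∑ j ∈ t, C j) := by
  classical
  induction t using Finset.induction_on with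
  | empty => simpa using good_zero
  | insert a t ha ih =>
    have h1 := (h a (Finset.mem_insert_self a t)).add
      (ih fun j hj => h j (Finset.mem_insert_of_mem hj))
    refine (h1.congr fun i _ => ?_).mono ?_
    · rw [Finset.sum_insert ha]
    · rw [Finset.sum_insert ha]

lemma good_pow {F : ι → C(Y, ℂ)} {C : ℝ} (h : Good lam s F C) (n : ℕ) :
    Good lam s (fun i => F i ^ n) (C ^ n) := by
  induction n with
  | zero =>
    have := good_smul (lam := lam) (s := s) (1 : C(Y, ℂ)) (fun _ => 1) zero_le_one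
      (fun i _ => by simp)
    refine (this.congr fun i _ => by simp).mono ?_
    rw [pow_zero, one_mul]
    rw [ContinuousMap.norm_le _ zero_le_one]
    intro x
    simp
  | succ n ih =>
    refine ((ih.mul h).congr fun i _ => ?_).mono ?_
    · rw [pow_succ]
    · rw [pow_succ]

/-- limits -/
lemma good_lim {F : ℕ → ι → C(Y, ℂ)} {G : ι → C(Y, ℂ)} {C : ℝ}
    (h : ∀ n, Good lam s (F n) C) (hl : ∀ i ∈ s, Filter.Tendsto (fun n => F n i)
      Filter.atTop (𝓝 (G i))) : Good lam s G C := by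
  refine ⟨(h 0).1, fun X N hN hX η => ?_⟩
  have hc : Continuous lam := AddMonoidHomClass.continuous_of_bound lam 1 fun f => by
    rw [one_mul]; exact NonUnitalStarAlgHom.norm_apply_le lam f
  have h1 : Filter.Tendsto (fun n => ∑ i ∈ s, ‖(X i * lam (F n i)) η‖ ^ 2) Filter.atTop
      (𝓝 (∑ i ∈ s, ‖(X i * lam (G i)) η‖ ^ 2)) := by
    refine tendsto_finsetSum _ fun i hi => ?_
    have h2 : Filter.Tendsto (fun n => lam (F n i) η) Filter.atTop (𝓝 (lam (G i) η)) :=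
      ((ContinuousLinearMap.apply ℂ K η).continuous.tendsto _).comp
        ((hc.tendsto _).comp (hl i hi))
    exact ((((X i).continuous.tendsto _).comp h2).norm).pow 2
  exact le_of_tendsto h1 (Filter.Eventually.of_forall fun n => (h n).2 X N hN hX η)

/-- Neumann series -/
lemma good_neumann {D H : ι → C(Y, ℂ)} {θ : ℝ} (hθ : θ < 1) (hD : Good lam s D θ)
    (hn : ∀ i ∈ s, ‖D i‖ ≤ θ) (hH : ∀ i ∈ s, (1 - D i) * H i = 1) :
    Good lam s H (1 / (1 - θ)) := by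
  have h1θ : 0 < 1 - θ := by linarith
  refine good_lim (F := fun n i => ∑ j ∈ Finset.range n, D i ^ j) (fun n => ?_) (fun i hi => ?_)
  · refine (good_sum (Finset.range n) (F := fun j i => D i ^ j) (C := fun j => θ ^ j)
      fun j _ => good_pow hD j).mono ?_
    have : (∑ j ∈ Finset.range n, θ ^ j) * (1 - θ) = 1 - θ ^ n := by
      have := geom_sum_mul_neg θ n
      linarith
    rw [le_div_iff₀ h1θ, this]
    linarith [pow_nonneg hD.1 n]
  · have h2 : ∀ n, ∑ j ∈ Finset.range n, D i ^ j = H i - D i ^ n * H i := by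
      intro n
      have h3 : (∑ j ∈ Finset.range n, D i ^ j) * (1 - D i) = 1 - D i ^ n :=
        geom_sum_mul_neg _ _
      calc ∑ j ∈ Finset.range n, D i ^ j
          = (∑ j ∈ Finset.range n, D i ^ j) * ((1 - D i) * H i) := by rw [hH i hi, mul_one]
        _ = ((∑ j ∈ Finset.range n, D i ^ j) * (1 - D i)) * H i := by rw [mul_assoc]
        _ = _ := by rw [h3, sub_mul, one_mul]
    have h4 : Filter.Tendsto (fun n => D i ^ n) Filter.atTop (𝓝 0) :=
      tendsto_pow_atTop_nhds_zero_of_norm_lt_one ((hn i hi).trans_lt hθ)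
    simp only [h2]
    have h5 : Filter.Tendsto (fun n => H i - D i ^ n * H i) Filter.atTop
        (𝓝 (H i - 0 * H i)) := tendsto_const_nhds.sub (h4.mul tendsto_const_nhds)
    simpa using h5

/-- **Orthogonality.** -/
lemma good_orth {γ : Type*} [DecidableEq γ] (c : ι → γ) (ψ : γ → C(Y, ℂ)) {F : ι → C(Y, ℂ)}
    {C C₀ : ℝ} (hC : 0 ≤ C) (hC₀ : 0 ≤ C₀)
    (hF : ∀ g, Good lam (s.filter fun i => c i = g) F C)
    (hψ : ∀ y, ∑ g ∈ s.image c, ‖ψ g y‖ ^ 2 ≤ C₀ ^ 2) :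
    Good lam s (fun i => F i * ψ (c i)) (C * C₀) := by
  refine ⟨mul_nonneg hC hC₀, fun X N hN hX η => ?_⟩
  have h1 : ∀ g, ∑ i ∈ s.filter (fun i => c i = g), ‖(X i * lam (F i * ψ (c i))) η‖ ^ 2 ≤
      (N * C) ^ 2 * ‖lam (ψ g) η‖ ^ 2 := by
    intro g
    have hXg : Col (s.filter fun i => c i = g) X N := fun ζ =>
      (Finset.sum_le_sum_of_subset_of_nonneg (Finset.filter_subset _ _)
        (fun i _ _ => sq_nonneg _)).trans (hX ζ)
    refine le_trans (le_of_eq ?_) ((hF g).2 X N hN hXg (lam (ψ g) η))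
    refine Finset.sum_congr rfl fun i hi => ?_
    rw [(Finset.mem_filter.1 hi).2, map_mul]
    rfl
  calc ∑ i ∈ s, ‖(X i * lam (F i * ψ (c i))) η‖ ^ 2
      = ∑ g ∈ s.image c, ∑ i ∈ s.filter (fun i => c i = g),
          ‖(X i * lam (F i * ψ (c i))) η‖ ^ 2 :=
        (Finset.sum_fiberwise_of_maps_to (fun i hi => Finset.mem_image_of_mem c hi) _).symm
    _ ≤ ∑ g ∈ s.image c, (N * C) ^ 2 * ‖lam (ψ g) η‖ ^ 2 := Finset.sum_le_sum fun g _ => h1 g
    _ = (N * C) ^ 2 * ∑ g ∈ s.image c, ‖lam (ψ g) η‖ ^ 2 := by rw [Finset.mul_sum]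
    _ ≤ (N * C) ^ 2 * (C₀ ^ 2 * ‖η‖ ^ 2) := mul_le_mul_of_nonneg_left
        (sum_sq_le lam (s.image c) ψ (sq_nonneg _) hψ η) (sq_nonneg _)
    _ = (N * (C * C₀)) ^ 2 * ‖η‖ ^ 2 := by ring

/-- transport by a homeomorphism (or any continuous map) -/
lemma good_comp {Z : Type*} [TopologicalSpace Z] [CompactSpace Z] (A : C(Y, Z))
    {F : ι → C(Z, ℂ)} {C : ℝ}
    (h : Good (lam.comp (ContinuousMap.compStarAlgHom' ℂ ℂ A)) s F C) :
    Good lam s (fun i => (F i).comp A) C := h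

/-- the initial column -/
lemma col_of_sum (h : ι → C(Y, ℂ)) {N : ℝ} (hN : ∀ y, ∑ i ∈ s, ‖h i y‖ ^ 2 ≤ N ^ 2) :
    Col s (fun i => lam (h i)) N := fun η => sum_sq_le lam s h (sq_nonneg _) hN η

end good

end Vale.Agent.P092.H437
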