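import Vale.Agent.P092.H437.Scale
import Vale.Agent.P092.H596.N.CapU

/-!
P092 (helper437), Team N, block [N-W0]: `good_nwa`, the letters of `SN/Defs`.
-/

set_option linter.unusedSectionVars false
set_option linter.unusedVariables false

namespace Vale.Agent.P092.H437

open Vale.Agent.P092.H218 Vale.Agent.P092.H820 Topology Matrix
open Vale.Agent.P092.RC (GG YY ct)
open Vale.Agent.P092.SN (nm NW CY act)
open Vale.Agent.P092.H596.N (nm_pos nm_mul act_apply nwn_own)
open Vale.Agent.P092.H87.N (cn cn_nonneg KR one_le_KR exists_pivn yy)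
open scoped LinearAlgebra.Projectivization

variable {k : Type} [NontriviallyNormedField k] {N : ℕ}

lemma one_le_nm_one : 1 ≤ nm (1 : GG k N) := by
  have h := H87.N.entry_le (1 : GG k N) 0 0
  have e : (1 : GG k N).1 0 0 = (1 : k) := by
    change (1 : Matrix (Fin (N + 1)) (Fin (N + 1)) k) 0 0 = 1
    exact Matrix.one_apply_eq 0
  rw [e, norm_one] at h
  exact h

/-- near-wall elements are not small -/
lemma nm_low (hN : 0 < N) {R : ℝ} {g : GG k N} (h : NW R g) :
    1 ≤ (N + 1) * (1 + |R|) * nm g := by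
  have hR := abs_nonneg R
  have hN1 : (1 : ℝ) ≤ N + 1 := by
    have : (0 : ℝ) ≤ N := Nat.cast_nonneg N
    linarith
  by_cases h1 : 1 ≤ nm g
  · have h2 : (1 : ℝ) ≤ (N + 1) * (1 + |R|) := one_le_mul_of_one_le_of_one_le hN1 (by linarith)
    exact one_le_mul_of_one_le_of_one_le h2 h1
  · push Not at h1
    have h2 : nm g⁻¹ ≤ 1 + |R| := by
      have h3 : nm g⁻¹ ^ N ≤ (1 + |R|) ^ N := by
        calc nm g⁻¹ ^ N ≤ R * nm g := h
          _ ≤ |R| * 1 := mul_le_mul (le_abs_self R) h1.le (norm_nonneg _) hR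
          _ ≤ 1 + |R| := by linarith
          _ ≤ (1 + |R|) ^ N := le_self_pow₀ (by linarith) hN.ne'
      exact le_of_pow_le_pow_left₀ hN.ne' (by positivity) h3
    have h4 := nm_mul g g⁻¹
    rw [mul_inv_cancel] at h4
    have h5 := one_le_nm_one (k := k) (N := N)
    have h6 : nm g * nm g⁻¹ ≤ nm g * (1 + |R|) :=
      mul_le_mul_of_nonneg_left h2 (norm_nonneg _)
    calc 1 ≤ (N + 1) * (nm g * nm g⁻¹) := h5.trans h4
      _ ≤ (N + 1) * (nm g * (1 + |R|)) := by gcongr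
      _ = _ := by ring

variable [ProperSpace k]

/-- **The translates of a basic function by near-wall elements are `C (1 + J)`-good.** -/
theorem good_nwa (hN : 0 < N) {f : CY k N} (hf : Bas f) (R : ℝ) :
    ∃ C : ℝ, 0 ≤ C ∧ ∀ {K : Type} [NormedAddCommGroup K] [InnerProductSpace ℂ K]
      [CompleteSpace K] (lam : CY k N →⋆ₐ[ℂ] (K →L[ℂ] K)) {Γ : Type} (q : Γ → GG k N) (J : ℝ)
      (S : Finset Γ), 0 ≤ J → (∀ γ ∈ S, NW R (q γ) ∧ Real.log (nm (q γ)) ≤ J) →
      Good lam S (fun γ => act (ct (q γ))⁻¹ f) (C * (1 + J)) := by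
  classical
  obtain ⟨ϖ, h0, h1⟩ := NormedField.exists_norm_lt k (show (0 : ℝ) < 1 / 4 by norm_num)
  have hN1 : (1 : ℝ) ≤ N := by exact_mod_cast hN
  set A : ℝ := (N + 1) * (1 + |R|) with hA
  have hA1 : 1 ≤ A := one_le_mul_of_one_le_of_one_le (by linarith)
    (by linarith [abs_nonneg R])
  have hA0 : 0 < A := by linarith
  set σ : ℝ := Real.log A with hσ
  have hσ0 : 0 ≤ σ := Real.log_nonneg hA1
  set R₀ : ℝ := Real.exp (2 * σ) with hR₀
  have hR₀1 : 1 ≤ R₀ := Real.one_le_exp (by positivity)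
  have hR₀0 : 0 < R₀ := by linarith
  have hc := cn_nonneg (ι := Fin (N + 1))
  have hK1 := one_le_KR N R
  set C₀ : ℝ := 8 * cn (Fin (N + 1)) ^ 2 * KR N R + cn (Fin (N + 1)) * KR N R * R₀ with hC₀
  obtain ⟨C, hC, hG⟩ := good_nw (n := Fin (N + 1)) hf h0 h1.le C₀
  set l : ℝ := -Real.log ‖ϖ‖ with hl
  have hl0 : 0 < l := by
    have := Real.log_neg h0 (by linarith)
    linarith
  refine ⟨C * (2 + 2 * (1 + σ) / l), by positivity,
    fun {K} _ _ _ lam {Γ} q J S hJ hS => ?_⟩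
  have hpv : ∀ γ : Γ, ∃ p : Fin (N + 1) × Fin (N + 1),
      ∀ a b, ‖(q γ).1 a b‖ ≤ ‖(q γ).1 p.1 p.2‖ := fun γ => by
    obtain ⟨i, j, -, hp⟩ := exists_pivn (q γ)
    exact ⟨(i, j), hp⟩
  choose p hp using hpv
  set L : ℕ := ⌈2 * (J + σ) / l⌉₊ with hL
  have key := hG lam S (fun γ => (ct (q γ)).1) (fun γ => yy (q γ).1 (p γ).1 (p γ).2)
    (fun γ => Real.exp (Real.log (nm (q γ)) / N))
    (fun γ => 1 / (Real.exp (Real.log (nm (q γ))) * Real.exp (Real.log (nm (q γ)) / N)) / R₀)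
    (fun γ => act (ct (q γ))⁻¹ f) L (fun γ hγ => ?_)
  · refine key.mono ?_
    have h2 : (L : ℝ) ≤ 2 * (J + σ) / l + 1 := (Nat.ceil_lt_add_one (by positivity)).le
    have h3 : 1 + (L : ℝ) ≤ (2 + 2 * (1 + σ) / l) * (1 + J) := by
      have h4 : 2 * (J + σ) / l ≤ 2 * (1 + σ) / l * (1 + J) := by
        rw [div_mul_eq_mul_div]
        refine div_le_div_of_nonneg_right ?_ hl0.le
        nlinarith
      nlinarith
    calc C * (1 + L) ≤ C * ((2 + 2 * (1 + σ) / l) * (1 + J)) :=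
          mul_le_mul_of_nonneg_left h3 hC
      _ = _ := by ring
  · obtain ⟨hNW, hlog⟩ := hS γ hγ
    set s : ℝ := Real.log (nm (q γ)) with hs
    have hnm : 0 < nm (q γ) := nm_pos _
    have hes : Real.exp s = nm (q γ) := Real.exp_log hnm
    have H := nwn_own hN hNW (hp γ) (s := s) hes.le (by
      rw [← hes]; exact Real.exp_le_exp.2 (by linarith))
    have hs1 : -σ ≤ s := by
      have h2 := nm_low hN hNW
      have h3 : 0 ≤ σ + s := by
        rw [hσ, hs, ← Real.log_mul hA0.ne' hnm.ne']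
        exact Real.log_nonneg h2
      linarith
    have hr : 1 / (Real.exp s * Real.exp (s / N)) = Real.exp (-(s + s / N)) := by
      rw [← Real.exp_add, Real.exp_neg, one_div]
    have hsN : s / N ≤ max s 0 := by
      rw [div_le_iff₀ (by linarith)]
      have := le_max_left s 0
      have h5 := le_max_right s 0
      nlinarith
    have hsN' : -σ ≤ s / N := by
      rw [le_div_iff₀ (by linarith)]
      nlinarith
    refine ⟨⟨(p γ).2, H.yy_j⟩, H.yy_norm.le, Real.exp_pos _, ?_, ?_, fun ν => ?_, fun ν => ?_,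
      fun v hv h => ?_⟩
    · -- lower bound of the radius
      rw [hr, hR₀, ← Real.exp_sub]
      have h2 : ‖ϖ‖ ^ L = Real.exp (-(l * L)) := by
        rw [hl, ← Real.exp_log h0, ← Real.exp_nat_mul, Real.log_exp]
        congr 1
        ring
      rw [h2]
      refine Real.exp_le_exp.2 ?_
      have h3 : 2 * (J + σ) / l ≤ L := Nat.le_ceil _
      rw [div_le_iff₀ hl0] at h3
      have h4 : max s 0 ≤ J := max_le hlog hJ
      have h5 := le_max_left s 0
      nlinarith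
    · -- upper bound of the radius
      rw [hr, hR₀, ← Real.exp_sub]
      rw [← Real.exp_zero]
      refine Real.exp_le_exp.2 ?_
      linarith
    · have h2 := H.le_vecMul_h ν
      have e : (ct (q γ)).1 *ᵥ ν = ν ᵥ* ((q γ)⁻¹).1 := Matrix.mulVec_transpose _ _
      change Real.exp (s / N) * _ ≤ C₀ * ‖(ct (q γ)).1 *ᵥ ν‖
      rw [e]
      have hpos : 0 ≤ 1 / (Real.exp s * Real.exp (s / N)) := by positivity
      have h3 : 1 / (Real.exp s * Real.exp (s / N)) / R₀ ≤
          1 / (Real.exp s * Real.exp (s / N)) := div_le_self hpos hR₀1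
      calc Real.exp (s / N) * (‖wd ν (yy (q γ).1 (p γ).1 (p γ).2)‖ +
            1 / (Real.exp s * Real.exp (s / N)) / R₀ * ‖ν‖)
          ≤ Real.exp (s / N) * (‖wd ν (yy (q γ).1 (p γ).1 (p γ).2)‖ +
            1 / (Real.exp s * Real.exp (s / N)) * ‖ν‖) := by gcongr
        _ ≤ 8 * cn (Fin (N + 1)) ^ 2 * KR N R * ‖ν ᵥ* ((q γ)⁻¹).1‖ := h2
        _ ≤ C₀ * ‖ν ᵥ* ((q γ)⁻¹).1‖ := by
            refine mul_le_mul_of_nonneg_right ?_ (norm_nonneg _)
            rw [hC₀]
            have : 0 ≤ cn (Fin (N + 1)) * KR N R * R₀ := by positivity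
            linarith
    · have h2 := H.vecMul_h_le ν
      have e : (ct (q γ)).1 *ᵥ ν = ν ᵥ* ((q γ)⁻¹).1 := Matrix.mulVec_transpose _ _
      change ‖(ct (q γ)).1 *ᵥ ν‖ ≤ C₀ * Real.exp (s / N) * _
      rw [e]
      have hpos : 0 ≤ 1 / (Real.exp s * Real.exp (s / N)) := by positivity
      have hw : 0 ≤ ‖wd ν (yy (q γ).1 (p γ).1 (p γ).2)‖ := norm_nonneg _
      have h4 : ‖wd ν (yy (q γ).1 (p γ).1 (p γ).2)‖ +
          1 / (Real.exp s * Real.exp (s / N)) * ‖ν‖ ≤ R₀ *
          (‖wd ν (yy (q γ).1 (p γ).1 (p γ).2)‖ +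
            1 / (Real.exp s * Real.exp (s / N)) / R₀ * ‖ν‖) := by
        have e2 : R₀ * (‖wd ν (yy (q γ).1 (p γ).1 (p γ).2)‖ +
            1 / (Real.exp s * Real.exp (s / N)) / R₀ * ‖ν‖) =
            R₀ * ‖wd ν (yy (q γ).1 (p γ).1 (p γ).2)‖ +
            1 / (Real.exp s * Real.exp (s / N)) * ‖ν‖ := by
          field_simp
        rw [e2]
        nlinarith
      calc ‖ν ᵥ* ((q γ)⁻¹).1‖ ≤ cn (Fin (N + 1)) * KR N R * Real.exp (s / N) *
            (‖wd ν (yy (q γ).1 (p γ).1 (p γ).2)‖ +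
              1 / (Real.exp s * Real.exp (s / N)) * ‖ν‖) := h2
        _ ≤ cn (Fin (N + 1)) * KR N R * Real.exp (s / N) * (R₀ *
          (‖wd ν (yy (q γ).1 (p γ).1 (p γ).2)‖ +
            1 / (Real.exp s * Real.exp (s / N)) / R₀ * ‖ν‖)) := by gcongr
        _ = (cn (Fin (N + 1)) * KR N R * R₀) * Real.exp (s / N) *
          (‖wd ν (yy (q γ).1 (p γ).1 (p γ).2)‖ +
            1 / (Real.exp s * Real.exp (s / N)) / R₀ * ‖ν‖) := by ring
        _ ≤ C₀ * Real.exp (s / N) * (‖wd ν (yy (q γ).1 (p γ).1 (p γ).2)‖ +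
            1 / (Real.exp s * Real.exp (s / N)) / R₀ * ‖ν‖) := by
            refine mul_le_mul_of_nonneg_right (mul_le_mul_of_nonneg_right ?_
              (Real.exp_pos _).le) (by positivity)
            rw [hC₀]
            have : 0 ≤ 8 * cn (Fin (N + 1)) ^ 2 * KR N R := by positivity
            linarith
    · rw [act_apply]
      rfl

end Vale.Agent.P092.H437
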