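import Vale.Agent.P092.H437.Good

/-!
P092 (helper437), Team N, block [N-W0], part (B): the compactness lemma.

`𝒯` is a space of parameters (matrices), `X` a compact space (the projective space),
`ev T x` the value of a fixed function at `T x`, defined on the open set `Nz`.
-/

set_option linter.unusedSectionVars false
set_option linter.unusedVariables false

namespace Vale.Agent.P092.H437

open Vale.Agent.P092.H218 Topology

section adm

variable {X 𝒯 : Type*} [TopologicalSpace X] [CompactSpace X] [T2Space X] [TopologicalSpace 𝒯]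

/-- all families `(F i * ψ)`, with `F i = ev (T i)` where this makes sense and `T i ∈ t`, are
`C`-good -/
def GW (ev : 𝒯 → X → ℂ) (Nz : Set (𝒯 × X)) (t : Set 𝒯) (ψ : C(X, ℂ)) (C : ℝ) : Prop :=
  ∀ {K : Type} [NormedAddCommGroup K] [InnerProductSpace ℂ K] [CompleteSpace K]
    (lam : C(X, ℂ) →⋆ₐ[ℂ] (K →L[ℂ] K)) {ι : Type} (s : Finset ι) (T : ι → 𝒯)
    (F : ι → C(X, ℂ)), (∀ i ∈ s, T i ∈ t) → (∀ i ∈ s, ∀ x, (T i, x) ∈ Nz → F i x = ev (T i) x) →
    Good lam s (fun i => F i * ψ) C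

/-- admissible: uniformly good on compact sets of parameters -/
def Adm (ev : 𝒯 → X → ℂ) (Nz : Set (𝒯 × X)) : Prop :=
  ∀ t : Set 𝒯, IsCompact t → ∀ ψ : C(X, ℂ), (∀ T ∈ t, ∀ x ∈ tsupport ⇑ψ, (T, x) ∈ Nz) →
    ∃ C, GW ev Nz t ψ C

/-- locally admissible -/
def LAdm (ev : 𝒯 → X → ℂ) (Nz : Set (𝒯 × X)) : Prop :=
  ∀ T₀ x₀, (T₀, x₀) ∈ Nz → ∃ t ∈ 𝓝 T₀, ∃ V : Set X, IsOpen V ∧ x₀ ∈ V ∧
    ∀ ψ : C(X, ℂ), tsupport ⇑ψ ⊆ V → ∃ C, GW ev Nz t ψ C

lemma good_empty {K : Type} [NormedAddCommGroup K] [InnerProductSpace ℂ K] [CompleteSpace K]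
    (lam : C(X, ℂ) →⋆ₐ[ℂ] (K →L[ℂ] K)) {ι : Type} (F : ι → C(X, ℂ)) :
    Good lam ∅ F 0 :=
  ⟨le_rfl, fun Y N _ _ η => by simp⟩

lemma good_split {K : Type} [NormedAddCommGroup K] [InnerProductSpace ℂ K] [CompleteSpace K]
    (lam : C(X, ℂ) →⋆ₐ[ℂ] (K →L[ℂ] K)) {ι : Type} (s : Finset ι) (F : ι → C(X, ℂ))
    (p : ι → Prop) [DecidablePred p] {C D : ℝ} (h1 : Good lam (s.filter p) F C)
    (h2 : Good lam (s.filter fun i => ¬ p i) F D) : Good lam s F (C + D) := by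
  refine ⟨add_nonneg h1.1 h2.1, fun Y N hN hY η => ?_⟩
  have a1 := h1.2 Y N hN (fun ζ => (Finset.sum_le_sum_of_subset_of_nonneg
    (Finset.filter_subset _ _) (fun i _ _ => sq_nonneg _)).trans (hY ζ)) η
  have a2 := h2.2 Y N hN (fun ζ => (Finset.sum_le_sum_of_subset_of_nonneg
    (Finset.filter_subset _ _) (fun i _ _ => sq_nonneg _)).trans (hY ζ)) η
  rw [← Finset.sum_filter_add_sum_filter_not s p]
  refine (add_le_add a1 a2).trans ?_
  have : 0 ≤ 2 * (N ^ 2 * (C * D)) * ‖η‖ ^ 2 :=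
    mul_nonneg (mul_nonneg zero_le_two (mul_nonneg (sq_nonneg _) (mul_nonneg h1.1 h2.1)))
      (sq_nonneg _)
  nlinarith

theorem adm_of_ladm {ev : 𝒯 → X → ℂ} {Nz : Set (𝒯 × X)} (h : LAdm ev Nz) : Adm ev Nz := by
  classical
  intro t ht ψ hψ
  refine van (fun φ => ∃ C, GW ev Nz t φ C) ?_ ?_ ψ (fun x hx => ?_)
  · refine ⟨0, fun lam ι s T F _ _ => ?_⟩
    refine (good_zero (lam := lam)).congr fun i _ => ?_
    rw [mul_zero]
  · rintro f g ⟨C, hC⟩ ⟨D, hD⟩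
    refine ⟨C + D, fun lam ι s T F hT hF => ?_⟩
    refine ((hC lam s T F hT hF).add (hD lam s T F hT hF)).congr fun i _ => ?_
    rw [mul_add]
  · have key : ∃ U : Set X, IsOpen U ∧ x ∈ U ∧ ∀ φ : C(X, ℂ), tsupport ⇑φ ⊆ U →
        ∃ C, GW ev Nz t φ C := by
      refine ht.induction_on (p := fun t => ∃ U : Set X, IsOpen U ∧ x ∈ U ∧
        ∀ φ : C(X, ℂ), tsupport ⇑φ ⊆ U → ∃ C, GW ev Nz t φ C) ?_ ?_ ?_ ?_
      · refine ⟨Set.univ, isOpen_univ, Set.mem_univ _, fun φ _ => ⟨0, fun lam ι s T F hT _ => ?_⟩⟩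
        have : s = ∅ := Finset.eq_empty_of_forall_notMem fun i hi => hT i hi
        subst this
        exact good_empty lam _
      · rintro a b hab ⟨U, h1, h2, h3⟩
        refine ⟨U, h1, h2, fun φ hφ => ?_⟩
        obtain ⟨C, hC⟩ := h3 φ hφ
        exact ⟨C, fun lam ι s T F hT hF => hC lam s T F (fun i hi => hab (hT i hi)) hF⟩
      · rintro a b ⟨U, h1, h2, h3⟩ ⟨U', h1', h2', h3'⟩
        refine ⟨U ∩ U', h1.inter h1', ⟨h2, h2'⟩, fun φ hφ => ?_⟩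
        obtain ⟨C, hC⟩ := h3 φ (hφ.trans Set.inter_subset_left)
        obtain ⟨D, hD⟩ := h3' φ (hφ.trans Set.inter_subset_right)
        refine ⟨C + D, fun lam ι s T F hT hF => ?_⟩
        refine good_split lam s _ (fun i => T i ∈ a) ?_ ?_
        · refine hC lam _ T F (fun i hi => (Finset.mem_filter.1 hi).2)
            fun i hi => hF i (Finset.mem_filter.1 hi).1
        · refine hD lam _ T F (fun i hi => ?_) fun i hi => hF i (Finset.mem_filter.1 hi).1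
          exact (hT i (Finset.mem_filter.1 hi).1).resolve_left (Finset.mem_filter.1 hi).2
      · intro T₀ hT₀
        obtain ⟨a, ha, V, hV, hxV, hφ⟩ := h T₀ x (hψ T₀ hT₀ x hx)
        exact ⟨a, mem_nhdsWithin_of_mem_nhds ha, V, hV, hxV, hφ⟩
    obtain ⟨U, h1, h2, h3⟩ := key
    exact ⟨U, h1, h2, fun g hg _ => h3 g hg⟩

/-- a locally constant `ev` is locally admissible -/
theorem ladm_const {ev : 𝒯 → X → ℂ} {Nz : Set (𝒯 × X)}
    (h : ∀ T₀ x₀, (T₀, x₀) ∈ Nz → ∀ᶠ p in 𝓝 (T₀, x₀), p ∈ Nz ∧ ev p.1 p.2 = ev T₀ x₀) :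
    LAdm ev Nz := by
  intro T₀ x₀ h0
  obtain ⟨t, ht, V, hV, hsub⟩ := mem_nhds_prod_iff.1 (h T₀ x₀ h0)
  obtain ⟨V', hV'V, hV'o, hxV'⟩ := mem_nhds_iff.1 hV
  refine ⟨t, ht, V', hV'o, hxV', fun ψ hψ => ⟨‖ev T₀ x₀ • ψ‖, fun lam ι s T F hT hF => ?_⟩⟩
  refine (good_const (lam := lam) (ev T₀ x₀ • ψ)).congr fun i hi => ?_
  ext x
  rw [ContinuousMap.mul_apply, ContinuousMap.smul_apply, smul_eq_mul]
  by_cases hx : ψ x = 0
  · rw [hx, mul_zero, mul_zero]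
  · have hxV : x ∈ V := hV'V (hψ (subset_tsupport _ hx))
    have h1 := hsub (Set.mk_mem_prod (hT i hi) hxV)
    rw [hF i hi x h1.1, h1.2]

/-- pointwise inverse -/
noncomputable def cinv (g : C(X, ℂ)) (h : ∀ x, g x ≠ 0) : C(X, ℂ) :=
  ⟨fun x => (g x)⁻¹, g.continuous.inv₀ h⟩

/-- a quotient of two finite sums is locally admissible -/
theorem ladm_rat {J : Type*} [Fintype J] (e : J → C(X, ℂ)) (α β : J → 𝒯 → ℂ)
    (hα : ∀ j, Continuous (α j)) (hβ : ∀ j, Continuous (β j)) {ev : 𝒯 → X → ℂ}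
    {Nz : Set (𝒯 × X)} (hNz : ∀ T x, (T, x) ∈ Nz ↔ ∑ j, α j T * e j x ≠ 0)
    (hev : ∀ T x, (T, x) ∈ Nz → ev T x = (∑ j, β j T * e j x) / ∑ j, α j T * e j x) :
    LAdm ev Nz := by
  classical
  intro T₀ x₀ h0
  rw [hNz] at h0
  set D₀ : ℂ := ∑ j, α j T₀ * e j x₀ with hD₀
  have hDpos : 0 < ‖D₀‖ := norm_pos_iff.2 h0
  -- the small parameters
  set S₁ : ℝ := ∑ j, ‖e j‖ with hS₁
  set S₂ : ℝ := ∑ j, ‖α j T₀‖ with hS₂
  have hS₁0 : 0 ≤ S₁ := Finset.sum_nonneg fun j _ => norm_nonneg _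
  have hS₂0 : 0 ≤ S₂ := Finset.sum_nonneg fun j _ => norm_nonneg _
  obtain ⟨ε, hε, hε1⟩ : ∃ ε : ℝ, 0 < ε ∧ ‖D₀‖⁻¹ * (ε * S₁ + ε * S₂) ≤ 1 / 2 := by
    refine ⟨‖D₀‖ / (2 * (S₁ + S₂ + 1)), by positivity, ?_⟩
    have : ‖D₀‖⁻¹ * (‖D₀‖ / (2 * (S₁ + S₂ + 1)) * S₁ + ‖D₀‖ / (2 * (S₁ + S₂ + 1)) * S₂) =
        (S₁ + S₂) / (2 * (S₁ + S₂ + 1)) := by
      field_simp
    rw [this, div_le_div_iff₀ (by positivity) (by norm_num)]
    nlinarith
  have ht1 : ∀ᶠ T in 𝓝 T₀, ∀ j, ‖α j T - α j T₀‖ ≤ ε := by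
    rw [Filter.eventually_all]
    intro j
    have := (hα j).continuousAt (x := T₀)
    filter_upwards [this.eventually (Metric.closedBall_mem_nhds _ hε)] with T hT
    simpa [dist_eq_norm] using hT
  have ht2 : ∀ᶠ T in 𝓝 T₀, ∀ j, ‖β j T‖ ≤ ‖β j T₀‖ + 1 := by
    rw [Filter.eventually_all]
    intro j
    have := ((hβ j).norm).continuousAt (x := T₀)
    filter_upwards [this.eventually (eventually_le_nhds (show ‖β j T₀‖ < ‖β j T₀‖ + 1 by
      linarith))] with T hT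
    exact hT
  have hx1 : ∀ᶠ x in 𝓝 x₀, ∀ j, ‖e j x - e j x₀‖ ≤ ε := by
    rw [Filter.eventually_all]
    intro j
    have := (e j).continuous.continuousAt (x := x₀)
    filter_upwards [this.eventually (Metric.closedBall_mem_nhds _ hε)] with x hx
    simpa [dist_eq_norm] using hx
  obtain ⟨V, hV, hVo, hxV⟩ := mem_nhds_iff.1 hx1
  refine ⟨_, ht1.and ht2, V, hVo, hxV, fun ψ hψ => ?_⟩
  -- cut-off
  obtain ⟨χ, hχ0, hχ1, hχI⟩ := exists_continuous_zero_one_of_isClosed hVo.isClosed_compl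
    (isClosed_tsupport ⇑ψ) (Set.disjoint_compl_left_iff_subset.2 hψ)
  have hχn : ∀ x, ‖toC χ x‖ ≤ 1 := fun x => by
    rw [toC_apply, Complex.norm_real, Real.norm_of_nonneg (hχI x).1]
    exact (hχI x).2
  have hχN : ‖toC χ‖ ≤ 1 := (ContinuousMap.norm_le _ zero_le_one).2 hχn
  set B : ℝ := ∑ j, (‖β j T₀‖ + 1) * ‖e j‖ with hB
  refine ⟨B * ‖D₀⁻¹ • (1 : C(X, ℂ))‖ * (1 / (1 - 1 / 2)) * ‖ψ‖,
    fun lam ι s T F hT hF => ?_⟩
  -- the perturbation
  set Δ : ι → C(X, ℂ) := fun i => ∑ j, ((-(D₀⁻¹ * (α j (T i) - α j T₀))) • (e j * toC χ) +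
    (-(D₀⁻¹ * α j T₀)) • ((e j - e j x₀ • 1) * toC χ)) with hΔ
  have hΔx : ∀ i x, Δ i x = toC χ x * (1 - D₀⁻¹ * ∑ j, α j (T i) * e j x) := by
    intro i x
    have h1 : (1 : ℂ) = D₀⁻¹ * ∑ j, α j T₀ * e j x₀ := by
      rw [← hD₀, inv_mul_cancel₀ h0]
    conv_rhs => rw [h1]
    simp only [hΔ, ContinuousMap.sum_apply, ContinuousMap.add_apply, ContinuousMap.smul_apply,
      ContinuousMap.mul_apply, ContinuousMap.sub_apply, ContinuousMap.one_apply, smul_eq_mul,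
      mul_one]
    rw [← mul_sub, ← Finset.sum_sub_distrib, Finset.mul_sum, Finset.mul_sum]
    refine Finset.sum_congr rfl fun j _ => ?_
    ring
  have hcut : ∀ j, ‖(e j - e j x₀ • (1 : C(X, ℂ))) * toC χ‖ ≤ ε := by
    intro j
    rw [ContinuousMap.norm_le _ hε.le]
    intro x
    rw [ContinuousMap.mul_apply, norm_mul]
    by_cases hx : x ∈ V
    · have h2 : ‖(e j - e j x₀ • (1 : C(X, ℂ))) x‖ ≤ ε := by
        have := hV hx j
        simpa using this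
      calc _ ≤ ε * 1 := mul_le_mul h2 (hχn x) (norm_nonneg _) hε.le
        _ = ε := mul_one _
    · have h2 : χ x = 0 := hχ0 hx
      rw [toC_apply, h2]
      simp [hε.le]
  have hcut2 : ∀ j, ‖e j * toC χ‖ ≤ ‖e j‖ := fun j =>
    (norm_mul_le _ _).trans (mul_le_of_le_one_right (norm_nonneg _) hχN)
  have hα1 : ∀ i ∈ s, ∀ j, ‖-(D₀⁻¹ * (α j (T i) - α j T₀))‖ ≤ ‖D₀‖⁻¹ * ε := by
    intro i hi j
    rw [norm_neg, norm_mul, norm_inv]
    exact mul_le_mul_of_nonneg_left ((hT i hi).1 j) (by positivity)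
  have hsum : ∑ j : J, (‖D₀‖⁻¹ * ε * ‖e j‖ + ‖D₀‖⁻¹ * ‖α j T₀‖ * ε) ≤ 1 / 2 := by
    refine le_trans (le_of_eq ?_) hε1
    rw [Finset.sum_add_distrib, ← Finset.mul_sum, ← hS₁]
    have : ∑ j : J, ‖D₀‖⁻¹ * ‖α j T₀‖ * ε = ‖D₀‖⁻¹ * (ε * S₂) := by
      rw [hS₂, Finset.mul_sum, Finset.mul_sum]
      exact Finset.sum_congr rfl fun j _ => by ring
    rw [this]; ring
  have gΔ : Good lam s Δ (1 / 2) := by
    refine (good_sum (lam := lam) (s := s) Finset.univ (fun j _ => ?_)).mono hsum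
    refine Good.add ?_ ?_
    · refine (good_smul (lam := lam) (s := s) (e j * toC χ)
        (fun i => -(D₀⁻¹ * (α j (T i) - α j T₀))) (M := ‖D₀‖⁻¹ * ε) (by positivity)
        (fun i hi => hα1 i hi j)).mono ?_
      exact mul_le_mul_of_nonneg_left (hcut2 j) (by positivity)
    · refine (good_smul (lam := lam) (s := s) ((e j - e j x₀ • 1) * toC χ)
        (fun _ => -(D₀⁻¹ * α j T₀)) (M := ‖D₀‖⁻¹ * ‖α j T₀‖) (by positivity)
        (fun i _ => ?_)).mono ?_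
      · rw [norm_neg, norm_mul, norm_inv]
      · exact mul_le_mul_of_nonneg_left (hcut j) (by positivity)
  have nΔ : ∀ i ∈ s, ‖Δ i‖ ≤ 1 / 2 := by
    intro i hi
    refine le_trans (norm_sum_le _ _) (le_trans (Finset.sum_le_sum fun j _ => ?_) hsum)
    refine (norm_add_le _ _).trans (add_le_add ?_ ?_)
    · refine (norm_smul_le _ _).trans ?_
      exact mul_le_mul (hα1 i hi j) (hcut2 j) (norm_nonneg _) (by positivity)
    · refine (norm_smul_le _ _).trans ?_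
      refine mul_le_mul (le_of_eq ?_) (hcut j) (norm_nonneg _) (by positivity)
      rw [norm_neg, norm_mul, norm_inv]
  have nΔx : ∀ i ∈ s, ∀ x, (1 - Δ i) x ≠ 0 := by
    intro i hi x hx
    have h1 : Δ i x = 1 := by
      have : (1 : ℂ) - Δ i x = 0 := hx
      exact (sub_eq_zero.1 this).symm
    have h2 := (Δ i).norm_coe_le_norm x
    rw [h1, norm_one] at h2
    linarith [nΔ i hi]
  set H : ι → C(X, ℂ) := fun i => if h : ∀ x, (1 - Δ i) x ≠ 0 then cinv (1 - Δ i) h else 0 with hH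
  have hHx : ∀ i ∈ s, ∀ x, H i x = ((1 - Δ i) x)⁻¹ := by
    intro i hi x
    simp only [hH, dif_pos (nΔx i hi)]
    rfl
  have gH : Good lam s H (1 / (1 - 1 / 2)) := by
    refine good_neumann (by norm_num) gΔ nΔ (fun i hi => ?_)
    ext x
    rw [ContinuousMap.mul_apply, hHx i hi, ContinuousMap.one_apply]
    exact mul_inv_cancel₀ (nΔx i hi x)
  have gN : Good lam s (fun i => ∑ j, β j (T i) • e j) B := by
    refine good_sum (lam := lam) (s := s) Finset.univ (fun j _ => ?_)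
    exact good_smul (e j) (fun i => β j (T i)) (by positivity) fun i hi => (hT i hi).2 j
  have total := ((gN.mul (good_const (D₀⁻¹ • (1 : C(X, ℂ))))).mul gH).mul (good_const ψ)
  refine total.congr fun i hi => ?_
  ext x
  simp only [ContinuousMap.mul_apply, ContinuousMap.sum_apply, ContinuousMap.smul_apply,
    ContinuousMap.one_apply, smul_eq_mul, mul_one]
  by_cases hx : ψ x = 0
  · rw [hx, mul_zero, mul_zero]
  · have hxt : x ∈ tsupport ⇑ψ := subset_tsupport _ hx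
    have hχx : toC χ x = 1 := by
      rw [toC_apply, hχ1 hxt]; simp
    have h1 : (1 - Δ i) x = D₀⁻¹ * ∑ j, α j (T i) * e j x := by
      rw [ContinuousMap.sub_apply, ContinuousMap.one_apply, hΔx, hχx]; ring
    have h2 : ∑ j, α j (T i) * e j x ≠ 0 := by
      intro h3
      apply nΔx i hi x
      rw [h1, h3, mul_zero]
    rw [hHx i hi, h1, hF i hi x ((hNz _ _).2 h2), hev _ _ ((hNz _ _).2 h2)]
    field_simp

end adm

end Vale.Agent.P092.H437
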