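import Vale.Agent.P092.H218.NChain

/-!
P092 (helper437), Team P, stage 2, row (I), part 1: the chain `KEY ⟹ all points commute` of
`H218.NChain` (source: subspaces of `F^(N+1)`) with an abstract target: any spaces `Y j` with closed
incidence, unique joins and unique meets of a line (for the singular Grassmannians of stage 2).
-/

set_option linter.all false

open Set Topology Module

namespace Vale.Agent.P092.H437.P2

open Vale.Agent.P092.H100.Gr (Gr)
open Vale.Agent.P092.H232 (Nin join comm_of_key)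
open Vale.Agent.P092.H218.NC (exists_pt not_le_of_lt join_uniq eq_of_le₀ rank_join' rank_join
  exists_other exists_line exists_two_lines nin_swap tsupport_star)

/-- the target: closed incidence, unique joins, unique meets of a line -/
structure Tg (Y : ℕ → Type*) [∀ j, TopologicalSpace (Y j)]
    (In : ∀ i j, Y i → Y j → Prop) : Prop where
  closed : ∀ i j, IsClosed {q : Y i × Y j | In i j q.1 q.2}
  eq_of : ∀ j (x y : Y j), In j j x y → x = y
  join : ∀ i j (x : Y i) (y : Y j), ¬ In i j x y → ∀ z z' : Y (j + 1), In i (j + 1) x z →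
    In j (j + 1) y z → In i (j + 1) x z' → In j (j + 1) y z' → z = z'
  meet : ∀ i (x : Y i) (l : Y 2), ¬ In 2 i l x → ∀ z z' : Y 1, In 1 i z x → In 1 2 z l →
    In 1 i z' x → In 1 2 z' l → z = z'

theorem Tg.closed' {Y : ℕ → Type*} [∀ j, TopologicalSpace (Y j)]
    {In : ∀ i j, Y i → Y j → Prop} (hT : Tg Y In) (i j : ℕ) :
    IsClosed {q : Y j × Y i | In i j q.2 q.1} :=
  (hT.closed i j).preimage continuous_swap

section chain

variable {F : Type*} [Field F] {Y : ℕ → Type*} [∀ j, TopologicalSpace (Y j)]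
  [∀ j, CompactSpace (Y j)] [∀ j, T2Space (Y j)] {N : ℕ}
  {K : Type*} [NormedAddCommGroup K] [InnerProductSpace ℂ K] [CompleteSpace K]

/-- calculi of the source subspaces (the fields `com`, `inc`, `agr` of `H618.RkOut`, and AGR of the
points) -/
structure Cal (In : ∀ i j, Y i → Y j → Prop) (G : ∀ j, Gr F (Fin (N + 1)) j →
    (C(Y j, ℂ) →⋆ₐ[ℂ] (K →L[ℂ] K))) : Prop where
  com : ∀ i j, 1 ≤ i → i ≤ j → j ≤ N → ∀ (X : Gr F (Fin (N + 1)) i) (X' : Gr F (Fin (N + 1)) j),
    X.1 ≤ X'.1 → ∀ f f', Commute (G i X f) (G j X' f')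
  inc : ∀ i j, 1 ≤ i → i ≤ j → j ≤ N → ∀ (X : Gr F (Fin (N + 1)) i) (X' : Gr F (Fin (N + 1)) j),
    X.1 ≤ X'.1 → ∀ u h, Nin (In i j) u h → G i X u * G j X' h = 0
  agr₁ : ∀ a b : Gr F (Fin (N + 1)) 1, a ≠ b → ∀ ξ : K, (∀ f, G 1 a f ξ = G 1 b f ξ) → ξ = 0
  agr : ∀ j, 1 ≤ j → j < N → ∀ A B : Gr F (Fin (N + 1)) (j + 1), A ≠ B →
    (∃ X : Gr F (Fin (N + 1)) j, X.1 ≤ A.1 ∧ X.1 ≤ B.1) → ∀ ξ : K,
    (∀ f, G (j + 1) A f ξ = G (j + 1) B f ξ) → ξ = 0

/-- **KEY**: hyperplane `C`, line `l`, point `b`. -/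
def Key₁ (In : ∀ i j, Y i → Y j → Prop) (G : ∀ j, Gr F (Fin (N + 1)) j →
    (C(Y j, ℂ) →⋆ₐ[ℂ] (K →L[ℂ] K))) : Prop :=
  ∀ (C : Gr F (Fin (N + 1)) N) (l : Gr F (Fin (N + 1)) 2) (b : Gr F (Fin (N + 1)) 1),
    b.1 ≤ C.1 → ¬ l.1 ≤ C.1 → ¬ b.1 ≤ l.1 → ∀ u g a, Nin (In 1 N) a u →
      G N C u * G 2 l g * G 1 b a = 0

variable {In : ∀ i j, Y i → Y j → Prop}
  {G : ∀ j, Gr F (Fin (N + 1)) j → (C(Y j, ℂ) →⋆ₐ[ℂ] (K →L[ℂ] K))}

/-- Step A: `E_M E_l E_ν` -/
theorem stepA (hN : 2 ≤ N) (hT : Tg Y In) (hG : Cal In G) (hK : Key₁ In G) (M : Gr F (Fin (N + 1)) N)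
    (l ν : Gr F (Fin (N + 1)) 2) (z : Gr F (Fin (N + 1)) 1) (hzl : z.1 ≤ l.1) (hzν : z.1 ≤ ν.1)
    (hνM : ν.1 ≤ M.1) (hlM : ¬ l.1 ≤ M.1) (u) (g) (a) (h : Nin (In 2 N) a u) :
    G N M u * G 2 l g * G 2 ν a = 0 := by
  obtain ⟨b, hbν, hbz⟩ := exists_pt (X := ν.1) (Y := z.1) (not_le_of_lt (by norm_num))
  have hbl : ¬ b.1 ≤ l.1 := by
    intro hbl
    refine hlM ?_
    have : b = z ∨ l = ν := by
      by_cases hb : b = z
      · exact Or.inl hb
      · exact Or.inr (join_uniq b z (fun hle => hb (eq_of_le₀ hle)) l ν hbl hzl hbν hzν)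
    rcases this with h1 | h1
    · exact absurd (h1 ▸ le_rfl) hbz
    · rw [h1]; exact hνM
  have hzM := hzν.trans hνM
  refine join (I₁ := fun H z => In 1 N z H) (I₂ := fun L z => In 1 2 z L)
    (J := fun H L => In 2 N L H) (hT.closed' 1 N) (hT.closed' 1 2)
    (fun x y hxy z z' h1 h2 h3 h4 => hT.meet N x y hxy z z' h1 h2 h3 h4)
    (G N M) (G 2 ν) (G 2 l g) (G 1 z) (G 1 b)
    (fun u v => (hG.com 1 N le_rfl (by omega) le_rfl z M hzM v u).symm)
    (fun a v => (hG.com 1 2 le_rfl (by omega) hN z ν hzν v a).symm)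
    (fun v => (hG.com 1 2 le_rfl (by omega) hN z l hzl v g).symm)
    (fun a s => (hG.com 1 2 le_rfl (by omega) hN b ν hbν s a).symm)
    (fun u v huv => ?_) (fun a v hav => ?_) (fun a s has => ?_)
    (hG.agr₁ z b fun he => hbz (he ▸ le_rfl)) (D := univ) isOpen_univ
    (fun u s _ hus => hK M l b (hbν.trans hνM) hlM hbl u g s (nin_swap hus)) u a
    (subset_univ _) (nin_swap h)
  · rw [← (hG.com 1 N le_rfl (by omega) le_rfl z M hzM v u).eq]
    exact hG.inc 1 N le_rfl (by omega) le_rfl z M hzM v u (nin_swap huv)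
  · rw [← (hG.com 1 2 le_rfl (by omega) hN z ν hzν v a).eq]
    exact hG.inc 1 2 le_rfl (by omega) hN z ν hzν v a (nin_swap hav)
  · rw [← (hG.com 1 2 le_rfl (by omega) hN b ν hbν s a).eq]
    exact hG.inc 1 2 le_rfl (by omega) hN b ν hbν s a (nin_swap has)

/-- Step B: `E_ν E_l E_V`, `ν ≤ V`, `l` not in `V` -/
theorem stepB (hN : 2 ≤ N) (hT : Tg Y In) (hG : Cal In G) (hK : Key₁ In G)
    (l ν : Gr F (Fin (N + 1)) 2) (z : Gr F (Fin (N + 1)) 1) (hzl : z.1 ≤ l.1)
    (hzν : z.1 ≤ ν.1) (d : ℕ) : ∀ j, 2 ≤ j → j + d = N → ∀ V : Gr F (Fin (N + 1)) j,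
    ν.1 ≤ V.1 → ¬ l.1 ≤ V.1 → ∀ u g a, Nin (In 2 j) u a → G 2 ν u * G 2 l g * G j V a = 0 := by
  induction d with
  | zero =>
    intro j hj hjN V hνY hlY u g a h
    obtain rfl : j = N := by omega
    have h1 := stepA hN hT hG hK V l ν z hzl hzν hνY hlY (star a) (star g) (star u) ?_
    · have h2 := congrArg star h1
      simpa only [star_mul, map_star, star_star, star_zero, mul_assoc] using h2
    · intro x hx y hy
      rw [tsupport_star] at hx hy
      exact h x hx y hy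
  | succ d ih =>
    intro j hj hjN V hνY hlY u g a h
    have hP : finrank F ↥(l.1 ⊔ V.1) = j + 1 :=
      rank_join' l V z hzl (hzν.trans hνY) hlY
    let P : Gr F (Fin (N + 1)) (j + 1) := ⟨l.1 ⊔ V.1, hP⟩
    have hlP : l.1 ≤ P.1 := le_sup_left
    have hYP : V.1 ≤ P.1 := le_sup_right
    obtain ⟨Q, hYQ, hQP⟩ := exists_other V P hYP (by rw [Fintype.card_fin]; omega)
    have hlQ : ¬ l.1 ≤ Q.1 := fun hlQ => hQP (join_uniq l V hlY Q P hlQ hYQ hlP hYP)
    have hνP := hνY.trans hYP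
    refine join (I₁ := fun L Z => In 2 (j + 1) L Z) (I₂ := fun L Z => In j (j + 1) L Z)
      (J := fun L M => In 2 j L M) (hT.closed 2 (j + 1)) (hT.closed j (j + 1))
      (fun x y hxy z z' h1 h2 h3 h4 => hT.join 2 j x y hxy z z' h1 h2 h3 h4)
      (G 2 ν) (G j V) (G 2 l g) (G (j + 1) P) (G (j + 1) Q)
      (fun u v => hG.com 2 (j + 1) (by omega) (by omega) (by omega) ν P hνP u v)
      (fun a v => hG.com j (j + 1) (by omega) (by omega) (by omega) V P hYP a v)
      (fun v => hG.com 2 (j + 1) (by omega) (by omega) (by omega) l P hlP g v)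
      (fun a s => hG.com j (j + 1) (by omega) (by omega) (by omega) V Q hYQ a s)
      (fun u v huv => hG.inc 2 (j + 1) (by omega) (by omega) (by omega) ν P hνP u v huv)
      (fun a v hav => hG.inc j (j + 1) (by omega) (by omega) (by omega) V P hYP a v hav)
      (fun a s has => hG.inc j (j + 1) (by omega) (by omega) (by omega) V Q hYQ a s has)
      (hG.agr j (by omega) (by omega) P Q hQP.symm ⟨V, hYP, hYQ⟩) (D := univ) isOpen_univ
      (fun u s _ hus => ih (j + 1) (by omega) (by omega) Q (hνY.trans hYQ) hlQ u g s hus) u a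
      (subset_univ _) h

/-- lines with a common point commute -/
theorem lines_comm (hN : 2 ≤ N) (hT : Tg Y In) (hG : Cal In G) (hK : Key₁ In G) (l ν : Gr F (Fin (N + 1)) 2)
    (z : Gr F (Fin (N + 1)) 1) (hzl : z.1 ≤ l.1) (hzν : z.1 ≤ ν.1) (g f) :
    Commute (G 2 l g) (G 2 ν f) := by
  by_cases hl : l = ν
  · subst hl
    exact hG.com 2 2 (by omega) le_rfl hN l l le_rfl g f
  · refine comm_of_key (G 2 ν) (G 2 l) (fun u f a huf hua => ?_) g f
    refine stepB hN hT hG hK l ν z hzl hzν (N - 2) 2 le_rfl (by omega) ν le_rfl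
      (fun hle => hl (eq_of_le₀ hle)) u f a ?_
    intro x hx y hy hxy
    have : x = y := hT.eq_of 2 x y hxy
    subst this
    exact disjoint_left.1 hua hx hy

/-- what commutes with two lines through `z` commutes with `z` -/
theorem comm_point (hN : 2 ≤ N) (hTg : Tg Y In) (hG : Cal In G) (T : K →L[ℂ] K) (l l' : Gr F (Fin (N + 1)) 2)
    (z : Gr F (Fin (N + 1)) 1) (hzl : z.1 ≤ l.1) (hzl' : z.1 ≤ l'.1) (hll : l ≠ l')
    (hT : ∀ f, Commute T (G 2 l f)) (hT' : ∀ f, Commute T (G 2 l' f)) (f) :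
    Commute T (G 1 z f) := by
  have h0 : ∀ u a : C(Y 1, ℂ), Disjoint (tsupport ⇑u) (tsupport ⇑a) →
      G 1 z u * T * G 1 z a = 0 := by
    intro u a hua
    refine join (I₁ := fun L Z => In 1 2 L Z) (I₂ := fun L Z => In 1 2 L Z)
      (J := fun L M => In 1 1 L M) (hTg.closed 1 2) (hTg.closed 1 2)
      (fun x y hxy z z' h1 h2 h3 h4 => hTg.join 1 1 x y hxy z z' h1 h2 h3 h4)
      (G 1 z) (G 1 z) T (G 2 l) (G 2 l')
      (fun u v => hG.com 1 2 (by omega) (by omega) (by omega) z l hzl u v)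
      (fun a v => hG.com 1 2 (by omega) (by omega) (by omega) z l hzl a v)
      hT
      (fun a s => hG.com 1 2 (by omega) (by omega) (by omega) z l' hzl' a s)
      (fun u v huv => hG.inc 1 2 (by omega) (by omega) (by omega) z l hzl u v huv)
      (fun a v hav => hG.inc 1 2 (by omega) (by omega) (by omega) z l hzl a v hav)
      (fun a s has => hG.inc 1 2 (by omega) (by omega) (by omega) z l' hzl' a s has)
      (hG.agr 1 le_rfl (by omega) l l' hll ⟨z, hzl, hzl'⟩) (D := univ) isOpen_univ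
      (fun u s _ hus => ?_) u a (subset_univ _) ?_
    · rw [mul_assoc, (hT' s).eq, ← mul_assoc,
        hG.inc 1 2 (by omega) (by omega) (by omega) z l' hzl' u s hus, zero_mul]
    · intro x hx y hy hxy
      have : x = y := hTg.eq_of 1 x y hxy
      subst this
      exact disjoint_left.1 hua hx hy
  have h3 := Vale.Agent.P092.H218.loc_op (G 1 z) (G 1 z) T (fun u a hua => by
    have := h0 u a hua
    rw [mul_assoc] at this
    exact this) f
  exact h3

/-- points commute with lines -/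
theorem point_line (hN : 2 ≤ N) (hT : Tg Y In) (hG : Cal In G) (hK : Key₁ In G) (a : Gr F (Fin (N + 1)) 1)
    (l : Gr F (Fin (N + 1)) 2) (f g) : Commute (G 1 a f) (G 2 l g) := by
  by_cases hal : a.1 ≤ l.1
  · exact hG.com 1 2 le_rfl (by omega) hN a l hal f g
  · obtain ⟨c, hcl, -⟩ := exists_pt (X := l.1) (Y := a.1) (not_le_of_lt (by norm_num))
    obtain ⟨c', hcl', hcc⟩ := exists_pt (X := l.1) (Y := c.1) (not_le_of_lt (by norm_num))
    have hac : a ≠ c := fun h => hal (h ▸ hcl)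
    have hac' : a ≠ c' := fun h => hal (h ▸ hcl')
    obtain ⟨ν, haν, hcν⟩ := exists_line a c hac
    obtain ⟨ν', haν', hcν'⟩ := exists_line a c' hac'
    have hνν : ν ≠ ν' := by
      rintro rfl
      refine hal ?_
      rw [join_uniq c' c hcc l ν hcl' hcl hcν' hcν]
      exact haν
    exact (comm_point hN hT hG (G 2 l g) ν ν' a haν haν' hνν
      (fun f => lines_comm hN hT hG hK l ν c hcl hcν g f)
      (fun f => lines_comm hN hT hG hK l ν' c' hcl' hcν' g f) f).symm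

/-- **all points commute** -/
theorem points_comm (hN : 2 ≤ N) (hT : Tg Y In) (hG : Cal In G) (hK : Key₁ In G) (a b : Gr F (Fin (N + 1)) 1)
    (f g) : Commute (G 1 a f) (G 1 b g) := by
  obtain ⟨l, l', hll, hbl, hbl'⟩ := exists_two_lines b (by rw [Fintype.card_fin]; omega)
  exact comm_point hN hT hG (G 1 a f) l l' b hbl hbl' hll
    (fun s => point_line hN hT hG hK a l f s) (fun s => point_line hN hT hG hK a l' f s) g

end chain

end Vale.Agent.P092.H437.P2
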