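import Vale.Agent.P092.H437.P2Inst
import Vale.Agent.P092.H766.P2AgrR

/-!
P092 (helper437), Team P, stage 2: from the output `H766.P2.PkOut` of the rank count (index
reversed) to calculi indexed by the dimension.
-/

set_option linter.all false

open Matrix Set Topology Module ContinuousLinearMap

namespace Vale.Agent.P092.H437.P2

open Vale.Agent.P092.H714.Cl
open Vale.Agent.P092.H370.Po
open Vale.Agent.P092.H702.TG (YS IS CS)
open Vale.Agent.P092.H702.SG (SS RS)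

section re

variable {n' : Type} [Fintype n'] [DecidableEq n'] {F : Type} [Field F]
  {σ' : F →+* F} {J' : Matrix n' n' F} {r : ℕ}

/-- back to the index 'dimension' -/
noncomputable def re (hW' : WI σ' J' r) {A : ℕ → Type*} (G : ∀ e, SGr σ' J' (r + 1 - e) → A (r + 1 - e))
    (j : ℕ) : SGr σ' J' j → A j :=
  if h : r + 1 - (r + 1 - j) = j then h ▸ G (r + 1 - j) else fun X =>
    False.elim (h (by
      have := hW'.2 X.S X.sing
      rw [X.dim] at this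
      omega))

theorem re_eq (hW' : WI σ' J' r) {A : ℕ → Type*}
    (G : ∀ e, SGr σ' J' (r + 1 - e) → A (r + 1 - e)) {e : ℕ} (he : e ≤ r + 1) :
    re hW' G (r + 1 - e) = G e := by
  have h : r + 1 - (r + 1 - (r + 1 - e)) = r + 1 - e := by omega
  unfold re
  rw [dif_pos h]
  have key : ∀ (e' : ℕ) (he' : e' = e) (h : r + 1 - e' = r + 1 - e),
      (h ▸ G e' : SGr σ' J' (r + 1 - e) → A (r + 1 - e)) = G e := by
    rintro _ rfl h
    rfl
  exact key _ (by omega) h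

end re

section out

variable {n : Type} [Fintype n] [DecidableEq n] {k : Type} [NontriviallyNormedField k]
  [ProperSpace k] {σ : k →+* k} {ε : k} {J : Matrix n n k} [Fact (Continuous σ)]
  {n' : Type} [Fintype n'] [DecidableEq n'] {F : Type} [Field F]
  {σ' : F →+* F} {ε' : F} {J' : Matrix n' n' F} {r : ℕ}
  {K : Type} [NormedAddCommGroup K] [InnerProductSpace ℂ K] [CompleteSpace K]

/-- the calculi indexed by the dimension -/
noncomputable def GG' (hW' : WI σ' J' r)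
    (G : ∀ e, SS σ' J' r e → (C(YS σ J r e, ℂ) →⋆ₐ[ℂ] (K →L[ℂ] K))) :
    ∀ j, SGr σ' J' j → (C(SGr σ J j, ℂ) →⋆ₐ[ℂ] (K →L[ℂ] K)) :=
  re hW' (A := fun j => (C(SGr σ J j, ℂ) →⋆ₐ[ℂ] (K →L[ℂ] K))) G

theorem GG'_eq (hW' : WI σ' J' r)
    (G : ∀ e, SS σ' J' r e → (C(YS σ J r e, ℂ) →⋆ₐ[ℂ] (K →L[ℂ] K))) {e : ℕ} (he : e ≤ r + 1) :
    GG' (σ := σ) (J := J) hW' G (r + 1 - e) = G e :=
  re_eq hW' (A := fun j => (C(SGr σ J j, ℂ) →⋆ₐ[ℂ] (K →L[ℂ] K))) G he

/-- **from `PkOut` to `CalP`** -/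
theorem calP_of_out {Γ H : Type} [Group Γ] [Group H] [∀ d, MulAction Γ (YS σ J r d)]
    [∀ d, ContinuousConstSMul Γ (YS σ J r d)] [∀ j, MulAction H (SS σ' J' r j)]
    {lamG : Γ →* (K →L[ℂ] K)} {π : H →* (K →L[ℂ] K)} {W : Set (K →L[ℂ] K)} {A : Type}
    {E : A → SS σ' J' r r → (C(YS σ J r r, ℂ) →L[ℂ] (K →L[ℂ] K))} (hW' : WI σ' J' r)
    {G : ∀ e, SS σ' J' r e → (C(YS σ J r e, ℂ) →⋆ₐ[ℂ] (K →L[ℂ] K))}
    (hO : H766.P2.PkOut r (IS (σ := σ) (J := J)) (RS (σ := σ') (J := J')) Γ H lamG π W E G)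
    (hM : ∀ A B : SS σ' J' r 1, A ≠ B → (∃ M : SS σ' J' r 2, RS 1 2 A M ∧ RS 1 2 B M) → ∀ ξ : K,
      (∀ f, G 1 A f ξ = G 1 B f ξ) → ξ = 0) (hr : 2 ≤ r) :
    CalP r (fun i j => Inc (σ := σ) (J := J) (i := i) (j := j))
      (GG' (σ := σ) (J := J) hW' G) where
  com := by
    intro i j h1 h2 h3
    obtain ⟨e, rfl, he⟩ : ∃ e, i = r + 1 - e ∧ e ≤ r := ⟨r + 1 - i, by omega, by omega⟩
    obtain ⟨e', rfl, he'⟩ : ∃ e', j = r + 1 - e' ∧ 1 ≤ e' := ⟨r + 1 - j, by omega, by omega⟩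
    intro X X' h f f'
    rw [GG'_eq hW' G (by omega), GG'_eq hW' G (by omega)]
    exact (hO.com e' e he' (by omega) he X' X h f' f).symm
  inc := by
    intro i j h1 h2 h3
    obtain ⟨e, rfl, he⟩ : ∃ e, i = r + 1 - e ∧ e ≤ r := ⟨r + 1 - i, by omega, by omega⟩
    obtain ⟨e', rfl, he'⟩ : ∃ e', j = r + 1 - e' ∧ 1 ≤ e' := ⟨r + 1 - j, by omega, by omega⟩
    intro X X' h u f hn
    rw [GG'_eq hW' G (by omega), GG'_eq hW' G (by omega)]
    have h4 := (hO.com e' e he' (by omega) he X' X h f u).symm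
    have h5 := hO.inc e' e he' (by omega) he X' X h f u fun x hx y hy hxy => hn y hy x hx hxy
    exact h4.eq.trans h5
  agr := by
    intro j h1 h2
    obtain ⟨e, he1, he⟩ : ∃ e, j = r + 1 - (e + 1) ∧ e + 1 ≤ r := ⟨r - j, by omega, by omega⟩
    have he0 : 1 ≤ e := by omega
    have hj1 : j + 1 = r + 1 - e := by omega
    rw [hj1]
    subst he1
    intro A B hAB hX ξ h
    rw [GG'_eq hW' G (by omega)] at h
    obtain ⟨X, h3, h4⟩ := hX
    exact hO.agr e he0 (by omega) A B hAB ⟨X, h3, h4⟩ ξ h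
  agrM := by
    have h1 : r = r + 1 - 1 := by omega
    have key : ∀ A B : SGr σ' J' (r + 1 - 1), A ≠ B →
        (∃ M : SGr σ' J' (r + 1 - 2), Inc M A ∧ Inc M B) → ∀ ξ : K,
        (∀ f, GG' (σ := σ) (J := J) hW' G (r + 1 - 1) A f ξ =
          GG' (σ := σ) (J := J) hW' G (r + 1 - 1) B f ξ) → ξ = 0 := by
      intro A B hAB hX ξ h
      rw [GG'_eq hW' G (by omega)] at h
      obtain ⟨X, h3, h4⟩ := hX
      exact hM A B hAB ⟨X, h3, h4⟩ ξ h
    exact key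

end out

end Vale.Agent.P092.H437.P2
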