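import Vale.Agent.P092.H437.P2Chain

/-!
P092 (helper437), Team P, stage 2, row (I), part 2: locally constant functions are dense on a
totally disconnected compact space (copied from helper796), the step 'two subspaces of `Z` with
value `Z' ∩ b'^⊥` agree'.
-/

set_option linter.all false

open Set Topology Module

namespace Vale.Agent.P092.H437.P2

open Vale.Agent.P092.H232 (Nin two_ind split_inc)

section td

variable {X : Type*} [TopologicalSpace X] [CompactSpace X] [T2Space X]

/-- The locally constant functions. -/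
noncomputable def lcs (X : Type*) [TopologicalSpace X] [CompactSpace X] :
    StarSubalgebra ℂ C(X, ℂ) where
  carrier := {g | IsLocallyConstant ⇑g}
  mul_mem' := fun {f g} hf hg => by
    have hf' : IsLocallyConstant ⇑f := hf
    have hg' : IsLocallyConstant ⇑g := hg
    exact hf'.comp₂ hg' (· * ·)
  add_mem' := fun {f g} hf hg => by
    have hf' : IsLocallyConstant ⇑f := hf
    have hg' : IsLocallyConstant ⇑g := hg
    exact hf'.comp₂ hg' (· + ·)
  algebraMap_mem' := fun r => IsLocallyConstant.const r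
  star_mem' := fun {f} hf => by
    have hf' : IsLocallyConstant ⇑f := hf
    exact hf'.comp star

theorem lc_dense [TotallyDisconnectedSpace X] {P : C(X, ℂ) → Prop} (hP : IsClosed {g | P g})
    (h : ∀ g : C(X, ℂ), IsLocallyConstant ⇑g → P g) (g : C(X, ℂ)) : P g := by
  have h1 : (lcs X).topologicalClosure = ⊤ := by
    refine ContinuousMap.starSubalgebra_topologicalClosure_eq_top_of_separatesPoints _ ?_
    intro x y hxy
    obtain ⟨U, hU, hx, hy⟩ := exists_isClopen_of_totally_separated hxy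
    refine ⟨_, ⟨⟨LocallyConstant.charFn ℂ hU, (LocallyConstant.charFn ℂ hU).continuous⟩,
      (LocallyConstant.charFn ℂ hU).isLocallyConstant, rfl⟩, ?_⟩
    have e1 : LocallyConstant.charFn ℂ hU x = 1 := (LocallyConstant.charFn_eq_one ℂ x hU).2 hx
    have e2 : LocallyConstant.charFn ℂ hU y = 0 := (LocallyConstant.charFn_eq_zero ℂ y hU).2 hy
    simp only [ContinuousMap.coe_mk]
    rw [e1, e2]
    exact one_ne_zero
  have h2 : g ∈ closure ((lcs X : Set C(X, ℂ))) := by
    have : g ∈ (lcs X).topologicalClosure := by rw [h1]; trivial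
    exact this
  exact hP.closure_subset_iff.2 (fun f hf => h f hf) h2

end td

section agree

variable {B X Z K : Type*} [TopologicalSpace B] [CompactSpace B] [T2Space B]
  [TopologicalSpace X] [CompactSpace X] [T2Space X] [TotallyDisconnectedSpace X]
  [TopologicalSpace Z] [CompactSpace Z] [T2Space Z]
  [NormedAddCommGroup K] [InnerProductSpace ℂ K] [CompleteSpace K]

/-- **Two calculi `φ₁, φ₂` incident with `ψ`, with values perpendicular to the value of `b` behind
`S`, agree there**, if a value of `ψ` not perpendicular to `b'` contains at most one perpendicular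
element. -/
theorem agree {I : X → Z → Prop} {O : B → X → Prop} {O' : B → Z → Prop}
    (hI : IsClosed {q : X × Z | I q.1 q.2}) (hO : IsClosed {q : B × X | O q.1 q.2})
    (hyp : ∀ b z x x', ¬ O' b z → I x z → I x' z → O b x → O b x' → x = x')
    {φ₁ φ₂ : C(X, ℂ) →⋆ₐ[ℂ] (K →L[ℂ] K)} {ψ : C(Z, ℂ) →⋆ₐ[ℂ] (K →L[ℂ] K)}
    {β : C(B, ℂ) →⋆ₐ[ℂ] (K →L[ℂ] K)} {S : K →L[ℂ] K}
    (c₁ : ∀ g u, Commute (φ₁ g) (ψ u)) (c₂ : ∀ g u, Commute (φ₂ g) (ψ u))
    (i₁ : ∀ g u, Nin I g u → φ₁ g * ψ u = 0) (i₂ : ∀ g u, Nin I g u → φ₂ g * ψ u = 0)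
    (k₁ : ∀ g a, Nin O a g → φ₁ g * S * β a = 0) (k₂ : ∀ g a, Nin O a g → φ₂ g * S * β a = 0)
    (u : C(Z, ℂ)) (a : C(B, ℂ)) (hn : Nin O' a u) (g : C(X, ℂ)) :
    (φ₁ g - φ₂ g) * ψ u * S * β a = 0 := by
  refine lc_dense (P := fun g => (φ₁ g - φ₂ g) * ψ u * S * β a = 0) ?_ ?_ g
  · have h1 : Continuous fun g : C(X, ℂ) => (φ₁ g - φ₂ g) * ψ u * S * β a := by
      have e1 : Continuous φ₁ := AddMonoidHomClass.continuous_of_bound φ₁ 1 fun f => by
        rw [one_mul]; exact NonUnitalStarAlgHom.norm_apply_le φ₁ f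
      have e2 : Continuous φ₂ := AddMonoidHomClass.continuous_of_bound φ₂ 1 fun f => by
        rw [one_mul]; exact NonUnitalStarAlgHom.norm_apply_le φ₂ f
      exact (((e1.sub e2).mul continuous_const).mul continuous_const).mul continuous_const
    exact isClosed_eq h1 continuous_const
  · intro g hg
    refine two_ind (A := K →L[ℂ] K) (S₁ := tsupport ⇑u) (S₂ := tsupport ⇑a)
      (fun u' a' => (φ₁ g - φ₂ g) * ψ u' * S * β a')
      (fun u' u'' a' => by simp only [map_add, mul_add, add_mul])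
      (fun u' a' a'' => by simp only [map_add, mul_add])
      (isClosed_tsupport _).isCompact (isClosed_tsupport _).isCompact
      (fun z hz b hb => ?_) u a subset_rfl subset_rfl
    have hbz : ¬ O' b z := hn b hb z hz
    obtain ⟨κ, hκ⟩ : ∃ κ : ℂ, ∀ x ∈ tsupport ⇑(g - κ • (1 : C(X, ℂ))), I x z → O b x → False := by
      by_cases hc : ∃ x, I x z ∧ O b x
      · obtain ⟨x₀, h1, h2⟩ := hc
        refine ⟨g x₀, fun x hx h3 h4 => ?_⟩
        rw [hyp b z x x₀ hbz h3 h1 h4 h2] at hx
        have hcl : IsClosed {x | g x ≠ g x₀} := (hg.isOpen_fiber (g x₀)).isClosed_compl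
        have hsub : tsupport ⇑(g - g x₀ • (1 : C(X, ℂ))) ⊆ {x | g x ≠ g x₀} := by
          refine closure_minimal (fun x hx hx' => hx ?_) hcl
          have : g x = g x₀ := hx'
          simp [this]
        exact hsub hx rfl
      · exact ⟨0, fun x _ h1 h2 => hc ⟨x, h1, h2⟩⟩
    have hI' : IsClosed {q : Z × X | I q.2 q.1} := hI.preimage continuous_swap
    obtain ⟨h₁, h₂, hh, U, V, hU, hzU, hV, hbV, e1, e2⟩ :=
      split_inc (I₁ := fun z x => I x z) (I₂ := fun b x => O b x) hI' hO (x := z) (y := b)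
        (g - κ • (1 : C(X, ℂ))) hκ
    refine ⟨U, V, hU, hzU, hV, hbV, fun u' a' hu' ha' => ?_⟩
    have key : ∀ φ : C(X, ℂ) →⋆ₐ[ℂ] (K →L[ℂ] K), (∀ g u, Commute (φ g) (ψ u)) →
        (∀ g u, Nin I g u → φ g * ψ u = 0) → (∀ g a, Nin O a g → φ g * S * β a = 0) →
        φ g * ψ u' * S * β a' = κ • (ψ u' * S * β a') := by
      intro φ c i kk
      have d1 : φ h₁ * ψ u' = 0 := i _ _ fun x hx z' hz' h => e1 u' hu' z' hz' x hx h
      have d2 : φ h₂ * S * β a' = 0 := kk _ _ (e2 a' ha')
      have d3 : φ (g - κ • (1 : C(X, ℂ))) * ψ u' * S * β a' = 0 := by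
        rw [hh, map_add, add_mul, d1, zero_add]
        calc φ h₂ * ψ u' * S * β a' = ψ u' * (φ h₂ * S * β a') := by
              rw [(c h₂ u').eq]; simp only [mul_assoc]
          _ = 0 := by rw [d2, mul_zero]
      rw [map_sub, map_smul, map_one, sub_mul, sub_mul, sub_mul, sub_eq_zero] at d3
      rw [d3, smul_mul_assoc, one_mul, smul_mul_assoc, smul_mul_assoc]
    rw [sub_mul, sub_mul, sub_mul, key φ₁ c₁ i₁ k₁, key φ₂ c₂ i₂ k₂, sub_self]

end agree

end Vale.Agent.P092.H437.P2
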