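import Vale.Agent.P092.H218.Loc

/-!
P092 (helper437): commutation from support statements, for ANY incidence geometry in which two
different points are on at most one common line (compact Hausdorff spaces `X` of points and `Y`
of lines). No cells, no Riemann sum, no synthesis. Self-dual: used for
(point, point), (point, line) and (line, line).
-/

set_option linter.unusedSectionVars false
set_option linter.unusedVariables false

namespace Vale.Agent.P092.H437

open Vale.Agent.P092.H218 Topology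

/-! ### Localisation by partitions of unity -/

section van

variable {X : Type*} [TopologicalSpace X] [CompactSpace X] [T2Space X]

lemma tsupport_mul_left_sub (u a : C(X, ℂ)) : tsupport ⇑(u * a) ⊆ tsupport ⇑u :=
  closure_mono fun x hx h0 => hx (by rw [ContinuousMap.mul_apply, h0, zero_mul])

lemma tsupport_mul_right_sub (u a : C(X, ℂ)) : tsupport ⇑(u * a) ⊆ tsupport ⇑a :=
  closure_mono fun x hx h0 => hx (by rw [ContinuousMap.mul_apply, h0, mul_zero])

/-- A property of functions which is stable under sums and holds for all functions with small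
support (in the support of `f`) holds for `f`. -/
theorem van (P : C(X, ℂ) → Prop) (h0 : P 0) (hadd : ∀ f g, P f → P g → P (f + g))
    (f : C(X, ℂ))
    (h : ∀ x ∈ tsupport ⇑f, ∃ U : Set X, IsOpen U ∧ x ∈ U ∧
      ∀ g : C(X, ℂ), tsupport ⇑g ⊆ U → tsupport ⇑g ⊆ tsupport ⇑f → P g) : P f := by
  classical
  choose! U hUo hxU hU using h
  have hc : IsCompact (tsupport ⇑f) := (isClosed_tsupport _).isCompact
  obtain ⟨t, hts, ht⟩ := hc.elim_nhds_subcover U (fun x hx => (hUo x hx).mem_nhds (hxU x hx))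
  let V : {x // x ∈ t} → Set X := fun i => U i.1
  have hVo : ∀ i, IsOpen (V i) := fun i => hUo i.1 (hts i.1 i.2)
  have hVc : tsupport ⇑f ⊆ ⋃ i, V i := by
    intro x hx
    obtain ⟨i, hi, hxi⟩ := Set.mem_iUnion₂.1 (ht hx)
    exact Set.mem_iUnion.2 ⟨⟨i, hi⟩, hxi⟩
  obtain ⟨ρ, hρ⟩ := PartitionOfUnity.exists_isSubordinate (isClosed_tsupport ⇑f) V hVo hVc
  have hsum : f = ∑ i : {x // x ∈ t}, toC (ρ i) * f := by
    ext x
    rw [ContinuousMap.sum_apply]
    by_cases hx : x ∈ tsupport ⇑f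
    · have h1 := ρ.sum_eq_one hx
      rw [finsum_eq_sum_of_fintype] at h1
      have h2 : ∑ i : {x // x ∈ t}, (toC (ρ i) * f) x =
          ((∑ i : {x // x ∈ t}, ρ i x : ℝ) : ℂ) * f x := by
        rw [Complex.ofReal_sum, Finset.sum_mul]
        exact Finset.sum_congr rfl fun i _ => rfl
      rw [h2, h1]; simp
    · have h1 : f x = 0 := image_eq_zero_of_notMem_tsupport hx
      rw [Finset.sum_eq_zero fun i _ => ?_]
      · exact h1
      · rw [ContinuousMap.mul_apply, h1, mul_zero]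
  rw [hsum]
  refine Finset.sum_induction _ P hadd h0 (fun i _ => ?_)
  refine hU i.1 (hts i.1 i.2) _ ?_ (tsupport_mul_right_sub _ _)
  refine (tsupport_mul_left_sub _ _).trans (subset_trans ?_ (hρ i))
  refine closure_mono fun x hx h0 => hx ?_
  change ((ρ i x : ℝ) : ℂ) = 0
  rw [h0]; rfl

end van

/-! ### The theorem -/

section pts

variable {X Y K : Type*} [TopologicalSpace X] [CompactSpace X] [T2Space X]
  [TopologicalSpace Y] [CompactSpace Y] [T2Space Y]
  [NormedAddCommGroup K] [InnerProductSpace ℂ K] [CompleteSpace K]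

/-- the lines through the points of `A` -/
def Ln (Inc : X → Y → Prop) (A : Set X) : Set Y := {y | ∃ x ∈ A, Inc x y}

lemma ln_closed {Inc : X → Y → Prop} (hInc : IsClosed {p : X × Y | Inc p.1 p.2}) {A : Set X}
    (hA : IsClosed A) : IsClosed (Ln Inc A) := by
  have : Ln Inc A = Prod.snd '' ({p : X × Y | Inc p.1 p.2} ∩ Prod.fst ⁻¹' A) := by
    ext y
    constructor
    · rintro ⟨x, hx, hxy⟩
      exact ⟨(x, y), ⟨hxy, hx⟩, rfl⟩
    · rintro ⟨⟨x, y'⟩, ⟨h1, h2⟩, rfl⟩
      exact ⟨x, h2, h1⟩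
  rw [this]
  exact isClosedMap_snd_of_compactSpace _ (hInc.inter (hA.preimage continuous_fst))

lemma off_of_disj {Inc : X → Y → Prop} {u : C(X, ℂ)} {g : C(Y, ℂ)}
    (h : tsupport ⇑g ⊆ (Ln Inc (tsupport ⇑u))ᶜ) : Off Inc u g :=
  fun z hz n hn hzn => h hn ⟨z, hz, hzn⟩

/-- `A * L * B = 0` if no line of `supp g` meets both supports: the form of the two cases -/
lemma two_case {Inc : X → Y → Prop} (hInc : IsClosed {p : X × Y | Inc p.1 p.2})
    (βc : C(X, ℂ) →⋆ₐ[ℂ] (K →L[ℂ] K)) (lm : C(Y, ℂ) →⋆ₐ[ℂ] (K →L[ℂ] K)) (W : K →L[ℂ] K)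
    (hcm : ∀ u g, Off Inc u g → βc u * lm g = 0)
    (ccm : ∀ u g, βc u * lm g = lm g * βc u)
    (key : ∀ u g, Off Inc u g → lm g * W * βc u = 0)
    (u1 u2 : C(X, ℂ)) (g : C(Y, ℂ))
    (h : ∀ y ∈ tsupport ⇑g, ∀ x ∈ tsupport ⇑u1, ∀ x' ∈ tsupport ⇑u2, ¬ (Inc x y ∧ Inc x' y)) :
    lm g * (βc u1 * W * βc u2) = 0 := by
  refine van (fun g => lm g * (βc u1 * W * βc u2) = 0) (by simp)
    (fun a b ha hb => by rw [map_add, add_mul, ha, hb, add_zero]) g (fun y hy => ?_)
  by_cases h1 : y ∈ Ln Inc (tsupport ⇑u1)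
  · have h2 : y ∉ Ln Inc (tsupport ⇑u2) := by
      rintro ⟨x', hx', hxy'⟩
      obtain ⟨x, hx, hxy⟩ := h1
      exact h y hy x hx x' hx' ⟨hxy, hxy'⟩
    refine ⟨(Ln Inc (tsupport ⇑u2))ᶜ, (ln_closed hInc (isClosed_tsupport _)).isOpen_compl, h2,
      fun g' hg' _ => ?_⟩
    have e : lm g' * (βc u1 * W * βc u2) = βc u1 * (lm g' * W * βc u2) := by
      calc lm g' * (βc u1 * W * βc u2) = (lm g' * βc u1) * W * βc u2 := by
            simp only [mul_assoc]
        _ = (βc u1 * lm g') * W * βc u2 := by rw [ccm]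
        _ = _ := by simp only [mul_assoc]
    rw [e, key u2 g' (off_of_disj hg'), mul_zero]
  · refine ⟨(Ln Inc (tsupport ⇑u1))ᶜ, (ln_closed hInc (isClosed_tsupport _)).isOpen_compl, h1,
      fun g' hg' _ => ?_⟩
    have e : lm g' * (βc u1 * W * βc u2) = (βc u1 * lm g') * W * βc u2 := by
      rw [ccm]; simp only [mul_assoc]
    rw [e, hcm u1 g' (off_of_disj hg'), zero_mul, zero_mul]

/-- **COMMUTATION FROM SUPPORTS.** `c` is a point with calculus `βc`; `l`, `m` are two lines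
through `c` with calculi `ll`, `lm` (incident support, commuting with `βc`), which agree nowhere;
`W` commutes with the calculus of `l` and satisfies KEY* with respect to `c`, `m`. Then `W`
commutes with the calculus of `c`. -/
theorem pts {Inc : X → Y → Prop} (hInc : IsClosed {p : X × Y | Inc p.1 p.2})
    (hgeo : ∀ x x' y y', x ≠ x' → Inc x y → Inc x' y → Inc x y' → Inc x' y' → y = y')
    (βc : C(X, ℂ) →⋆ₐ[ℂ] (K →L[ℂ] K)) (ll lm : C(Y, ℂ) →⋆ₐ[ℂ] (K →L[ℂ] K)) (W : K →L[ℂ] K)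
    (hcl : ∀ u g, Off Inc u g → βc u * ll g = 0)
    (hcm : ∀ u g, Off Inc u g → βc u * lm g = 0)
    (ccl : ∀ u g, βc u * ll g = ll g * βc u)
    (ccm : ∀ u g, βc u * lm g = lm g * βc u)
    (hWl : ∀ g, W * ll g = ll g * W)
    (key : ∀ u g, Off Inc u g → lm g * W * βc u = 0)
    (agr : ∀ ξ : K, (∀ g, lm g ξ = ll g ξ) → ξ = 0)
    (f : C(X, ℂ)) : W * βc f = βc f * W := by
  -- `T` commutes with `ll`
  have hT : ∀ (u1 u2 : C(X, ℂ)) (g : C(Y, ℂ)),
      ll g * (βc u1 * W * βc u2) = (βc u1 * W * βc u2) * ll g := by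
    intro u1 u2 g
    calc ll g * (βc u1 * W * βc u2) = (ll g * βc u1) * W * βc u2 := by simp only [mul_assoc]
      _ = (βc u1 * ll g) * W * βc u2 := by rw [ccl]
      _ = βc u1 * (ll g * W) * βc u2 := by simp only [mul_assoc]
      _ = βc u1 * (W * ll g) * βc u2 := by rw [hWl]
      _ = βc u1 * W * (ll g * βc u2) := by simp only [mul_assoc]
      _ = βc u1 * W * (βc u2 * ll g) := by rw [ccl]
      _ = _ := by simp only [mul_assoc]
  -- KEY* for `l`
  have keyl : ∀ u g, Off Inc u g → ll g * W * βc u = 0 := by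
    intro u g h
    rw [← hWl, mul_assoc, ← ccl, hcl u g h, mul_zero]
  -- local statement
  have loc1 : ∀ (g g' : C(Y, ℂ)) (u1 u2 : C(X, ℂ)),
      ((∀ y ∈ tsupport ⇑g, ∀ x ∈ tsupport ⇑u1, ∀ x' ∈ tsupport ⇑u2, ¬ (Inc x y ∧ Inc x' y)) ∨
       (∀ y ∈ tsupport ⇑g', ∀ x ∈ tsupport ⇑u1, ∀ x' ∈ tsupport ⇑u2, ¬ (Inc x y ∧ Inc x' y))) →
      lm g * (ll g' * (βc u1 * W * βc u2)) = 0 := by
    rintro g g' u1 u2 (h | h)
    · rw [hT, ← mul_assoc, two_case hInc βc lm W hcm ccm key u1 u2 g h, zero_mul]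
    · rw [two_case hInc βc ll W hcl ccl keyl u1 u2 g' h, mul_zero]
  -- the bad sets are closed
  have bad : ∀ g : C(Y, ℂ), IsClosed {p : X × X | ∃ y ∈ tsupport ⇑g, Inc p.1 y ∧ Inc p.2 y} := by
    intro g
    have e : {p : X × X | ∃ y ∈ tsupport ⇑g, Inc p.1 y ∧ Inc p.2 y} =
        Prod.fst '' ({q : (X × X) × Y | Inc q.1.1 q.2} ∩ {q : (X × X) × Y | Inc q.1.2 q.2} ∩
          Prod.snd ⁻¹' (tsupport ⇑g)) := by
      ext p
      constructor
      · rintro ⟨y, hy, h1, h2⟩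
        exact ⟨(p, y), ⟨⟨h1, h2⟩, hy⟩, rfl⟩
      · rintro ⟨⟨p', y⟩, ⟨⟨h1, h2⟩, hy⟩, rfl⟩
        exact ⟨y, hy, h1, h2⟩
    rw [e]
    refine isClosedMap_fst_of_compactSpace _ ((IsClosed.inter ?_ ?_).inter ?_)
    · exact hInc.preimage (f := fun q : (X × X) × Y => (q.1.1, q.2)) (by fun_prop)
    · exact hInc.preimage (f := fun q : (X × X) × Y => (q.1.2, q.2)) (by fun_prop)
    · exact (isClosed_tsupport _).preimage continuous_snd
  -- the first main step
  have step1 : ∀ (g g' : C(Y, ℂ)), Disjoint (tsupport ⇑g) (tsupport ⇑g') →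
      ∀ u1 u2 : C(X, ℂ), Disjoint (tsupport ⇑u1) (tsupport ⇑u2) →
      lm g * (ll g' * (βc u1 * W * βc u2)) = 0 := by
    intro g g' hgg u1 u2 huu
    set B : Set (X × X) := {p : X × X | ∃ y ∈ tsupport ⇑g, Inc p.1 y ∧ Inc p.2 y} with hB
    set B' : Set (X × X) := {p : X × X | ∃ y ∈ tsupport ⇑g', Inc p.1 y ∧ Inc p.2 y} with hB'
    have hBc := bad g
    have hBc' := bad g'
    -- a good rectangle
    let Good : Set X → Set X → Prop := fun U V => U ×ˢ V ⊆ Bᶜ ∨ U ×ˢ V ⊆ B'ᶜ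
    have good_of : ∀ x1 x2, x1 ≠ x2 → ∃ U V : Set X, IsOpen U ∧ IsOpen V ∧ x1 ∈ U ∧ x2 ∈ V ∧
        Good U V := by
      intro x1 x2 hne
      have : (x1, x2) ∈ Bᶜ ∨ (x1, x2) ∈ B'ᶜ := by
        by_contra hc
        push Not at hc
        obtain ⟨h1, h2⟩ := hc
        rw [Set.notMem_compl_iff] at h1 h2
        obtain ⟨y, hy, a1, a2⟩ := h1
        obtain ⟨y', hy', a3, a4⟩ := h2
        have := hgeo x1 x2 y y' hne a1 a2 a3 a4
        subst this
        exact Set.disjoint_left.1 hgg hy hy'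
      rcases this with h | h
      · obtain ⟨U, V, hU, hV, h1, h2, h3⟩ := isOpen_prod_iff.1 hBc.isOpen_compl x1 x2 h
        exact ⟨U, V, hU, hV, h1, h2, Or.inl h3⟩
      · obtain ⟨U, V, hU, hV, h1, h2, h3⟩ := isOpen_prod_iff.1 hBc'.isOpen_compl x1 x2 h
        exact ⟨U, V, hU, hV, h1, h2, Or.inr h3⟩
    have good_mono : ∀ U V U', U' ⊆ U → Good U V → Good U' V := by
      intro U V U' h hg
      rcases hg with hg | hg
      · exact Or.inl ((Set.prod_mono h subset_rfl).trans hg)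
      · exact Or.inr ((Set.prod_mono h subset_rfl).trans hg)
    refine van (fun u1 => lm g * (ll g' * (βc u1 * W * βc u2)) = 0) (by simp)
      (fun a b ha hb => by
        have : βc (a + b) * W * βc u2 = βc a * W * βc u2 + βc b * W * βc u2 := by
          rw [map_add, add_mul, add_mul]
        rw [this, mul_add, mul_add, ha, hb, add_zero]) u1 (fun x1 hx1 => ?_)
    -- uniform neighbourhood of `x1`
    have hun : ∃ U : Set X, IsOpen U ∧ x1 ∈ U ∧ ∀ x2 ∈ tsupport ⇑u2, ∃ V : Set X, IsOpen V ∧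
        x2 ∈ V ∧ Good U V := by
      have hc : IsCompact (tsupport ⇑u2) := (isClosed_tsupport _).isCompact
      refine hc.induction_on (p := fun s => ∃ U : Set X, IsOpen U ∧ x1 ∈ U ∧ ∀ x2 ∈ s,
        ∃ V : Set X, IsOpen V ∧ x2 ∈ V ∧ Good U V) ?_ ?_ ?_ ?_
      · exact ⟨Set.univ, isOpen_univ, Set.mem_univ _, fun x hx => absurd hx (Set.notMem_empty x)⟩
      · rintro s t hst ⟨U, h1, h2, h3⟩
        exact ⟨U, h1, h2, fun x hx => h3 x (hst hx)⟩
      · rintro s t ⟨U, h1, h2, h3⟩ ⟨U', h1', h2', h3'⟩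
        refine ⟨U ∩ U', h1.inter h1', ⟨h2, h2'⟩, fun x hx => ?_⟩
        rcases hx with hx | hx
        · obtain ⟨V, a, b, c⟩ := h3 x hx
          exact ⟨V, a, b, good_mono _ _ _ Set.inter_subset_left c⟩
        · obtain ⟨V, a, b, c⟩ := h3' x hx
          exact ⟨V, a, b, good_mono _ _ _ Set.inter_subset_right c⟩
      · intro x hx
        have hne : x1 ≠ x := fun h => Set.disjoint_left.1 huu hx1 (h ▸ hx)
        obtain ⟨U, V, a, b, c, d, e⟩ := good_of x1 x hne
        exact ⟨V, mem_nhdsWithin_of_mem_nhds (b.mem_nhds d), U, a, c, fun x2 hx2 =>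
          ⟨V, b, hx2, e⟩⟩
    obtain ⟨U, hUo, hxU, hU⟩ := hun
    refine ⟨U, hUo, hxU, fun u1' hu1' _ => ?_⟩
    refine van (fun u2 => lm g * (ll g' * (βc u1' * W * βc u2)) = 0) (by simp)
      (fun a b ha hb => by
        have : βc u1' * W * βc (a + b) = βc u1' * W * βc a + βc u1' * W * βc b := by
          rw [map_add, mul_add]
        rw [this, mul_add, mul_add, ha, hb, add_zero]) u2 (fun x2 hx2 => ?_)
    obtain ⟨V, hVo, hxV, hg⟩ := hU x2 hx2
    refine ⟨V, hVo, hxV, fun u2' hu2' _ => ?_⟩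
    refine loc1 g g' u1' u2' ?_
    rcases hg with hg | hg
    · refine Or.inl fun y hy x hx x' hx' hh => ?_
      exact hg (Set.mk_mem_prod (hu1' hx) (hu2' hx')) ⟨y, hy, hh.1, hh.2⟩
    · refine Or.inr fun y hy x hx x' hx' hh => ?_
      exact hg (Set.mk_mem_prod (hu1' hx) (hu2' hx')) ⟨y, hy, hh.1, hh.2⟩
  -- second step: `T = 0`
  have step2 : ∀ u1 u2 : C(X, ℂ), Disjoint (tsupport ⇑u1) (tsupport ⇑u2) →
      βc u1 * W * βc u2 = 0 := by
    intro u1 u2 huu
    set T : K →L[ℂ] K := βc u1 * W * βc u2 with hTd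
    have h1 : ∀ g, T.comp (ll g) = (lm g).comp T := by
      refine loc_op lm ll T (fun a b hab => ?_)
      have := step1 a b hab u1 u2 huu
      rw [← hTd, hT u1 u2 b] at this
      exact this
    ext ξ
    refine agr (T ξ) (fun g => ?_)
    have h2 := congrArg (fun S : K →L[ℂ] K => S ξ) (h1 g)
    have h3 := congrArg (fun S : K →L[ℂ] K => S ξ) (hT u1 u2 g)
    simp only [ContinuousLinearMap.comp_apply] at h2
    rw [← h2]
    exact h3.symm
  -- third step: locality
  have step3 := loc_op βc βc W (fun a b hab => step2 a b hab) f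
  exact step3

end pts

end Vale.Agent.P092.H437
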