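import Vale.Agent.P092.H437.ScaleC

/-!
P092 (helper437), Team N, block [N-W0]: `good_nw`, all charts.
-/

set_option linter.unusedSectionVars false
set_option linter.unusedVariables false

namespace Vale.Agent.P092.H437

open Vale.Agent.P092.H218 Vale.Agent.P092.H820 Topology Matrix
open scoped LinearAlgebra.Projectivization

variable {k : Type*} [NontriviallyNormedField k] [ProperSpace k] {n : Type*} [Fintype n]
  [DecidableEq n]

/-- **The translates of a basic function by near-wall matrices.** -/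
theorem good_nw {f : C(ℙ k (n → k), ℂ)} (hf : Bas f) {ϖ : k} (h0 : 0 < ‖ϖ‖)
    (h1 : ‖ϖ‖ ≤ 1 / 4) (C₀ : ℝ) :
    ∃ C : ℝ, 0 ≤ C ∧ ∀ {K : Type} [NormedAddCommGroup K] [InnerProductSpace ℂ K]
      [CompleteSpace K] (lam : C(ℙ k (n → k), ℂ) →⋆ₐ[ℂ] (K →L[ℂ] K)) {ι : Type} (s : Finset ι)
      (T : ι → Matrix n n k) (y : ι → n → k) (b r : ι → ℝ) (F : ι → C(ℙ k (n → k), ℂ)) (L : ℕ),
      (∀ i ∈ s, (∃ j, y i j = 1) ∧ ‖y i‖ ≤ 1 ∧ 0 < b i ∧ ‖ϖ‖ ^ L ≤ r i ∧ r i ≤ 1 ∧
        (∀ ν, b i * (‖wd ν (y i)‖ + r i * ‖ν‖) ≤ C₀ * ‖T i *ᵥ ν‖) ∧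
        (∀ ν, ‖T i *ᵥ ν‖ ≤ C₀ * b i * (‖wd ν (y i)‖ + r i * ‖ν‖)) ∧
        ∀ v (hv : v ≠ 0) (h : T i *ᵥ v ≠ 0), F i (Projectivization.mk k v hv) =
          f (Projectivization.mk k (T i *ᵥ v) h)) →
      Good lam s F (C * (1 + L)) := by
  classical
  have hch := fun j => good_chart hf j h0 h1 (max C₀ 1)
  choose C hC hG using hch
  refine ⟨∑ j, C j, Finset.sum_nonneg fun j _ => hC j,
    fun {K} _ _ _ lam {ι} s T y b r F L h => ?_⟩
  have hex : ∀ i, ∃ j : Option n, i ∈ s → ∃ j', j = some j' ∧ y i j' = 1 := by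
    intro i
    by_cases hi : i ∈ s
    · obtain ⟨j, hj⟩ := (h i hi).1
      exact ⟨some j, fun _ => ⟨j, rfl, hj⟩⟩
    · exact ⟨none, fun h => absurd h hi⟩
  choose p hp using hex
  have key := good_sum (lam := lam) (s := s) (Finset.univ : Finset n)
    (F := fun j i => if p i = some j then F i else 0) (C := fun j => C j * (1 + L))
    (fun j _ => ?_)
  · refine (key.congr fun i hi => ?_).mono (by rw [Finset.sum_mul])
    obtain ⟨j', hj', -⟩ := hp i hi
    rw [hj']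
    simp only [Option.some.injEq]
    rw [Finset.sum_ite_eq, if_pos (Finset.mem_univ _)]
  · refine good_ite (hG j lam (s.filter fun i => p i = some j) T y b r F L ⟨fun i hi => ?_,
      fun i hi => ?_⟩ fun i hi => ?_)
    · obtain ⟨his, hij⟩ := Finset.mem_filter.1 hi
      obtain ⟨j', hj', hy⟩ := hp i his
      have hjj : j' = j := Option.some.inj (hj'.symm.trans hij)
      subst hjj
      obtain ⟨-, h2, h3, h4, h5, h6, h7, -⟩ := h i his
      have hle : C₀ ≤ max C₀ 1 := le_max_left _ _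
      have hr : 0 < r i := lt_of_lt_of_le (pow_pos h0 L) h4
      refine ⟨le_max_right _ _, hy, h2, h3, hr, h5, fun ν => ?_, fun ν => ?_⟩
      · exact (h6 ν).trans (mul_le_mul_of_nonneg_right hle (norm_nonneg _))
      · refine (h7 ν).trans ?_
        have : 0 ≤ b i * (‖wd ν (y i)‖ + r i * ‖ν‖) := by positivity
        calc C₀ * b i * (‖wd ν (y i)‖ + r i * ‖ν‖)
            = C₀ * (b i * (‖wd ν (y i)‖ + r i * ‖ν‖)) := by ring
          _ ≤ max C₀ 1 * (b i * (‖wd ν (y i)‖ + r i * ‖ν‖)) :=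
              mul_le_mul_of_nonneg_right hle this
          _ = _ := by ring
    · exact (h i (Finset.mem_filter.1 hi).1).2.2.2.2.2.2.2
    · exact (h i (Finset.mem_filter.1 hi).1).2.2.2.1

end Vale.Agent.P092.H437
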