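import Vale.Agent.P092.H437.GoodP
import Vale.Agent.P092.H87.NGeo

/-!
P092 (helper437), Team N, block [N-W0], part (S) one scale: nets, packing, bumps, zoom maps.
-/

set_option linter.unusedSectionVars false
set_option linter.unusedVariables false

namespace Vale.Agent.P092.H437

open Vale.Agent.P092.H218 Vale.Agent.P092.H820 Topology Matrix
open scoped LinearAlgebra.Projectivization

/-! ### nets in finite sets -/

lemma exists_net {ι : Type*} [DecidableEq ι] (d : ι → ι → ℝ) (hd : ∀ a b, d a b = d b a)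
    (hd0 : ∀ a, d a a = 0) {ρ : ℝ} (hρ : 0 ≤ ρ) (s : Finset ι) :
    ∃ c : ι → ι, (∀ i ∈ s, c i ∈ s ∧ d i (c i) ≤ ρ) ∧
      ∀ a ∈ s.image c, ∀ b ∈ s.image c, a ≠ b → ρ < d a b := by
  induction s using Finset.induction_on with
  | empty => exact ⟨id, by simp, by simp⟩
  | insert x s hx ih =>
    obtain ⟨c, hc1, hc2⟩ := ih
    by_cases h : ∃ g ∈ s.image c, d x g ≤ ρ
    · obtain ⟨g, hg, hxg⟩ := h
      have hgs : g ∈ s := by
        obtain ⟨i, hi, rfl⟩ := Finset.mem_image.1 hg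
        exact (hc1 i hi).1
      have himg : ∀ a ∈ (insert x s).image (Function.update c x g), a ∈ s.image c := by
        intro a ha
        obtain ⟨i, hi, rfl⟩ := Finset.mem_image.1 ha
        by_cases hix : i = x
        · rw [hix, Function.update_self]; exact hg
        · rw [Function.update_of_ne hix]
          exact Finset.mem_image_of_mem c ((Finset.mem_insert.1 hi).resolve_left hix)
      refine ⟨Function.update c x g, fun i hi => ?_, fun a ha b hb hab =>
        hc2 a (himg a ha) b (himg b hb) hab⟩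
      by_cases hix : i = x
      · rw [hix, Function.update_self]
        exact ⟨Finset.mem_insert_of_mem hgs, hxg⟩
      · rw [Function.update_of_ne hix]
        have := hc1 i ((Finset.mem_insert.1 hi).resolve_left hix)
        exact ⟨Finset.mem_insert_of_mem this.1, this.2⟩
    · push Not at h
      have himg : ∀ a ∈ (insert x s).image (Function.update c x x), a = x ∨ a ∈ s.image c := by
        intro a ha
        obtain ⟨i, hi, rfl⟩ := Finset.mem_image.1 ha
        by_cases hix : i = x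
        · rw [hix, Function.update_self]; exact Or.inl rfl
        · rw [Function.update_of_ne hix]
          exact Or.inr (Finset.mem_image_of_mem c ((Finset.mem_insert.1 hi).resolve_left hix))
      refine ⟨Function.update c x x, fun i hi => ?_, fun a ha b hb hab => ?_⟩
      · by_cases hix : i = x
        · rw [hix, Function.update_self]
          exact ⟨Finset.mem_insert_self x s, by rw [hd0]; exact hρ⟩
        · rw [Function.update_of_ne hix]
          have := hc1 i ((Finset.mem_insert.1 hi).resolve_left hix)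
          exact ⟨Finset.mem_insert_of_mem this.1, this.2⟩
      · rcases himg a ha with rfl | ha'
        · rcases himg b hb with rfl | hb'
          · exact absurd rfl hab
          · exact h b hb'
        · rcases himg b hb with rfl | hb'
          · rw [hd]; exact h a ha'
          · exact hc2 a ha' b hb' hab

section pack

variable {k : Type*} [NontriviallyNormedField k] [ProperSpace k] {n : Type*} [Fintype n]

/-- a separated family in a ball of comparable radius is bounded -/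
lemma exists_pack (D : ℝ) : ∃ N : ℕ, ∀ (ρ : k) (x : n → k) {ι : Type} (t : Finset ι)
    (g : ι → n → k), ρ ≠ 0 → (∀ a ∈ t, ∀ b ∈ t, a ≠ b → ‖ρ‖ < ‖g a - g b‖) →
    (∀ a ∈ t, ‖x - g a‖ ≤ D * ‖ρ‖) → t.card ≤ N := by
  classical
  obtain ⟨F, -, hF, hcov⟩ := (isCompact_closedBall (0 : n → k) D).finite_cover_balls
    (show (0 : ℝ) < 1 / 2 by norm_num)
  refine ⟨hF.toFinset.card, fun ρ x ι t g hρ hsep hball => ?_⟩
  have hρ0 : 0 < ‖ρ‖ := norm_pos_iff.2 hρ
  have h1 : ∀ a ∈ t, ∃ c ∈ F, ‖ρ⁻¹ • (g a - x) - c‖ < 1 / 2 := by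
    intro a ha
    have h2 : ρ⁻¹ • (g a - x) ∈ Metric.closedBall (0 : n → k) D := by
      rw [mem_closedBall_zero_iff, norm_smul, norm_inv, norm_sub_rev]
      have := hball a ha
      rw [inv_mul_le_iff₀ hρ0, mul_comm]
      exact this
    have h3 := hcov h2
    simp only [Set.mem_iUnion, Metric.mem_ball, dist_eq_norm] at h3
    obtain ⟨c, hc, h4⟩ := h3
    exact ⟨c, hc, h4⟩
  choose! c hc hc' using h1
  refine Finset.card_le_card_of_injOn c (fun a ha => ?_) (fun a ha b hb hab => ?_)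
  · simpa using hc a ha
  · by_contra hne
    have h5 := hsep a ha b hb hne
    have h6 := hc' a ha
    have h7 := hc' b hb
    have h8 : ‖ρ⁻¹ • (g a - g b)‖ < 1 := by
      have e : ρ⁻¹ • (g a - g b) = (ρ⁻¹ • (g a - x) - c a) - (ρ⁻¹ • (g b - x) - c b) := by
        have hab' : c a = c b := hab
        rw [hab', sub_sub_sub_cancel_right, ← smul_sub, sub_sub_sub_cancel_right]
      rw [e]
      refine (norm_sub_le _ _).trans_lt ?_
      linarith
    rw [norm_smul, norm_inv, inv_mul_lt_iff₀ hρ0, mul_one] at h8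
    linarith

end pack

/-! ### closed sets and bumps on the projective space -/

section bump

variable {k : Type*} [NormedField k] {n : Type*} [Fintype n]

lemma hom_mk {φ ψ : (n → k) → ℝ} (hφ : ∀ (c : k) v, φ (c • v) = ‖c‖ * φ v)
    (hψ : ∀ (c : k) v, ψ (c • v) = ‖c‖ * ψ v) (v : n → k) (hv : v ≠ 0) :
    φ (Projectivization.mk k v hv).rep ≤ ψ (Projectivization.mk k v hv).rep ↔ φ v ≤ ψ v := by
  obtain ⟨c, hc⟩ := rep_eq v hv
  have hc0 : 0 < ‖(c : k)‖ := norm_pos_iff.2 c.ne_zero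
  rw [hc, Units.smul_def, hφ, hψ]
  exact mul_le_mul_iff_right₀ hc0

lemma closed_hom {φ ψ : (n → k) → ℝ} (hφ : ∀ (c : k) v, φ (c • v) = ‖c‖ * φ v)
    (hψ : ∀ (c : k) v, ψ (c • v) = ‖c‖ * ψ v) (cφ : Continuous φ) (cψ : Continuous ψ) :
    IsClosed {x : ℙ k (n → k) | φ x.rep ≤ ψ x.rep} := by
  have hq : IsQuotientMap (pj k n) := pj_oq.isQuotientMap
  rw [← hq.isClosed_preimage]
  have : pj k n ⁻¹' {x : ℙ k (n → k) | φ x.rep ≤ ψ x.rep} = {v | φ v.1 ≤ ψ v.1} := by
    ext v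
    exact hom_mk hφ hψ v.1 v.2
  rw [this]
  exact isClosed_le (cφ.comp continuous_subtype_val) (cψ.comp continuous_subtype_val)

variable [DecidableEq n]

/-- the part of `v` without the coordinate `j` -/
def rj (j : n) (v : n → k) : n → k := v - v j • Pi.single j 1

lemma rj_j (j : n) (v : n → k) : rj j v j = 0 := by
  simp [rj]

lemma rj_ne {j l : n} (h : l ≠ j) (v : n → k) : rj j v l = v l := by
  simp [rj, Pi.single_eq_of_ne h]

lemma rj_smul (j : n) (c : k) (v : n → k) : rj j (c • v) = c • rj j v := by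
  simp only [rj, Pi.smul_apply, smul_eq_mul, smul_sub, smul_smul]

lemma rj_le (j : n) (v : n → k) : ‖rj j v‖ ≤ ‖v‖ := by
  refine (pi_norm_le_iff_of_nonneg (norm_nonneg _)).2 fun l => ?_
  by_cases h : l = j
  · rw [h, rj_j, norm_zero]; exact norm_nonneg _
  · rw [rj_ne h]; exact norm_le_pi_norm v l

lemma le_rj (j : n) (v : n → k) : ‖v‖ ≤ ‖rj j v‖ + ‖v j‖ := by
  have e : v = rj j v + v j • Pi.single j 1 := by simp [rj]
  conv_lhs => rw [e]
  refine (norm_add_le _ _).trans ?_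
  rw [norm_smul, Pi.norm_single, norm_one, mul_one]

lemma rj_cont (j : n) : Continuous (rj (k := k) j) := by
  unfold rj
  exact continuous_id.sub ((continuous_apply j).smul continuous_const)

variable [ProperSpace k]

/-- bump functions -/
lemma exists_bump (j : n) {D : ℝ} (hD : 0 < D) : ∃ θ : C(ℙ k (n → k), ℝ),
    (∀ v (hv : v ≠ 0), ‖rj j v‖ ≤ D * ‖v j‖ → θ (Projectivization.mk k v hv) = 1) ∧
    (∀ v (hv : v ≠ 0), 2 * D * ‖v j‖ ≤ ‖rj j v‖ → θ (Projectivization.mk k v hv) = 0) ∧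
    ∀ x, 0 ≤ θ x ∧ θ x ≤ 1 := by
  have h1 : ∀ (c : k) (v : n → k), ‖rj j (c • v)‖ = ‖c‖ * ‖rj j v‖ := fun c v => by
    rw [rj_smul, norm_smul]
  have h2 : ∀ (E : ℝ) (c : k) (v : n → k), E * ‖(c • v) j‖ = ‖c‖ * (E * ‖v j‖) := fun E c v => by
    rw [Pi.smul_apply, norm_smul]; ring
  have c1 : Continuous fun v : n → k => ‖rj j v‖ := (rj_cont j).norm
  have c2 : ∀ E : ℝ, Continuous fun v : n → k => E * ‖v j‖ := fun E =>
    continuous_const.mul (continuous_apply j).norm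
  have hA := closed_hom (φ := fun v => ‖rj j v‖) (ψ := fun v => D * ‖v j‖) h1 (h2 D) c1 (c2 D)
  have hB := closed_hom (φ := fun v => 2 * D * ‖v j‖) (ψ := fun v => ‖rj j v‖) (h2 (2 * D)) h1
    (c2 (2 * D)) c1
  have hdis : Disjoint {x : ℙ k (n → k) | 2 * D * ‖x.rep j‖ ≤ ‖rj j x.rep‖}
      {x : ℙ k (n → k) | ‖rj j x.rep‖ ≤ D * ‖x.rep j‖} := by
    rw [Set.disjoint_left]
    intro x hx hx'
    have hx1 : 2 * D * ‖x.rep j‖ ≤ ‖rj j x.rep‖ := hx
    have hx2 : ‖rj j x.rep‖ ≤ D * ‖x.rep j‖ := hx'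
    have h3 : D * ‖x.rep j‖ ≤ 0 := by linarith
    have h4 : ‖x.rep j‖ ≤ 0 := by
      by_contra h
      push Not at h
      have := mul_pos hD h
      linarith
    have h5 := le_rj j x.rep
    have h6 : ‖x.rep‖ ≤ 0 := by linarith
    exact x.rep_nonzero (norm_le_zero_iff.1 h6)
  obtain ⟨θ, h0, h1', hI⟩ := exists_continuous_zero_one_of_isClosed hB hA hdis
  refine ⟨θ, fun v hv hv1 => h1' ?_, fun v hv hv1 => h0 ?_, fun x => ⟨(hI x).1, (hI x).2⟩⟩
  · exact (hom_mk (φ := fun v => ‖rj j v‖) (ψ := fun v => D * ‖v j‖) h1 (h2 D) v hv).2 hv1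
  · exact (hom_mk (φ := fun v => 2 * D * ‖v j‖) (ψ := fun v => ‖rj j v‖) (h2 (2 * D)) h1
      v hv).2 hv1

/-- support of a bump -/
lemma supp_bump {j : n} {D : ℝ} {θ : C(ℙ k (n → k), ℝ)}
    (h0 : ∀ v (hv : v ≠ 0), 2 * D * ‖v j‖ ≤ ‖rj j v‖ → θ (Projectivization.mk k v hv) = 0)
    (v : n → k) (hv : v ≠ 0) (h : Projectivization.mk k v hv ∈ tsupport ⇑(toC θ)) :
    ‖rj j v‖ ≤ 2 * D * ‖v j‖ := by
  have h1 : ∀ (c : k) (v : n → k), ‖rj j (c • v)‖ = ‖c‖ * ‖rj j v‖ := fun c v => by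
    rw [rj_smul, norm_smul]
  have h2 : ∀ (E : ℝ) (c : k) (v : n → k), E * ‖(c • v) j‖ = ‖c‖ * (E * ‖v j‖) := fun E c v => by
    rw [Pi.smul_apply, norm_smul]; ring
  have hA := closed_hom (φ := fun v => ‖rj j v‖) (ψ := fun v => 2 * D * ‖v j‖) h1 (h2 _)
    (rj_cont j).norm (continuous_const.mul (continuous_apply j).norm)
  have h3 : tsupport ⇑(toC θ) ⊆ {x : ℙ k (n → k) | ‖rj j x.rep‖ ≤ 2 * D * ‖x.rep j‖} := by
    refine closure_minimal (fun x hx => ?_) hA
    obtain ⟨w, rfl⟩ := pj_surj x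
    refine (hom_mk (φ := fun v => ‖rj j v‖) (ψ := fun v => 2 * D * ‖v j‖) h1 (h2 _) w.1 w.2).2 ?_
    by_contra hc
    push Not at hc
    apply hx
    rw [toC_apply]
    have := h0 w.1 w.2 hc.le
    change ((θ (Projectivization.mk k w.1 w.2) : ℝ) : ℂ) = 0
    rw [this]; simp
  exact (hom_mk (φ := fun v => ‖rj j v‖) (ψ := fun v => 2 * D * ‖v j‖) h1 (h2 _) v hv).1 (h3 h)

/-- support of the complementary function -/
lemma supp_cobump {j : n} {D : ℝ} {θ : C(ℙ k (n → k), ℝ)}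
    (h0 : ∀ v (hv : v ≠ 0), ‖rj j v‖ ≤ D * ‖v j‖ → θ (Projectivization.mk k v hv) = 1)
    (v : n → k) (hv : v ≠ 0) (h : Projectivization.mk k v hv ∈ tsupport ⇑(1 - toC θ)) :
    D * ‖v j‖ ≤ ‖rj j v‖ := by
  have h1 : ∀ (c : k) (v : n → k), ‖rj j (c • v)‖ = ‖c‖ * ‖rj j v‖ := fun c v => by
    rw [rj_smul, norm_smul]
  have h2 : ∀ (E : ℝ) (c : k) (v : n → k), E * ‖(c • v) j‖ = ‖c‖ * (E * ‖v j‖) := fun E c v => by
    rw [Pi.smul_apply, norm_smul]; ring
  have hA := closed_hom (φ := fun v => D * ‖v j‖) (ψ := fun v => ‖rj j v‖) (h2 _) h1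
    (continuous_const.mul (continuous_apply j).norm) (rj_cont j).norm
  have h3 : tsupport ⇑(1 - toC θ) ⊆ {x : ℙ k (n → k) | D * ‖x.rep j‖ ≤ ‖rj j x.rep‖} := by
    refine closure_minimal (fun x hx => ?_) hA
    obtain ⟨w, rfl⟩ := pj_surj x
    refine (hom_mk (φ := fun v => D * ‖v j‖) (ψ := fun v => ‖rj j v‖) (h2 _) h1 w.1 w.2).2 ?_
    by_contra hc
    push Not at hc
    apply hx
    have := h0 w.1 w.2 hc.le
    change (1 : ℂ) - ((θ (Projectivization.mk k w.1 w.2) : ℝ) : ℂ) = 0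
    rw [this]; simp
  exact (hom_mk (φ := fun v => D * ‖v j‖) (ψ := fun v => ‖rj j v‖) (h2 _) h1 v hv).1 (h3 h)

end bump

/-! ### invertible matrices as maps of the projective space -/

section pm

variable {k : Type*} [NormedField k] {n : Type*} [Fintype n] [DecidableEq n]

lemma mul_ne {M N : Matrix n n k} (h : N * M = 1) {v : n → k} (hv : v ≠ 0) : M *ᵥ v ≠ 0 := by
  intro h0
  apply hv
  have : N *ᵥ (M *ᵥ v) = v := by rw [Matrix.mulVec_mulVec, h, Matrix.one_mulVec]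
  rw [← this, h0, Matrix.mulVec_zero]

/-- the map of the projective space given by a matrix with a left inverse -/
noncomputable def pm (M N : Matrix n n k) (h : N * M = 1) : C(ℙ k (n → k), ℙ k (n → k)) :=
  ⟨fun x => Projectivization.mk k (M *ᵥ x.rep) (mul_ne h x.rep_nonzero), by
    have hq : IsOpenQuotientMap (pj k n) := pj_oq
    rw [← hq.continuous_comp_iff]
    have : ((fun x : ℙ k (n → k) => Projectivization.mk k (M *ᵥ x.rep)
        (mul_ne h x.rep_nonzero)) ∘ pj k n) =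
        pj k n ∘ fun v : {v : n → k // v ≠ 0} => ⟨M *ᵥ v.1, mul_ne h v.2⟩ := by
      funext v
      obtain ⟨c, hc⟩ := rep_eq v.1 v.2
      exact (Projectivization.mk_eq_mk_iff k _ _ _ _).2 ⟨c, by
        change c • (M *ᵥ v.1) = M *ᵥ (Projectivization.mk k v.1 v.2).rep
        rw [hc, mulVec_unit]⟩
    rw [this]
    refine pj_continuous.comp (Continuous.subtype_mk ?_ _)
    exact continuous_const.matrix_mulVec continuous_subtype_val⟩

lemma pm_mk (M N : Matrix n n k) (h : N * M = 1) (v : n → k) (hv : v ≠ 0) :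
    pm M N h (Projectivization.mk k v hv) = Projectivization.mk k (M *ᵥ v) (mul_ne h hv) := by
  obtain ⟨c, hc⟩ := rep_eq v hv
  change Projectivization.mk k (M *ᵥ (Projectivization.mk k v hv).rep) _ = _
  rw [Projectivization.mk_eq_mk_iff]
  exact ⟨c, by rw [hc, mulVec_unit]⟩

lemma pm_pm (M N : Matrix n n k) (h : N * M = 1) (h' : M * N = 1) (x : ℙ k (n → k)) :
    pm M N h (pm N M h' x) = x := by
  obtain ⟨v, rfl⟩ := pj_surj x
  change pm M N h (pm N M h' (Projectivization.mk k v.1 v.2)) = Projectivization.mk k v.1 v.2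
  rw [pm_mk, pm_mk]
  rw [Projectivization.mk_eq_mk_iff]
  exact ⟨1, by rw [one_smul, Matrix.mulVec_mulVec, h', Matrix.one_mulVec]⟩

end pm

/-! ### one cell -/

section cell

variable {k : Type*} [NormedField k] [ProperSpace k] {n : Type*} [Fintype n] [DecidableEq n]

lemma compact_t (ψ : C(ℙ k (n → k), ℂ)) (C₁ C₂ : ℝ) :
    IsCompact {M : Matrix n n k | (∀ a b, ‖M a b‖ ≤ C₁) ∧
      ∀ x ∈ tsupport ⇑ψ, ‖x.rep‖ ≤ C₂ * ‖M *ᵥ x.rep‖} := by
  have h1 : IsCompact {M : Matrix n n k | ∀ a b, ‖M a b‖ ≤ C₁} := by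
    have h2 : IsCompact (Set.pi Set.univ fun _ : n => Set.pi Set.univ fun _ : n =>
        Metric.closedBall (0 : k) C₁) :=
      isCompact_univ_pi fun _ => isCompact_univ_pi fun _ => isCompact_closedBall _ _
    have e : (Set.pi Set.univ fun _ : n => Set.pi Set.univ fun _ : n =>
        Metric.closedBall (0 : k) C₁) = {M : n → n → k | ∀ a b, ‖M a b‖ ≤ C₁} := by
      ext M
      simp [Set.mem_pi]
    rw [e] at h2
    exact h2
  have h3 : IsClosed {M : Matrix n n k | ∀ x ∈ tsupport ⇑ψ, ‖x.rep‖ ≤ C₂ * ‖M *ᵥ x.rep‖} := by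
    have : {M : Matrix n n k | ∀ x ∈ tsupport ⇑ψ, ‖x.rep‖ ≤ C₂ * ‖M *ᵥ x.rep‖} =
        ⋂ x ∈ tsupport ⇑ψ, {M : Matrix n n k | ‖x.rep‖ ≤ C₂ * ‖M *ᵥ x.rep‖} := by
      ext M; simp
    rw [this]
    refine isClosed_biInter fun x _ => isClosed_le continuous_const ?_
    exact continuous_const.mul (continuous_id.matrix_mulVec continuous_const).norm
  exact h1.inter_right h3

/-- the family in one cell -/
theorem cell_good {f : C(ℙ k (n → k), ℂ)} (hf : Bas f) (ψ : C(ℙ k (n → k), ℂ)) (C₁ C₂ : ℝ) :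
    ∃ C : ℝ, ∀ {K : Type} [NormedAddCommGroup K] [InnerProductSpace ℂ K] [CompleteSpace K]
      (lam : C(ℙ k (n → k), ℂ) →⋆ₐ[ℂ] (K →L[ℂ] K)) {ι : Type} (s : Finset ι)
      (Zi Z : Matrix n n k) (hZ : Z * Zi = 1) (T : ι → Matrix n n k) (c : ι → k)
      (F : ι → C(ℙ k (n → k), ℂ)),
      (∀ i ∈ s, c i ≠ 0 ∧ (∀ a b, ‖(c i • (T i * Z)) a b‖ ≤ C₁) ∧
        (∀ v (hv : v ≠ 0), Projectivization.mk k v hv ∈ tsupport ⇑ψ →
          ‖v‖ ≤ C₂ * ‖(c i • (T i * Z)) *ᵥ v‖) ∧
        ∀ v (hv : v ≠ 0) (h : T i *ᵥ v ≠ 0), F i (Projectivization.mk k v hv) =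
          f (Projectivization.mk k (T i *ᵥ v) h)) →
      Good lam s (fun i => F i * ψ.comp (pm Zi Z hZ)) C := by
  obtain ⟨C, hC⟩ := hf _ (compact_t ψ C₁ C₂) ψ (by
    rintro T ⟨-, hT⟩ x hx
    change T *ᵥ x.rep ≠ 0
    intro h0
    have := hT x hx
    rw [h0, norm_zero, mul_zero] at this
    exact x.rep_nonzero (norm_le_zero_iff.1 this))
  refine ⟨C, fun {K} _ _ _ lam {ι} s Zi Z hZ T c F h => ?_⟩
  have hZ' : Zi * Z = 1 := mul_eq_one_comm.1 hZ
  have key := hC (lam.comp (ContinuousMap.compStarAlgHom' ℂ ℂ (pm Zi Z hZ))) s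
    (fun i => c i • (T i * Z)) (fun i => (F i).comp (pm Z Zi hZ')) ?_ ?_
  · refine (good_comp (lam := lam) (pm Zi Z hZ) key).congr fun i _ => ?_
    ext x
    change F i (pm Z Zi hZ' (pm Zi Z hZ x)) * ψ (pm Zi Z hZ x) = F i x * ψ (pm Zi Z hZ x)
    rw [pm_pm]
  · intro i hi
    refine ⟨(h i hi).2.1, fun x hx => ?_⟩
    have hx' : Projectivization.mk k x.rep x.rep_nonzero ∈ tsupport ⇑ψ := by
      rwa [Projectivization.mk_rep]
    exact (h i hi).2.2.1 _ _ hx'
  · intro i hi x hx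
    obtain ⟨v, rfl⟩ := pj_surj x
    change (c i • (T i * Z), Projectivization.mk k v.1 v.2) ∈ nzs k n at hx
    rw [nzs_mk] at hx
    change F i (pm Z Zi hZ' (Projectivization.mk k v.1 v.2)) =
      evf f (c i • (T i * Z)) (Projectivization.mk k v.1 v.2)
    rw [evf_mk _ _ _ _ hx, pm_mk]
    have e : (c i • (T i * Z)) *ᵥ v.1 = c i • (T i *ᵥ (Z *ᵥ v.1)) := by
      rw [Matrix.smul_mulVec, Matrix.mulVec_mulVec]
    have h2 : T i *ᵥ (Z *ᵥ v.1) ≠ 0 := by
      intro h0
      rw [e, h0, smul_zero] at hx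
      exact hx rfl
    rw [(h i hi).2.2.2 _ _ h2]
    congr 1
    rw [Projectivization.mk_eq_mk_iff]
    refine ⟨(Units.mk0 (c i) (h i hi).1)⁻¹, ?_⟩
    rw [e, Units.smul_def, Units.val_inv_eq_inv_val, Units.val_mk0, inv_smul_smul₀ (h i hi).1]

end cell

end Vale.Agent.P092.H437
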