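import Vale.Agent.P092.H437.ScaleA

/-!
P092 (helper437), Team N, block [N-W0], part (S), bounds of the zoomed matrices, one scale.
-/

set_option linter.unusedSectionVars false
set_option linter.unusedVariables false

namespace Vale.Agent.P092.H437

open Vale.Agent.P092.H218 Vale.Agent.P092.H820 Topology Matrix
open scoped LinearAlgebra.Projectivization

section zoom

variable {k : Type*} [NormedField k] {n : Type*} [Fintype n] [DecidableEq n]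

/-- the zoom at the centre `g`, scale `ρ` -/
def zm (j : n) (g : n → k) (ρ : k) : Matrix n n k :=
  ρ • 1 + vecMulVec (g - ρ • Pi.single j 1) (Pi.single j 1)

/-- its inverse -/
def zi (j : n) (g : n → k) (ρ : k) : Matrix n n k :=
  ρ⁻¹ • 1 + vecMulVec (Pi.single j 1 - ρ⁻¹ • g) (Pi.single j 1)

lemma zm_mulVec (j : n) (g : n → k) (ρ : k) (v : n → k) :
    zm j g ρ *ᵥ v = ρ • rj j v + v j • g := by
  ext l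
  simp only [zm, rj, Matrix.add_mulVec, Matrix.smul_mulVec, Matrix.one_mulVec,
    Matrix.vecMulVec_mulVec, single_one_dotProduct, Pi.add_apply, Pi.smul_apply, Pi.sub_apply,
    smul_eq_mul, MulOpposite.smul_eq_mul_unop, MulOpposite.unop_op]
  ring

lemma zi_mulVec (j : n) (g : n → k) (ρ : k) (v : n → k) :
    zi j g ρ *ᵥ v = ρ⁻¹ • (v - v j • g) + v j • Pi.single j 1 := by
  ext l
  simp only [zi, Matrix.add_mulVec, Matrix.smul_mulVec, Matrix.one_mulVec,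
    Matrix.vecMulVec_mulVec, single_one_dotProduct, Pi.add_apply, Pi.smul_apply, Pi.sub_apply,
    smul_eq_mul, MulOpposite.smul_eq_mul_unop, MulOpposite.unop_op]
  ring

lemma zm_j {j : n} {g : n → k} (hg : g j = 1) (ρ : k) (v : n → k) : (zm j g ρ *ᵥ v) j = v j := by
  rw [zm_mulVec, Pi.add_apply, Pi.smul_apply, rj_j, smul_zero, zero_add, Pi.smul_apply, hg,
    smul_eq_mul, mul_one]

lemma zi_j {j : n} {g : n → k} (hg : g j = 1) (ρ : k) (v : n → k) : (zi j g ρ *ᵥ v) j = v j := by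
  rw [zi_mulVec]
  simp [hg]

lemma rj_zi {j : n} {g : n → k} (hg : g j = 1) (ρ : k) (v : n → k) :
    rj j (zi j g ρ *ᵥ v) = ρ⁻¹ • (v - v j • g) := by
  rw [rj, zi_j hg, zi_mulVec, add_sub_cancel_right]

lemma zm_zi {j : n} {g : n → k} (hg : g j = 1) {ρ : k} (hρ : ρ ≠ 0) :
    zm j g ρ * zi j g ρ = 1 := by
  refine Matrix.ext_of_mulVec_single fun l => ?_
  rw [← Matrix.mulVec_mulVec, Matrix.one_mulVec, zm_mulVec, rj_zi hg, zi_j hg, smul_inv_smul₀ hρ,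
    sub_add_cancel]

variable {T : Matrix n n k} {y g : n → k} {ρ β : k} {b r C₀ : ℝ} {j : n}

/-- the lower bound of the wedge -/
lemma le_wd_zm (hy : y j = 1) (hg : g j = 1) (hyg : ‖y - g‖ ≤ ‖ρ‖) (v : n → k) :
    ‖ρ‖ * (‖rj j v‖ - ‖v j‖) ≤ ‖wd (zm j g ρ *ᵥ v) y‖ := by
  have h1 : ‖ρ • rj j v - v j • (y - g)‖ ≤ ‖wd (zm j g ρ *ᵥ v) y‖ := by
    refine (pi_norm_le_iff_of_nonneg (norm_nonneg _)).2 fun l => ?_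
    have e : (ρ • rj j v - v j • (y - g)) l = wd (zm j g ρ *ᵥ v) y (l, j) := by
      simp only [wd, zm_j hg, hy, mul_one]
      rw [zm_mulVec]
      simp only [Pi.add_apply, Pi.sub_apply, Pi.smul_apply, smul_eq_mul]
      ring
    rw [e]
    exact norm_le_pi_norm _ _
  refine le_trans ?_ h1
  have h2 : ‖ρ • rj j v‖ - ‖v j • (y - g)‖ ≤ ‖ρ • rj j v - v j • (y - g)‖ := norm_sub_norm_le _ _
  rw [norm_smul, norm_smul] at h2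
  have h3 : ‖v j‖ * ‖y - g‖ ≤ ‖v j‖ * ‖ρ‖ := mul_le_mul_of_nonneg_left hyg (norm_nonneg _)
  linarith

/-- the upper bound of the wedge -/
lemma wd_zm_le (hyn : ‖y‖ ≤ 1) (hgn : ‖g‖ ≤ 1) (hyg : ‖y - g‖ ≤ ‖ρ‖) (v : n → k) :
    ‖wd (zm j g ρ *ᵥ v) y‖ ≤ 4 * (‖ρ‖ * ‖v‖) := by
  have e : wd (zm j g ρ *ᵥ v) y = ρ • wd (rj j v) y + v j • wd g (y - g) := by
    rw [zm_mulVec, H87.N.wd_add_left, H87.N.wd_smul_left, H87.N.wd_smul_left,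
      H87.N.wd_sub_self g y]
  rw [e]
  refine (norm_add_le _ _).trans ?_
  rw [norm_smul, norm_smul]
  have h1 : ‖wd (rj j v) y‖ ≤ 2 * ‖v‖ := by
    refine (H87.N.wd_le _ _).trans ?_
    have := mul_le_mul (rj_le j v) hyn (norm_nonneg _) (norm_nonneg _)
    linarith
  have h2 : ‖wd g (y - g)‖ ≤ 2 * ‖ρ‖ := by
    refine (H87.N.wd_le _ _).trans ?_
    have := mul_le_mul hgn hyg (norm_nonneg _) zero_le_one
    linarith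
  have h3 : ‖v j‖ ≤ ‖v‖ := norm_le_pi_norm v j
  calc ‖ρ‖ * ‖wd (rj j v) y‖ + ‖v j‖ * ‖wd g (y - g)‖
      ≤ ‖ρ‖ * (2 * ‖v‖) + ‖v‖ * (2 * ‖ρ‖) :=
        add_le_add (mul_le_mul_of_nonneg_left h1 (norm_nonneg _))
          (mul_le_mul h3 h2 (norm_nonneg _) (norm_nonneg _))
    _ = 4 * (‖ρ‖ * ‖v‖) := by ring

lemma zm_le (hgn : ‖g‖ ≤ 1) (hρ1 : ‖ρ‖ ≤ 1) (v : n → k) : ‖zm j g ρ *ᵥ v‖ ≤ 2 * ‖v‖ := by
  rw [zm_mulVec]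
  refine (norm_add_le _ _).trans ?_
  rw [norm_smul, norm_smul]
  have h1 := mul_le_mul hρ1 (rj_le j v) (norm_nonneg _) zero_le_one
  have h2 := mul_le_mul (norm_le_pi_norm v j) hgn (norm_nonneg _) (norm_nonneg _)
  linarith

/-- two-sided bounds of a matrix near the wall: `y` is the repelling direction -/
structure Sc (C₀ : ℝ) (T : Matrix n n k) (y : n → k) (b r : ℝ) (j : n) : Prop where
  one_le : 1 ≤ C₀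
  y_j : y j = 1
  y_n : ‖y‖ ≤ 1
  b_pos : 0 < b
  r_pos : 0 < r
  r_le : r ≤ 1
  lo : ∀ ν, b * (‖wd ν y‖ + r * ‖ν‖) ≤ C₀ * ‖T *ᵥ ν‖
  hi : ∀ ν, ‖T *ᵥ ν‖ ≤ C₀ * b * (‖wd ν y‖ + r * ‖ν‖)

variable {κ : ℝ}

/-- entries of the zoomed matrix -/
lemma zoom_entry (h : Sc C₀ T y b r j) (hgn : ‖g‖ ≤ 1) (hρ0 : ρ ≠ 0)
    (hρ1 : ‖ρ‖ ≤ 1) (hyg : ‖y - g‖ ≤ ‖ρ‖) (hr : r ≤ ‖ρ‖) (hβ : b ≤ ‖β‖) (a l : n) :
    ‖((β * ρ)⁻¹ • (T * zm j g ρ)) a l‖ ≤ 6 * C₀ := by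
  have hb := h.b_pos
  have hC := h.one_le
  have hρ : 0 < ‖ρ‖ := norm_pos_iff.2 hρ0
  have hβ0 : 0 < ‖β‖ := hb.trans_le hβ
  have h1 : ‖(T * zm j g ρ) a l‖ ≤ 6 * C₀ * (‖β‖ * ‖ρ‖) := by
    have e : (T * zm j g ρ) a l = (T *ᵥ (zm j g ρ *ᵥ Pi.single l 1)) a := by
      rw [Matrix.mulVec_mulVec, Matrix.mulVec_single_one]; rfl
    rw [e]
    refine (norm_le_pi_norm _ a).trans ((h.hi _).trans ?_)
    have h2 := wd_zm_le (j := j) h.y_n hgn hyg (Pi.single l 1)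
    have h3 := zm_le (j := j) hgn hρ1 (Pi.single l 1)
    rw [Pi.norm_single, norm_one, mul_one] at h2 h3
    have h4 : r * ‖zm j g ρ *ᵥ Pi.single l 1‖ ≤ ‖ρ‖ * 2 :=
      mul_le_mul hr h3 (norm_nonneg _) hρ.le
    calc C₀ * b * (‖wd (zm j g ρ *ᵥ Pi.single l 1) y‖ + r * ‖zm j g ρ *ᵥ Pi.single l 1‖)
        ≤ C₀ * b * (4 * ‖ρ‖ + ‖ρ‖ * 2) := by gcongr
      _ = 6 * C₀ * (b * ‖ρ‖) := by ring
      _ ≤ _ := by gcongr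
  rw [Matrix.smul_apply, smul_eq_mul, norm_mul, norm_inv, norm_mul,
    inv_mul_le_iff₀ (by positivity)]
  linarith

/-- lower bound away from the centre -/
lemma zoom_far (h : Sc C₀ T y b r j) (hg : g j = 1) (hρ0 : ρ ≠ 0)
    (hyg : ‖y - g‖ ≤ ‖ρ‖) (hκ : 0 < κ) (hκ1 : κ ≤ 1) (hβ0 : 0 < ‖β‖) (hβ : κ * ‖β‖ ≤ b)
    (v : n → k) (hv : 3 * ‖v j‖ ≤ ‖rj j v‖) :
    ‖v‖ ≤ 7 * C₀ / κ ^ 2 * ‖((β * ρ)⁻¹ • (T * zm j g ρ)) *ᵥ v‖ := by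
  have hb := h.b_pos
  have hC := h.one_le
  have hρ : 0 < ‖ρ‖ := norm_pos_iff.2 hρ0
  have h1 := le_rj j v
  have h2 := le_wd_zm h.y_j hg hyg v
  have h3 := h.lo (zm j g ρ *ᵥ v)
  have h4 : ‖v‖ ≤ 2 * (‖rj j v‖ - ‖v j‖) := by linarith
  have h5 : b * (‖ρ‖ * ‖v‖) ≤ 2 * C₀ * ‖T *ᵥ (zm j g ρ *ᵥ v)‖ := by
    calc b * (‖ρ‖ * ‖v‖) ≤ b * (‖ρ‖ * (2 * (‖rj j v‖ - ‖v j‖))) := by gcongr
      _ = 2 * (b * (‖ρ‖ * (‖rj j v‖ - ‖v j‖))) := by ring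
      _ ≤ 2 * (b * (‖wd (zm j g ρ *ᵥ v) y‖ + r * ‖zm j g ρ *ᵥ v‖)) := by
          have : 0 ≤ r * ‖zm j g ρ *ᵥ v‖ := mul_nonneg h.r_pos.le (norm_nonneg _)
          have h6 : ‖ρ‖ * (‖rj j v‖ - ‖v j‖) ≤
            ‖wd (zm j g ρ *ᵥ v) y‖ + r * ‖zm j g ρ *ᵥ v‖ := by linarith
          gcongr
      _ ≤ _ := by linarith
  rw [Matrix.smul_mulVec, norm_smul, norm_inv, norm_mul, ← Matrix.mulVec_mulVec]
  have h7 : κ * (‖β‖ * ‖ρ‖ * ‖v‖) ≤ 2 * C₀ * ‖T *ᵥ (zm j g ρ *ᵥ v)‖ := by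
    refine le_trans ?_ h5
    calc κ * (‖β‖ * ‖ρ‖ * ‖v‖) = (κ * ‖β‖) * (‖ρ‖ * ‖v‖) := by ring
      _ ≤ b * (‖ρ‖ * ‖v‖) := by gcongr
  have h8 : ‖v‖ ≤ 2 * C₀ / κ * ((‖β‖ * ‖ρ‖)⁻¹ * ‖T *ᵥ (zm j g ρ *ᵥ v)‖) := by
    have : 2 * C₀ / κ * ((‖β‖ * ‖ρ‖)⁻¹ * ‖T *ᵥ (zm j g ρ *ᵥ v)‖) =
        2 * C₀ * ‖T *ᵥ (zm j g ρ *ᵥ v)‖ / (κ * (‖β‖ * ‖ρ‖)) := by
      field_simp
    rw [this, le_div_iff₀ (by positivity)]
    linarith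
  refine h8.trans ?_
  refine mul_le_mul_of_nonneg_right ?_ (by positivity)
  rw [div_le_div_iff₀ hκ (by positivity)]
  have : κ ^ 2 ≤ κ := by nlinarith
  nlinarith

/-- lower bound near the centre, at the last scale -/
lemma zoom_near (h : Sc C₀ T y b r j) (hg : g j = 1) (hρ0 : ρ ≠ 0) (hκ : 0 < κ)
    (hβ0 : 0 < ‖β‖) (hβ : κ * ‖β‖ ≤ b) (hr : κ * ‖ρ‖ ≤ r) (v : n → k)
    (hv : ‖rj j v‖ ≤ 6 * ‖v j‖) :
    ‖v‖ ≤ 7 * C₀ / κ ^ 2 * ‖((β * ρ)⁻¹ • (T * zm j g ρ)) *ᵥ v‖ := by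
  have hb := h.b_pos
  have hC := h.one_le
  have hρ : 0 < ‖ρ‖ := norm_pos_iff.2 hρ0
  have h1 := le_rj j v
  have h3 := h.lo (zm j g ρ *ᵥ v)
  have h4 : ‖v‖ ≤ 7 * ‖zm j g ρ *ᵥ v‖ := by
    have := norm_le_pi_norm (zm j g ρ *ᵥ v) j
    rw [zm_j hg] at this
    linarith
  rw [Matrix.smul_mulVec, norm_smul, norm_inv, norm_mul, ← Matrix.mulVec_mulVec]
  have h7 : κ ^ 2 * (‖β‖ * ‖ρ‖ * ‖v‖) ≤ 7 * C₀ * ‖T *ᵥ (zm j g ρ *ᵥ v)‖ := by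
    calc κ ^ 2 * (‖β‖ * ‖ρ‖ * ‖v‖) = (κ * ‖β‖) * ((κ * ‖ρ‖) * ‖v‖) := by ring
      _ ≤ b * (r * (7 * ‖zm j g ρ *ᵥ v‖)) := by
          have := h.r_pos
          gcongr
      _ = 7 * (b * (r * ‖zm j g ρ *ᵥ v‖)) := by ring
      _ ≤ 7 * (b * (‖wd (zm j g ρ *ᵥ v) y‖ + r * ‖zm j g ρ *ᵥ v‖)) := by
          have : 0 ≤ ‖wd (zm j g ρ *ᵥ v) y‖ := norm_nonneg _
          gcongr
          linarith
      _ ≤ _ := by linarith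
  have : 7 * C₀ / κ ^ 2 * ((‖β‖ * ‖ρ‖)⁻¹ * ‖T *ᵥ (zm j g ρ *ᵥ v)‖) =
      7 * C₀ * ‖T *ᵥ (zm j g ρ *ᵥ v)‖ / (κ ^ 2 * (‖β‖ * ‖ρ‖)) := by
    field_simp
  rw [this, le_div_iff₀ (by positivity)]
  linarith

end zoom

end Vale.Agent.P092.H437
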