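import Vale.Agent.P092.H437.ScaleB

/-!
P092 (helper437), Team N, block [N-W0], part (S): the translates of a basic function by near-wall
matrices are `C (1 + L)`-good.
-/

set_option linter.unusedSectionVars false
set_option linter.unusedVariables false

namespace Vale.Agent.P092.H437

open Vale.Agent.P092.H218 Vale.Agent.P092.H820 Topology Matrix
open scoped LinearAlgebra.Projectivization

section bumpfam

variable {k : Type*} [NormedField k] [ProperSpace k] {n : Type*} [Fintype n] [DecidableEq n]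

/-- bump function of radius `D` at the direction `e_j` -/
structure Bump (j : n) (D : ℝ) (θ : C(ℙ k (n → k), ℝ)) : Prop where
  pos : 0 < D
  one : ∀ v (hv : v ≠ 0), ‖rj j v‖ ≤ D * ‖v j‖ → θ (Projectivization.mk k v hv) = 1
  zero : ∀ v (hv : v ≠ 0), 2 * D * ‖v j‖ ≤ ‖rj j v‖ → θ (Projectivization.mk k v hv) = 0
  mem : ∀ x, 0 ≤ θ x ∧ θ x ≤ 1

lemma exists_Bump (j : n) {D : ℝ} (hD : 0 < D) : ∃ θ : C(ℙ k (n → k), ℝ), Bump j D θ := by
  obtain ⟨θ, h1, h2, h3⟩ := exists_bump (k := k) j hD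
  exact ⟨θ, hD, h1, h2, h3⟩

open Classical in
/-- the bump at the centre `g`, scale `ρ` -/
noncomputable def cb (θ : C(ℙ k (n → k), ℝ)) (j : n) (g : n → k) (ρ : k) :
    C(ℙ k (n → k), ℂ) :=
  if h : g j = 1 ∧ ρ ≠ 0 then (toC θ).comp (pm (zi j g ρ) (zm j g ρ) (zm_zi h.1 h.2)) else 0

variable {j : n} {D : ℝ} {θ : C(ℙ k (n → k), ℝ)} {g : n → k} {ρ : k}

lemma cb_eq (hg : g j = 1) (hρ : ρ ≠ 0) :
    cb θ j g ρ = (toC θ).comp (pm (zi j g ρ) (zm j g ρ) (zm_zi hg hρ)) := by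
  unfold cb
  rw [dif_pos ⟨hg, hρ⟩]

lemma cb_one (hθ : Bump j D θ) (hg : g j = 1) (hρ : ρ ≠ 0) (v : n → k) (hv : v ≠ 0)
    (h : ‖v - v j • g‖ ≤ D * ‖ρ‖ * ‖v j‖) : cb θ j g ρ (Projectivization.mk k v hv) = 1 := by
  have hρ0 : 0 < ‖ρ‖ := norm_pos_iff.2 hρ
  rw [cb_eq hg hρ]
  change toC θ (pm (zi j g ρ) (zm j g ρ) (zm_zi hg hρ) (Projectivization.mk k v hv)) = 1
  rw [pm_mk, toC_apply, hθ.one]
  · simp
  · rw [rj_zi hg, zi_j hg, norm_smul, norm_inv, inv_mul_le_iff₀ hρ0]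
    linarith

lemma cb_zero (hθ : Bump j D θ) (hg : g j = 1) (hρ : ρ ≠ 0) (v : n → k) (hv : v ≠ 0)
    (h : 2 * D * ‖ρ‖ * ‖v j‖ ≤ ‖v - v j • g‖) : cb θ j g ρ (Projectivization.mk k v hv) = 0 := by
  have hρ0 : 0 < ‖ρ‖ := norm_pos_iff.2 hρ
  rw [cb_eq hg hρ]
  change toC θ (pm (zi j g ρ) (zm j g ρ) (zm_zi hg hρ) (Projectivization.mk k v hv)) = 0
  rw [pm_mk, toC_apply, hθ.zero]
  · simp
  · rw [rj_zi hg, zi_j hg, norm_smul, norm_inv, le_inv_mul_iff₀ hρ0]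
    linarith

lemma cb_norm (hθ : Bump j D θ) (x : ℙ k (n → k)) : ‖cb θ j g ρ x‖ ≤ 1 := by
  by_cases h : g j = 1 ∧ ρ ≠ 0
  · rw [cb_eq h.1 h.2]
    change ‖toC θ _‖ ≤ 1
    rw [toC_apply, Complex.norm_real, Real.norm_of_nonneg (hθ.mem _).1]
    exact (hθ.mem _).2
  · unfold cb
    rw [dif_neg h]
    simp

/-- product of two bumps -/
lemma cb_mul {D' : ℝ} {θ' : C(ℙ k (n → k), ℝ)} {g' : n → k} {ρ' : k} (hθ : Bump j D θ)
    (hθ' : Bump j D' θ') (hg : g j = 1) (hρ : ρ ≠ 0) (hg' : g' j = 1) (hρ' : ρ' ≠ 0)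
    (h : 2 * D * ‖ρ‖ + ‖g - g'‖ ≤ D' * ‖ρ'‖) : cb θ j g ρ * cb θ' j g' ρ' = cb θ j g ρ := by
  ext x
  obtain ⟨v, rfl⟩ := pj_surj x
  change cb θ j g ρ (Projectivization.mk k v.1 v.2) * cb θ' j g' ρ'
    (Projectivization.mk k v.1 v.2) = cb θ j g ρ (Projectivization.mk k v.1 v.2)
  by_cases hz : 2 * D * ‖ρ‖ * ‖v.1 j‖ ≤ ‖v.1 - v.1 j • g‖
  · rw [cb_zero hθ hg hρ v.1 v.2 hz, zero_mul]
  · push Not at hz
    rw [cb_one hθ' hg' hρ' v.1 v.2, mul_one]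
    have e : v.1 - v.1 j • g' = (v.1 - v.1 j • g) + v.1 j • (g - g') := by
      rw [smul_sub]; abel
    rw [e]
    refine (norm_add_le _ _).trans ?_
    rw [norm_smul]
    have := mul_le_mul_of_nonneg_right h (norm_nonneg (v.1 j))
    nlinarith

end bumpfam

section fam

variable {k : Type*} [NontriviallyNormedField k] [ProperSpace k] {n : Type*} [Fintype n]
  [DecidableEq n]

/-- bounded overlap -/
lemma overlap {j : n} {D : ℝ} {θ : C(ℙ k (n → k), ℝ)} (hθ : Bump j D θ) :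
    ∃ N : ℕ, ∀ (ρ : k) {ι : Type} (t : Finset ι) (g : ι → n → k), ρ ≠ 0 →
      (∀ a ∈ t, g a j = 1) → (∀ a ∈ t, ∀ b ∈ t, a ≠ b → ‖ρ‖ < ‖g a - g b‖) →
      ∀ x, ∑ a ∈ t, ‖cb θ j (g a) ρ x‖ ^ 2 ≤ (N : ℝ) ^ 2 := by
  classical
  obtain ⟨N, hN⟩ := exists_pack (k := k) (n := n) (2 * D)
  refine ⟨N, fun ρ ι t g hρ hg hsep x => ?_⟩
  have hρ0 : 0 < ‖ρ‖ := norm_pos_iff.2 hρ
  obtain ⟨v, rfl⟩ := pj_surj x
  change ∑ a ∈ t, ‖cb θ j (g a) ρ (Projectivization.mk k v.1 v.2)‖ ^ 2 ≤ _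
  set t' := t.filter fun a => ‖v.1 - v.1 j • g a‖ < 2 * D * ‖ρ‖ * ‖v.1 j‖ with ht'
  have h1 : ∑ a ∈ t, ‖cb θ j (g a) ρ (Projectivization.mk k v.1 v.2)‖ ^ 2 =
      ∑ a ∈ t', ‖cb θ j (g a) ρ (Projectivization.mk k v.1 v.2)‖ ^ 2 := by
    symm
    refine Finset.sum_subset (Finset.filter_subset _ _) fun a ha ha' => ?_
    have h2 : 2 * D * ‖ρ‖ * ‖v.1 j‖ ≤ ‖v.1 - v.1 j • g a‖ := by
      by_contra hc
      push Not at hc
      exact ha' (Finset.mem_filter.2 ⟨ha, hc⟩)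
    rw [cb_zero hθ (hg a ha) hρ v.1 v.2 h2]
    simp
  rw [h1]
  have h2 : ∑ a ∈ t', ‖cb θ j (g a) ρ (Projectivization.mk k v.1 v.2)‖ ^ 2 ≤ t'.card := by
    calc _ ≤ ∑ a ∈ t', (1 : ℝ) := Finset.sum_le_sum fun a _ => by
          have := cb_norm (g := g a) (ρ := ρ) hθ (Projectivization.mk k v.1 v.2)
          exact pow_le_one₀ (norm_nonneg _) this
      _ = t'.card := by simp
  refine h2.trans ?_
  have h3 : t'.card ≤ N := by
    by_cases hvj : v.1 j = 0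
    · have : t' = ∅ := by
        refine Finset.eq_empty_of_forall_notMem fun a ha => ?_
        have := (Finset.mem_filter.1 ha).2
        rw [hvj, norm_zero, mul_zero] at this
        exact absurd this (not_lt.2 (norm_nonneg _))
      rw [this]; simp
    · have hvj0 : 0 < ‖v.1 j‖ := norm_pos_iff.2 hvj
      refine hN ρ ((v.1 j)⁻¹ • v.1) t' g hρ (fun a ha b hb => hsep a (Finset.mem_filter.1 ha).1 b
        (Finset.mem_filter.1 hb).1) fun a ha => ?_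
      have h4 := (Finset.mem_filter.1 ha).2
      have e : (v.1 j)⁻¹ • v.1 - g a = (v.1 j)⁻¹ • (v.1 - v.1 j • g a) := by
        rw [smul_sub, inv_smul_smul₀ hvj]
      rw [e, norm_smul, norm_inv, inv_mul_le_iff₀ hvj0]
      linarith
  have h4 : (t'.card : ℝ) ≤ N := by exact_mod_cast h3
  rcases Nat.eq_zero_or_pos N with h0 | h0
  · subst h0
    have : (t'.card : ℝ) ≤ 0 := by simpa using h4
    simpa using this
  · have h5 : (1 : ℝ) ≤ N := by exact_mod_cast h0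
    nlinarith

variable {K : Type} [NormedAddCommGroup K] [InnerProductSpace ℂ K] [CompleteSpace K]
  {lam : C(ℙ k (n → k), ℂ) →⋆ₐ[ℂ] (K →L[ℂ] K)} {ι : Type} {s : Finset ι}

lemma good_ite {p : ι → Prop} [DecidablePred p] {F : ι → C(ℙ k (n → k), ℂ)} {C : ℝ}
    (h : Good lam (s.filter p) F C) : Good lam s (fun i => if p i then F i else 0) C := by
  refine ⟨h.1, fun X N hN hX η => ?_⟩
  have h1 := h.2 X N hN (fun ζ => (Finset.sum_le_sum_of_subset_of_nonneg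
    (Finset.filter_subset _ _) (fun i _ _ => sq_nonneg _)).trans (hX ζ)) η
  refine le_trans (le_of_eq ?_) h1
  rw [Finset.sum_filter]
  refine Finset.sum_congr rfl fun i _ => ?_
  by_cases hp : p i
  · simp only [if_pos hp]
  · simp only [if_neg hp, map_zero, mul_zero, _root_.zero_apply, norm_zero]
    simp

lemma good_one : Good lam s (fun _ => (1 : C(ℙ k (n → k), ℂ))) 1 := by
  refine (good_const (lam := lam) (s := s) 1).mono ?_
  rw [ContinuousMap.norm_le _ zero_le_one]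
  intro x
  simp

/-- data of a net -/
structure Net (j : n) (y : ι → n → k) (ρ : k) (s : Finset ι) (c : ι → ι) : Prop where
  ne : ρ ≠ 0
  near : ∀ i ∈ s, ‖y i - y (c i)‖ ≤ ‖ρ‖
  y_j : ∀ i ∈ s, y (c i) j = 1
  y_n : ∀ i ∈ s, ‖y (c i)‖ ≤ 1
  sep : ∀ a, (∃ i ∈ s, c i = a) → ∀ b, (∃ i ∈ s, c i = b) → a ≠ b → ‖ρ‖ < ‖y a - y b‖

lemma Net.subset {j : n} {y : ι → n → k} {ρ : k} {s t : Finset ι} {c : ι → ι}
    (h : Net j y ρ s c) (hts : t ⊆ s) : Net j y ρ t c :=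
  ⟨h.ne, fun i hi => h.near i (hts hi), fun i hi => h.y_j i (hts hi),
    fun i hi => h.y_n i (hts hi), fun a ⟨i, hi, ha⟩ b ⟨i', hi', hb⟩ =>
      h.sep a ⟨i, hts hi, ha⟩ b ⟨i', hts hi', hb⟩⟩

lemma exists_Net (j : n) (y : ι → n → k) (ρ : k) (hρ : ρ ≠ 0) (s : Finset ι)
    (hy : ∀ i ∈ s, y i j = 1 ∧ ‖y i‖ ≤ 1) : ∃ c, Net j y ρ s c := by
  classical
  obtain ⟨c, h1, h2⟩ := exists_net (fun a b => ‖y a - y b‖) (fun a b => norm_sub_rev _ _)
    (fun a => by simp) (norm_nonneg ρ) s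
  exact ⟨c, hρ, fun i hi => (h1 i hi).2, fun i hi => (hy _ (h1 i hi).1).1,
    fun i hi => (hy _ (h1 i hi).1).2, fun a ⟨i, hi, ha⟩ b ⟨i', hi', hb⟩ =>
      h2 a (Finset.mem_image.2 ⟨i, hi, ha⟩) b (Finset.mem_image.2 ⟨i', hi', hb⟩)⟩

/-- the orthogonality lemma for a net -/
lemma net_orth {j : n} {D : ℝ} {θ : C(ℙ k (n → k), ℝ)} (hθ : Bump j D θ) :
    ∃ N : ℕ, ∀ {K : Type} [NormedAddCommGroup K] [InnerProductSpace ℂ K] [CompleteSpace K]
      (lam : C(ℙ k (n → k), ℂ) →⋆ₐ[ℂ] (K →L[ℂ] K)) {ι : Type} [DecidableEq ι] (s : Finset ι)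
      (y : ι → n → k) (ρ : k) (c : ι → ι) (F : ι → C(ℙ k (n → k), ℂ)) (C : ℝ),
      Net j y ρ s c → 0 ≤ C → (∀ a, Good lam (s.filter fun i => c i = a) F C) →
      Good lam s (fun i => F i * cb θ j (y (c i)) ρ) (C * N) := by
  obtain ⟨N, hN⟩ := overlap hθ
  refine ⟨N, fun {K} _ _ _ lam {ι} _ s y ρ c F C hnet hC hF => ?_⟩
  refine good_orth (lam := lam) (s := s) c (fun a => cb θ j (y a) ρ) hC (Nat.cast_nonneg N) hF
    fun x => hN ρ (s.image c) y hnet.ne (fun a ha => ?_) (fun a ha b hb hab => ?_) x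
  · obtain ⟨i, hi, rfl⟩ := Finset.mem_image.1 ha
    exact hnet.y_j i hi
  · exact hnet.sep a (Finset.mem_image.1 ha) b (Finset.mem_image.1 hb) hab

/-- number of cells at scale one -/
lemma net_card (j : n) : ∃ N : ℕ, ∀ {ι : Type} [DecidableEq ι] (s : Finset ι) (y : ι → n → k)
    (c : ι → ι), Net j y (1 : k) s c → (s.image c).card ≤ N := by
  obtain ⟨N, hN⟩ := exists_pack (k := k) (n := n) 1
  refine ⟨N, fun {ι} _ s y c h => hN 1 0 (s.image c) y one_ne_zero (fun a ha b hb hab =>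
    h.sep a (Finset.mem_image.1 ha) b (Finset.mem_image.1 hb) hab) fun a ha => ?_⟩
  obtain ⟨i, hi, rfl⟩ := Finset.mem_image.1 ha
  rw [zero_sub, norm_neg, norm_one, mul_one]
  exact h.y_n i hi

/-- the bumps of a net form a good family -/
lemma net_bumps {j : n} {D : ℝ} {θ : C(ℙ k (n → k), ℝ)} (hθ : Bump j D θ) :
    ∃ N : ℕ, ∀ {K : Type} [NormedAddCommGroup K] [InnerProductSpace ℂ K] [CompleteSpace K]
      (lam : C(ℙ k (n → k), ℂ) →⋆ₐ[ℂ] (K →L[ℂ] K)) {ι : Type} (s : Finset ι)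
      (y : ι → n → k) (ρ : k) (c : ι → ι), Net j y ρ s c →
      Good lam s (fun i => cb θ j (y (c i)) ρ) N := by
  classical
  obtain ⟨N, hN⟩ := net_orth hθ
  refine ⟨N, fun {K} _ _ _ lam {ι} s y ρ c h => ?_⟩
  have := hN lam s y ρ c (fun _ => 1) 1 h zero_le_one fun a => good_one
  refine (this.congr fun i _ => ?_).mono (by rw [one_mul])
  rw [one_mul]

/-- the family of translates -/
structure Fam (f : C(ℙ k (n → k), ℂ)) (C₀ : ℝ) (j : n) (s : Finset ι)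
    (T : ι → Matrix n n k) (y : ι → n → k) (b r : ι → ℝ) (F : ι → C(ℙ k (n → k), ℂ)) : Prop where
  sc : ∀ i ∈ s, Sc C₀ (T i) (y i) (b i) (r i) j
  F : ∀ i ∈ s, ∀ v (hv : v ≠ 0) (h : T i *ᵥ v ≠ 0), F i (Projectivization.mk k v hv) =
    f (Projectivization.mk k (T i *ᵥ v) h)

lemma Fam.subset {f : C(ℙ k (n → k), ℂ)} {C₀ : ℝ} {j : n} {s t : Finset ι}
    {T : ι → Matrix n n k} {y : ι → n → k} {b r : ι → ℝ} {F : ι → C(ℙ k (n → k), ℂ)}
    (h : Fam f C₀ j s T y b r F) (hts : t ⊆ s) : Fam f C₀ j t T y b r F :=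
  ⟨fun i hi => h.sc i (hts hi), fun i hi => h.F i (hts hi)⟩

/-- a scalar of given size -/
lemma exists_beta {ϖ : k} (h0 : 0 < ‖ϖ‖) (h1 : ‖ϖ‖ < 1) {b : ℝ} (hb : 0 < b) :
    ∃ β : k, β ≠ 0 ∧ b ≤ ‖β‖ ∧ ‖ϖ‖ * ‖β‖ ≤ b := by
  obtain ⟨m, hm⟩ := exists_mem_Ioc_zpow hb ((one_lt_inv₀ h0).2 h1)
  have hϖ : ϖ ≠ 0 := norm_pos_iff.1 h0
  refine ⟨(ϖ⁻¹) ^ (m + 1), zpow_ne_zero _ (inv_ne_zero hϖ), ?_, ?_⟩
  · rw [norm_zpow, norm_inv]; exact hm.2
  · rw [norm_zpow, norm_inv, zpow_add_one₀ (inv_ne_zero h0.ne')]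
    have : ‖ϖ‖ * (‖ϖ‖⁻¹ ^ m * ‖ϖ‖⁻¹) = ‖ϖ‖⁻¹ ^ m := by
      field_simp
    rw [this]; exact hm.1.le

/-- **the cells of one scale**, away from the centre -/
lemma fiber_far {f : C(ℙ k (n → k), ℂ)} (hf : Bas f) (j : n) {ϖ : k} (h0 : 0 < ‖ϖ‖)
    (h1 : ‖ϖ‖ ≤ 1 / 4) {θ : C(ℙ k (n → k), ℝ)} (hθ : Bump j 3 θ) (C₀ : ℝ) :
    ∃ C : ℝ, ∀ {K : Type} [NormedAddCommGroup K] [InnerProductSpace ℂ K] [CompleteSpace K]
      (lam : C(ℙ k (n → k), ℂ) →⋆ₐ[ℂ] (K →L[ℂ] K)) {ι : Type} [DecidableEq ι] (s : Finset ι)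
      (T : ι → Matrix n n k) (y : ι → n → k) (b r : ι → ℝ) (F : ι → C(ℙ k (n → k), ℂ))
      (ρ : k) (c : ι → ι), Fam f C₀ j s T y b r F → Net j y ρ s c → ‖ρ‖ ≤ 1 →
      (∀ i ∈ s, r i ≤ ‖ρ‖) → ∀ a, Good lam (s.filter fun i => c i = a)
        (fun i => F i * (1 - cb θ j (y (c i)) ρ)) C := by
  obtain ⟨C, hC⟩ := cell_good hf (1 - toC θ) (6 * C₀) (7 * C₀ / ‖ϖ‖ ^ 2)
  refine ⟨max C 0, fun {K} _ _ _ lam {ι} _ s T y b r F ρ c hFam hnet hρ1 hr a => ?_⟩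
  rcases (s.filter fun i => c i = a).eq_empty_or_nonempty with he | ⟨i₀, hi₀⟩
  · rw [he]
    exact (good_empty lam _).mono (le_max_right _ _)
  obtain ⟨hi₀s, hi₀a⟩ := Finset.mem_filter.1 hi₀
  have hya : y a j = 1 := by rw [← hi₀a]; exact hnet.y_j i₀ hi₀s
  have hyn : ‖y a‖ ≤ 1 := by rw [← hi₀a]; exact hnet.y_n i₀ hi₀s
  have hex : ∀ i, ∃ β : k, i ∈ s → β ≠ 0 ∧ b i ≤ ‖β‖ ∧ ‖ϖ‖ * ‖β‖ ≤ b i := by
    intro i
    by_cases hi : i ∈ s
    · obtain ⟨β, hβ⟩ := exists_beta h0 (by linarith) (hFam.sc i hi).b_pos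
      exact ⟨β, fun _ => hβ⟩
    · exact ⟨0, fun h => absurd h hi⟩
  choose β hβ using hex
  have key := hC lam (s.filter fun i => c i = a) (zi j (y a) ρ) (zm j (y a) ρ)
    (zm_zi hya hnet.ne) T (fun i => (β i * ρ)⁻¹) F ?_
  · refine (key.congr fun i hi => ?_).mono (le_max_left _ _)
    rw [(Finset.mem_filter.1 hi).2, cb_eq hya hnet.ne]
    rfl
  · intro i hi
    obtain ⟨his, hia⟩ := Finset.mem_filter.1 hi
    obtain ⟨hb0, hb1, hb2⟩ := hβ i his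
    have hsc := hFam.sc i his
    have hnear : ‖y i - y a‖ ≤ ‖ρ‖ := by rw [← hia]; exact hnet.near i his
    refine ⟨inv_ne_zero (mul_ne_zero hb0 hnet.ne), fun x z => ?_, fun v hv hv' => ?_,
      hFam.F i his⟩
    · exact zoom_entry hsc hyn hnet.ne hρ1 hnear (hr i his) hb1 x z
    · exact zoom_far hsc hya hnet.ne hnear h0 (by linarith) (norm_pos_iff.2 hb0) hb2 v
        (supp_cobump hθ.one v hv hv')

/-- the cells of the last scale, near the centre -/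
lemma fiber_near {f : C(ℙ k (n → k), ℂ)} (hf : Bas f) (j : n) {ϖ : k} (h0 : 0 < ‖ϖ‖)
    (h1 : ‖ϖ‖ ≤ 1 / 4) {θ : C(ℙ k (n → k), ℝ)} (hθ : Bump j 3 θ) (C₀ : ℝ) :
    ∃ C : ℝ, ∀ {K : Type} [NormedAddCommGroup K] [InnerProductSpace ℂ K] [CompleteSpace K]
      (lam : C(ℙ k (n → k), ℂ) →⋆ₐ[ℂ] (K →L[ℂ] K)) {ι : Type} [DecidableEq ι] (s : Finset ι)
      (T : ι → Matrix n n k) (y : ι → n → k) (b r : ι → ℝ) (F : ι → C(ℙ k (n → k), ℂ))
      (ρ : k) (c : ι → ι), Fam f C₀ j s T y b r F → Net j y ρ s c → ‖ρ‖ ≤ 1 →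
      (∀ i ∈ s, r i ≤ ‖ρ‖ ∧ ‖ϖ‖ * ‖ρ‖ ≤ r i) → ∀ a, Good lam (s.filter fun i => c i = a)
        (fun i => F i * cb θ j (y (c i)) ρ) C := by
  obtain ⟨C, hC⟩ := cell_good hf (toC θ) (6 * C₀) (7 * C₀ / ‖ϖ‖ ^ 2)
  refine ⟨max C 0, fun {K} _ _ _ lam {ι} _ s T y b r F ρ c hFam hnet hρ1 hr a => ?_⟩
  rcases (s.filter fun i => c i = a).eq_empty_or_nonempty with he | ⟨i₀, hi₀⟩
  · rw [he]
    exact (good_empty lam _).mono (le_max_right _ _)
  obtain ⟨hi₀s, hi₀a⟩ := Finset.mem_filter.1 hi₀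
  have hya : y a j = 1 := by rw [← hi₀a]; exact hnet.y_j i₀ hi₀s
  have hyn : ‖y a‖ ≤ 1 := by rw [← hi₀a]; exact hnet.y_n i₀ hi₀s
  have hex : ∀ i, ∃ β : k, i ∈ s → β ≠ 0 ∧ b i ≤ ‖β‖ ∧ ‖ϖ‖ * ‖β‖ ≤ b i := by
    intro i
    by_cases hi : i ∈ s
    · obtain ⟨β, hβ⟩ := exists_beta h0 (by linarith) (hFam.sc i hi).b_pos
      exact ⟨β, fun _ => hβ⟩
    · exact ⟨0, fun h => absurd h hi⟩
  choose β hβ using hex
  have key := hC lam (s.filter fun i => c i = a) (zi j (y a) ρ) (zm j (y a) ρ)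
    (zm_zi hya hnet.ne) T (fun i => (β i * ρ)⁻¹) F ?_
  · refine (key.congr fun i hi => ?_).mono (le_max_left _ _)
    rw [(Finset.mem_filter.1 hi).2, cb_eq hya hnet.ne]
  · intro i hi
    obtain ⟨his, hia⟩ := Finset.mem_filter.1 hi
    obtain ⟨hb0, hb1, hb2⟩ := hβ i his
    have hsc := hFam.sc i his
    have hnear : ‖y i - y a‖ ≤ ‖ρ‖ := by rw [← hia]; exact hnet.near i his
    refine ⟨inv_ne_zero (mul_ne_zero hb0 hnet.ne), fun x z => ?_, fun v hv hv' => ?_,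
      hFam.F i his⟩
    · exact zoom_entry hsc hyn hnet.ne hρ1 hnear (hr i his).1 hb1 x z
    · refine zoom_near hsc hya hnet.ne h0 (norm_pos_iff.2 hb0) hb2 (hr i his).2 v ?_
      have := supp_bump hθ.zero v hv hv'
      linarith

/-- telescoping -/
lemma telescope {R : Type*} [CommRing R] (F : R) (H W : ℕ → R)
    (h1 : ∀ l, H (l + 1) * H l = H (l + 1)) (h2 : ∀ l, H l * W (l + 1) = H l)
    (h3 : ∀ l, H l * W l = H l) (m : ℕ) :
    F = F * (1 - H 0) + ∑ l ∈ Finset.range m, F * (1 - H (l + 1)) * W (l + 1) * H l +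
      F * H m * W m := by
  induction m with
  | zero => rw [Finset.sum_range_zero, mul_assoc F (H 0), h3]; ring
  | succ m ih =>
    rw [Finset.sum_range_succ]
    have e1 : F * (1 - H (m + 1)) * W (m + 1) * H m = F * H m - F * H (m + 1) := by
      calc F * (1 - H (m + 1)) * W (m + 1) * H m
          = F * (1 - H (m + 1)) * (H m * W (m + 1)) := by ring
        _ = F * H m - F * (H (m + 1) * H m) := by rw [h2]; ring
        _ = _ := by rw [h1]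
    have e2 : F * H (m + 1) * W (m + 1) = F * H (m + 1) := by rw [mul_assoc, h3]
    have e3 : F * H m * W m = F * H m := by rw [mul_assoc, h3]
    rw [e1, e2]
    rw [e3] at ih
    calc F = F * (1 - H 0) + ∑ l ∈ Finset.range m, F * (1 - H (l + 1)) * W (l + 1) * H l +
        F * H m := ih
      _ = _ := by ring

/-- **one chart** -/
theorem good_chart {f : C(ℙ k (n → k), ℂ)} (hf : Bas f) (j : n) {ϖ : k} (h0 : 0 < ‖ϖ‖)
    (h1 : ‖ϖ‖ ≤ 1 / 4) (C₀ : ℝ) :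
    ∃ C : ℝ, 0 ≤ C ∧ ∀ {K : Type} [NormedAddCommGroup K] [InnerProductSpace ℂ K]
      [CompleteSpace K] (lam : C(ℙ k (n → k), ℂ) →⋆ₐ[ℂ] (K →L[ℂ] K)) {ι : Type} (s : Finset ι)
      (T : ι → Matrix n n k) (y : ι → n → k) (b r : ι → ℝ) (F : ι → C(ℙ k (n → k), ℂ)) (L : ℕ),
      Fam f C₀ j s T y b r F → (∀ i ∈ s, ‖ϖ‖ ^ L ≤ r i) → Good lam s F (C * (1 + L)) := by
  classical
  set κ := ‖ϖ‖ with hκ
  have hκ1 : κ < 1 := by linarith
  have hϖ : ϖ ≠ 0 := norm_pos_iff.1 h0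
  obtain ⟨θ, hθ⟩ := exists_Bump (k := k) j (show (0 : ℝ) < 3 by norm_num)
  have hDw : (0 : ℝ) < 8 / κ := by positivity
  obtain ⟨θw, hθw⟩ := exists_Bump (k := k) j hDw
  obtain ⟨C₁, hC₁⟩ := fiber_far hf j h0 h1 hθ C₀
  obtain ⟨C₂, hC₂⟩ := fiber_near hf j h0 h1 hθ C₀
  obtain ⟨N₁, hN₁⟩ := net_orth hθw
  obtain ⟨N₂, hN₂⟩ := net_bumps hθ
  obtain ⟨N₃, hN₃⟩ := net_card (k := k) (n := n) j
  set A := max C₁ 0 with hA
  set B := max C₂ 0 with hB
  have hA0 : 0 ≤ A := le_max_right _ _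
  have hB0 : 0 ≤ B := le_max_right _ _
  refine ⟨A * N₃ + A * N₁ * N₂ + B * N₁, by positivity,
    fun {K} _ _ _ lam {ι} s T y b r F L hFam hL => ?_⟩
  -- the nets
  have hex : ∀ l : ℕ, ∃ c : ι → ι, Net j y (ϖ ^ l) s c := fun l =>
    exists_Net j y (ϖ ^ l) (pow_ne_zero l hϖ) s fun i hi => ⟨(hFam.sc i hi).y_j, (hFam.sc i hi).y_n⟩
  choose c hc using hex
  -- the levels
  have hlev : ∀ i, ∃ m : ℕ, i ∈ s → (r i ≤ κ ^ m ∧ κ ^ (m + 1) < r i ∧ m ≤ L) := by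
    intro i
    by_cases hi : i ∈ s
    · obtain ⟨m, hm1, hm2⟩ := exists_nat_pow_near_of_lt_one (hFam.sc i hi).r_pos
        (hFam.sc i hi).r_le h0 hκ1
      refine ⟨m, fun _ => ⟨hm2, hm1, ?_⟩⟩
      by_contra hmL
      push Not at hmL
      have h2 : κ ^ m ≤ κ ^ (L + 1) := pow_le_pow_of_le_one h0.le hκ1.le hmL
      have h3 : κ ^ (L + 1) < κ ^ L := pow_lt_pow_right_of_lt_one₀ h0 hκ1 (Nat.lt_succ_self L)
      have := hL i hi
      linarith
    · exact ⟨0, fun h => absurd h hi⟩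
  choose m hm using hlev
  set H : ℕ → ι → C(ℙ k (n → k), ℂ) := fun l i => cb θ j (y (c l i)) (ϖ ^ l) with hH
  set W : ℕ → ι → C(ℙ k (n → k), ℂ) := fun l i => cb θw j (y (c l i)) (ϖ ^ l) with hW
  have hpw : ∀ l : ℕ, ‖ϖ ^ l‖ = κ ^ l := fun l => norm_pow _ _
  have hpos : ∀ l : ℕ, 0 < κ ^ l := fun l => pow_pos h0 l
  have hle1 : ∀ l : ℕ, κ ^ l ≤ 1 := fun l => pow_le_one₀ h0.le hκ1.le
  have hdist : ∀ l l' : ℕ, ∀ i ∈ s, ‖y (c l i) - y (c l' i)‖ ≤ κ ^ l + κ ^ l' := by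
    intro l l' i hi
    have e : y (c l i) - y (c l' i) = (y i - y (c l' i)) - (y i - y (c l i)) := by abel
    rw [e]
    refine (norm_sub_le _ _).trans ?_
    have h2 := (hc l).near i hi
    have h3 := (hc l').near i hi
    rw [hpw] at h2 h3
    linarith
  -- relations of the bumps
  have t1 : ∀ i ∈ s, ∀ l, H (l + 1) i * H l i = H (l + 1) i := by
    intro i hi l
    refine cb_mul hθ hθ ((hc (l + 1)).y_j i hi) (hc (l + 1)).ne ((hc l).y_j i hi) (hc l).ne ?_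
    rw [hpw, hpw]
    have h2 := hdist (l + 1) l i hi
    have h3 : κ ^ (l + 1) ≤ κ ^ l * (1 / 4) := by
      rw [pow_succ]; exact mul_le_mul_of_nonneg_left h1 (hpos l).le
    have := hpos l
    linarith
  have t2 : ∀ i ∈ s, ∀ l, H l i * W (l + 1) i = H l i := by
    intro i hi l
    refine cb_mul hθ hθw ((hc l).y_j i hi) (hc l).ne ((hc (l + 1)).y_j i hi) (hc (l + 1)).ne ?_
    rw [hpw, hpw]
    have h2 := hdist l (l + 1) i hi
    have h3 : κ ^ (l + 1) ≤ κ ^ l * (1 / 4) := by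
      rw [pow_succ]; exact mul_le_mul_of_nonneg_left h1 (hpos l).le
    have h4 : 8 / κ * κ ^ (l + 1) = 8 * κ ^ l := by
      rw [pow_succ]; field_simp
    have := hpos l
    linarith
  have t3 : ∀ i ∈ s, ∀ l, H l i * W l i = H l i := by
    intro i hi l
    refine cb_mul hθ hθw ((hc l).y_j i hi) (hc l).ne ((hc l).y_j i hi) (hc l).ne ?_
    rw [hpw, sub_self, norm_zero, add_zero]
    have h4 : (8 : ℝ) ≤ 8 / κ := by
      rw [le_div_iff₀ h0]; linarith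
    have := hpos l
    nlinarith
  -- good families
  have hA' : ∀ l, ∀ t ⊆ s, (∀ i ∈ t, r i ≤ κ ^ l) → ∀ a,
      Good lam (t.filter fun i => c l i = a) (fun i => F i * (1 - H l i)) A := by
    intro l t hts hr a
    refine (hC₁ lam t T y b r F (ϖ ^ l) (c l) (hFam.subset hts) ((hc l).subset hts)
      (by rw [hpw]; exact hle1 l) (fun i hi => by rw [hpw]; exact hr i hi) a).mono
      (le_max_left _ _)
  have gH : ∀ l, Good lam s (H l) N₂ := fun l => hN₂ lam s y (ϖ ^ l) (c l) (hc l)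
  have g0 : Good lam s (fun i => F i * (1 - H 0 i)) (A * N₃) := by
    have h2 := good_orth (lam := lam) (s := s) (c 0) (fun _ => 1)
      (F := fun i => F i * (1 - H 0 i)) (C := A) (C₀ := N₃) hA0 (Nat.cast_nonneg _)
      (hA' 0 s (Finset.Subset.refl s) fun i hi => by
        rw [pow_zero]; exact (hFam.sc i hi).r_le) (fun x => ?_)
    · refine h2.congr fun i _ => ?_
      rw [mul_one]
    · have h3 : (s.image (c 0)).card ≤ N₃ := by
        refine hN₃ s y (c 0) ?_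
        have := hc 0
        rwa [pow_zero] at this
      have h4 : ((s.image (c 0)).card : ℝ) ≤ N₃ := by exact_mod_cast h3
      have e : ∑ g ∈ s.image (c 0), ‖(1 : C(ℙ k (n → k), ℂ)) x‖ ^ 2 = (s.image (c 0)).card := by
        simp
      rw [e]
      refine h4.trans ?_
      rcases Nat.eq_zero_or_pos N₃ with h5 | h5
      · rw [h5]; simp
      · have h6 : (1 : ℝ) ≤ N₃ := by exact_mod_cast h5
        nlinarith
  have g1 : ∀ l, Good lam s (fun i => if l < m i then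
      F i * (1 - H (l + 1) i) * W (l + 1) i * H l i else 0) (A * N₁ * N₂) := by
    intro l
    refine good_ite ?_
    have hts : s.filter (fun i => l < m i) ⊆ s := Finset.filter_subset _ _
    refine Good.mul ?_ ((gH l).subset hts)
    refine hN₁ lam _ y (ϖ ^ (l + 1)) (c (l + 1)) _ A ((hc (l + 1)).subset hts) hA0 ?_
    refine hA' (l + 1) _ hts fun i hi => ?_
    obtain ⟨his, hil⟩ := Finset.mem_filter.1 hi
    exact (hm i his).1.trans (pow_le_pow_of_le_one h0.le hκ1.le hil)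
  have g2 : ∀ l, Good lam s (fun i => if l = m i then F i * H l i * W l i else 0) (B * N₁) := by
    intro l
    refine good_ite ?_
    have hts : s.filter (fun i => l = m i) ⊆ s := Finset.filter_subset _ _
    refine hN₁ lam _ y (ϖ ^ l) (c l) _ B ((hc l).subset hts) hB0 fun a => ?_
    refine (hC₂ lam _ T y b r F (ϖ ^ l) (c l) (hFam.subset hts) ((hc l).subset hts)
      (by rw [hpw]; exact hle1 l) (fun i hi => ?_) a).mono (le_max_left _ _)
    obtain ⟨his, hil⟩ := Finset.mem_filter.1 hi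
    rw [hpw, hil]
    refine ⟨(hm i his).1, ?_⟩
    have := (hm i his).2.1
    rw [pow_succ] at this
    linarith
  have total := (g0.add (good_sum (lam := lam) (s := s) (Finset.range L)
    fun l _ => g1 l)).add (good_sum (lam := lam) (s := s) (Finset.range (L + 1)) fun l _ => g2 l)
  refine (total.congr fun i hi => ?_).mono ?_
  · have h2 := telescope (F i) (fun l => H l i) (fun l => W l i) (t1 i hi) (t2 i hi) (t3 i hi) (m i)
    obtain ⟨-, -, hmL⟩ := hm i hi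
    have e1 : ∑ l ∈ Finset.range L, (if l < m i then
        F i * (1 - H (l + 1) i) * W (l + 1) i * H l i else 0) =
        ∑ l ∈ Finset.range (m i), F i * (1 - H (l + 1) i) * W (l + 1) i * H l i := by
      rw [← Finset.sum_filter]
      congr 1
      ext l
      simp only [Finset.mem_filter, Finset.mem_range]
      omega
    have e2 : ∑ l ∈ Finset.range (L + 1), (if l = m i then F i * H l i * W l i else 0) =
        F i * H (m i) i * W (m i) i := by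
      rw [Finset.sum_ite_eq' (Finset.range (L + 1)) (m i)
        (fun l => F i * H l i * W l i), if_pos (Finset.mem_range.2 (by omega))]
    rw [e1, e2]
    exact h2.symm
  · rw [Finset.sum_const, Finset.sum_const, Finset.card_range, Finset.card_range, nsmul_eq_mul,
      nsmul_eq_mul]
    have h3 : 0 ≤ A * N₃ * L := by positivity
    have h4 : 0 ≤ A * N₁ * N₂ := by positivity
    push_cast
    nlinarith

end fam

end Vale.Agent.P092.H437
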